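import Vale.Agent.P167.H562.Q.CB2

/-!
# P167, general `q`, block Q-MAJ: large segments near a flat piece of the boundary

`FltQ D η b R pl pr`: `D` is flat near `b`, the squares below are frozen in the state `pl` on the left of
`b` and `pr` on the right (free: `false false`; wired: `true true`; junction: `pl ≠ pr`). `macro_B`: the
number of the large segments near a zone, for all domains such that the boxes near the zone have property
`OneC`.
-/

namespace Vale.Agent.P167.H562.QM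

open Finset Filter Topology MeasureTheory Vale.Agent.P167.FK
open Vale.Agent.P145.FB (PStep PConn)
open Vale.Agent.P167.FKA (Loc Ind mem_bxx_sh shi_sh sh_shi)
open Vale.Agent.P167.H166 (bxx mem_bxx)
open Vale.Agent.P167.H45 (gp gp_disj nm_sub_le)
open Vale.Agent.P167.H562 (Em Em_mono Em_holder)
open Vale.Agent.P167.H562.GL (Em_colP loc_integrable)
open Relation

variable {Q : ℝ} {D : Finset (ℤ × ℤ)} {η : Cfg} {x b : ℤ × ℤ} {r R R' : ℤ} {pl pr : Bool}

/-! ### flat pieces -/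

/-- `D` is flat near `b`, and the squares below are frozen. -/
structure FltQ (D : Finset (ℤ × ℤ)) (η : Cfg) (b : ℤ × ℤ) (R : ℤ) (pl pr : Bool) : Prop where
  dom : ∀ v : ℤ × ℤ, nm (v - b) ≤ R → (v ∈ D ↔ b.2 ≤ v.2)
  out : ∀ v : ℤ × ℤ, nm (v - b) ≤ R → v.2 < b.2 → η v = if v.1 < b.1 then pl else pr

theorem FltQ.oneP (h : FltQ D η b R pl pr) (hx : ∀ v ∈ bxx x R', nm (v - b) ≤ R) :
    OneP (bxx x R') D η := by
  intro v hv hvD hv1 w hw hwD hw1
  have key : ∀ z ∈ bxx x R', z ∉ D → z.2 < b.2 := fun z hz hzD => by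
    by_contra hcon
    exact hzD ((h.dom z (hx z hz)).2 (by omega))
  have hv2 := key v hv hvD
  have hw2 := key w hw hwD
  rw [h.out v (hx v hv) hv2] at hv1
  rw [h.out w (hx w hw) hw2] at hw1
  have hF : ∀ z : ℤ × ℤ, z ∈ bxx x R' → z.2 < b.2 → (if z.1 < b.1 then pl else pr) = true →
      z ∈ ({z | z ∈ bxx x R' ∧ z ∉ D ∧ η z = true} : Set (ℤ × ℤ)) := fun z hz hz2 hz3 => by
    refine ⟨hz, fun hzD => ?_, ?_⟩
    · have := (h.dom z (hx z hz)).1 hzD
      omega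
    · rw [h.out z (hx z hz) hz2]; exact hz3
  rw [H945.mem_bxx'] at hv hw
  cases pl <;> cases pr
  · simp at hv1
  · have e1 : b.1 ≤ v.1 := by by_contra hc; rw [if_pos (by omega)] at hv1; exact absurd hv1 (by simp)
    have e2 : b.1 ≤ w.1 := by by_contra hc; rw [if_pos (by omega)] at hw1; exact absurd hw1 (by simp)
    refine QC.rect (x0 := max (x.1 - R') b.1) (x1 := x.1 + R' + 1) (y0 := x.2 - R')
      (y1 := min (x.2 + R' + 1) b.2) (fun z h1 h2 h3 h4 => hF z ?_ ?_ ?_) ?_ ?_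
    · rw [H945.mem_bxx']; omega
    · omega
    · rw [if_neg (by omega)]
    · omega
    · omega
  · have e1 : v.1 < b.1 := by by_contra hc; rw [if_neg hc] at hv1; exact absurd hv1 (by simp)
    have e2 : w.1 < b.1 := by by_contra hc; rw [if_neg hc] at hw1; exact absurd hw1 (by simp)
    refine QC.rect (x0 := x.1 - R') (x1 := min (x.1 + R' + 1) b.1) (y0 := x.2 - R')
      (y1 := min (x.2 + R' + 1) b.2) (fun z h1 h2 h3 h4 => hF z ?_ ?_ ?_) ?_ ?_
    · rw [H945.mem_bxx']; omega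
    · omega
    · rw [if_pos (by omega)]
    · omega
    · omega
  · refine QC.rect (x0 := x.1 - R') (x1 := x.1 + R' + 1) (y0 := x.2 - R')
      (y1 := min (x.2 + R' + 1) b.2) (fun z h1 h2 h3 h4 => hF z ?_ ?_ ?_) ?_ ?_
    · rw [H945.mem_bxx']; omega
    · omega
    · simp
    · omega
    · omega

theorem nm_shi' (v b : ℤ × ℤ) : nm (v - FKA.sh b) = nm (FKA.shi v - b) := by
  congr 1
  ext
  · simp [FKA.sh, FKA.shi]; ring
  · simp [FKA.sh, FKA.shi]

theorem mem_image_sh {v : ℤ × ℤ} : v ∈ D.image (fun v => (v.1 + 1, v.2)) ↔ FKA.shi v ∈ D := by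
  rw [Finset.mem_image]
  constructor
  · rintro ⟨w, hw, rfl⟩
    have : FKA.shi (w.1 + 1, w.2) = w := shi_sh w
    rw [this]; exact hw
  · intro h
    exact ⟨_, h, sh_shi v⟩

theorem FltQ.du (h : FltQ D η b R pl pr) :
    FltQ (D.image fun v => (v.1 + 1, v.2)) (du η) (FKA.sh b) R (!pl) (!pr) where
  dom v hv := by
    rw [nm_shi'] at hv
    rw [mem_image_sh, h.dom _ hv]
    rfl
  out v hv hv2 := by
    rw [nm_shi'] at hv
    have h1 := h.out _ hv hv2
    have e : FK.du η v = !η (FKA.shi v) := rfl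
    rw [e, h1]
    have e1 : (FKA.shi v).1 = v.1 - 1 := rfl
    have e2 : (FKA.sh b).1 = b.1 + 1 := rfl
    by_cases hc : (FKA.shi v).1 < b.1
    · rw [if_pos hc, if_pos (by omega)]
    · rw [if_neg hc, if_neg (by omega)]

theorem FltQ.oneC (h : FltQ D η b R pl pr) (hx : ∀ v ∈ bxx x R', nm (v - b) ≤ R) :
    OneC x R' D η := by
  refine ⟨h.oneP hx, h.du.oneP fun v hv => ?_⟩
  rw [nm_shi']
  rw [mem_bxx_sh] at hv
  exact hx _ hv

theorem oneC_sub (h : bxx x R' ⊆ D) : OneC x R' D η := by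
  refine ⟨fun v hv hvD => absurd (h hv) hvD, fun v hv hvD => absurd ?_ hvD⟩
  rw [mem_bxx_sh] at hv
  exact mem_image_sh.2 (h hv)

/-! ### the law with a density -/

theorem exists_law (hQ : 0 < Q) {G : Cfg → ℝ} (hG0 : ∀ ω, 0 ≤ G ω) (hpos : 0 < Ex Q D η G) :
    ∃ ν : Measure Cfg, IsProbabilityMeasure ν ∧ ∀ F : Cfg → ℝ,
      ∫ ω, F ω ∂ν = Ex Q D η (fun ω => G ω * F ω) / Ex Q D η G := by
  classical
  set T : ℝ := ∑ S ∈ D.powerset, Q ^ LD D (cf D η S) * G (cf D η S) with hT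
  have hZ := FKA.Zq_pos hQ D η
  have hTpos : 0 < T := by
    unfold Ex at hpos
    rw [div_pos_iff_of_pos_right hZ] at hpos
    exact hpos
  set w : Finset (ℤ × ℤ) → ℝ := fun S => Q ^ LD D (cf D η S) * G (cf D η S) / T with hw
  have hw0 : ∀ S, 0 ≤ w S := fun S => div_nonneg (mul_nonneg (pow_pos hQ _).le (hG0 _)) hTpos.le
  have hw1 : ∑ S ∈ D.powerset, w S = 1 := by
    simp only [hw]
    rw [← Finset.sum_div, ← hT, div_self hTpos.ne']
  set ν : Measure Cfg := ∑ S ∈ D.powerset, ENNReal.ofReal (w S) • Measure.dirac (cf D η S) with hν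
  have hmass : ν Set.univ = 1 := by
    rw [hν, Measure.finsetSum_apply]
    simp only [Measure.smul_apply, measure_univ, smul_eq_mul, mul_one]
    rw [← ENNReal.ofReal_sum_of_nonneg fun S _ => hw0 S, hw1, ENNReal.ofReal_one]
  refine ⟨ν, ⟨hmass⟩, fun F => ?_⟩
  rw [hν, integral_finsetSum_measure]
  · simp only [integral_smul_measure, integral_dirac, smul_eq_mul]
    unfold Ex
    rw [div_div_div_cancel_right₀ hZ.ne', ← hT, Finset.sum_div]
    refine Finset.sum_congr rfl fun S _ => ?_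
    rw [ENNReal.toReal_ofReal (hw0 S)]
    simp only [hw]
    ring
  · intro S _
    refine Integrable.smul_measure ?_ ENNReal.ofReal_ne_top
    exact integrable_dirac (by simp)

/-! ### products over boxes -/

theorem prod_expO {ν : Measure Cfg} [IsProbabilityMeasure ν] {ι : Type*} [DecidableEq ι] {k : ℤ}
    {l C : ℝ} (hC : 0 ≤ C) {x : ι → ℤ × ℤ} {r : ι → ℤ} {Z : ι → Cfg → ℕ} {W : Finset (ℤ × ℤ)}
    (J : Finset ι)
    (hloc : ∀ i, ∀ ω ω' : Cfg, (∀ v, nm (v - x i) ≤ k * r i → ω v = ω' v) → Z i ω = Z i ω')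
    (hW : ∀ i ∈ J, bxx (x i) (k * r i) ⊆ W)
    (hE : ∀ i ∈ J, ∀ (G : Cfg → ℝ), (∀ ω, 0 ≤ G ω) → Loc W G →
      Ind (bxx (x i) (k * r i)) G →
      ∫ ω, G ω * Real.exp (l * (Z i ω : ℝ)) ∂ν ≤ C * ∫ ω, G ω ∂ν)
    (hd : ∀ i ∈ J, ∀ j ∈ J, i ≠ j →
      Disjoint {v | nm (v - x i) ≤ k * r i} {v | nm (v - x j) ≤ k * r j}) :
    Loc W (fun ω => Real.exp (∑ i ∈ J, l * (Z i ω : ℝ))) ∧
    ∫ ω, Real.exp (∑ i ∈ J, l * (Z i ω : ℝ)) ∂ν ≤ C ^ J.card := by
  have hL : ∀ J : Finset ι, Loc (J.biUnion fun j => bxx (x j) (k * r j))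
      (fun ω => Real.exp (∑ i ∈ J, l * (Z i ω : ℝ))) := by
    intro J ω ω' h
    show Real.exp _ = Real.exp _
    congr 1
    refine Finset.sum_congr rfl fun j hj => ?_
    rw [hloc j ω ω' fun v hv => h v (Finset.mem_biUnion.2 ⟨j, hj, mem_bxx.2 hv⟩)]
  have hLW : ∀ J' : Finset ι, J' ⊆ J → Loc W (fun ω => Real.exp (∑ i ∈ J', l * (Z i ω : ℝ))) :=
    fun J' hJ' => GL.Loc.mono (Finset.biUnion_subset.2 fun j hj => hW j (hJ' hj)) (hL J')
  refine ⟨hLW J (Finset.Subset.refl _), ?_⟩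
  induction J using Finset.induction_on with
  | empty => simp
  | insert i J hi ih =>
    have h1 := ih (fun i hi => hW i (Finset.mem_insert_of_mem hi))
      (fun i hi => hE i (Finset.mem_insert_of_mem hi))
      (fun i hi j hj => hd i (Finset.mem_insert_of_mem hi) j (Finset.mem_insert_of_mem hj))
      (fun J' hJ' => hLW J' (hJ'.trans (Finset.subset_insert _ _)))
    have h2 : ∀ ω, Real.exp (∑ j ∈ insert i J, l * (Z j ω : ℝ)) =
        Real.exp (∑ j ∈ J, l * (Z j ω : ℝ)) * Real.exp (l * (Z i ω : ℝ)) := by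
      intro ω
      rw [Finset.sum_insert hi, add_comm, Real.exp_add]
    simp only [h2]
    have h3 := hE i (Finset.mem_insert_self _ _)
      (fun ω => Real.exp (∑ j ∈ J, l * (Z j ω : ℝ)))
      (fun ω => (Real.exp_pos _).le) (hLW J (Finset.subset_insert _ _)) (by
        refine FKA.Loc.ind ?_ (hL J)
        rw [Finset.disjoint_left]
        intro v hv hv'
        obtain ⟨j, hj, hv⟩ := Finset.mem_biUnion.1 hv
        rw [mem_bxx] at hv hv'
        have hij : i ≠ j := fun h => hi (h ▸ hj)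
        exact Set.disjoint_left.1 (hd i (Finset.mem_insert_self _ _) j
          (Finset.mem_insert_of_mem hj) hij) hv' hv)
    rw [Finset.card_insert_of_notMem hi, pow_succ']
    exact h3.trans (mul_le_mul_of_nonneg_left h1 hC)

/-- Exponential moments of the sum of the crossing numbers over boxes of one scale. -/
theorem Em_crossO {k : ℤ} (hk : 2 ≤ k) {l C : ℝ} (hl : 0 < l)
    (hC : 0 < C) {Z : ℤ × ℤ → ℤ → Cfg → ℕ}
    (hloc : ∀ x r, 1 ≤ r → ∀ ω ω' : Cfg, (∀ v, nm (v - x) ≤ k * r → ω v = ω' v) →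
      Z x r ω = Z x r ω') :
    ∃ θ b : ℝ, 0 < θ ∧ 0 ≤ b ∧ ∀ (ν : Measure Cfg) (W : Finset (ℤ × ℤ)), IsProbabilityMeasure ν →
      ∀ (r : ℤ), 1 ≤ r → ∀ I : Finset (ℤ × ℤ), (∀ i ∈ I, bxx (gp r i) (k * r) ⊆ W) →
      (∀ i ∈ I, ∀ (G : Cfg → ℝ), (∀ ω, 0 ≤ G ω) → Loc W G →
        Ind (bxx (gp r i) (k * r)) G →
        ∫ ω, G ω * Real.exp (l * (Z (gp r i) r ω : ℝ)) ∂ν ≤ C * ∫ ω, G ω ∂ν) →
      Em ν (fun ω => θ * ∑ i ∈ I, (Z (gp r i) r ω : ℝ)) ≤
        ENNReal.ofReal (Real.exp (I.card * b)) := by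
  classical
  set m : ℕ := (2 * k + 1).toNat with hm
  have hm' : (m : ℤ) = 2 * k + 1 := by omega
  have : NeZero m := ⟨by omega⟩
  set c : ℕ := Fintype.card (ZMod m × ZMod m) with hc
  have hc0 : (0 : ℝ) < c := by exact_mod_cast Fintype.card_pos
  refine ⟨l / c, Real.log (max C 1), by positivity, Real.log_nonneg (le_max_right _ _),
    fun ν W hνp r hr I hIW hE => ?_⟩
  have e : (fun ω => l / c * ∑ i ∈ I, (Z (gp r i) r ω : ℝ)) =
      fun ω => ∑ i ∈ I, l / c * (Z (gp r i) r ω : ℝ) := by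
    ext ω; rw [Finset.mul_sum]
  rw [e]
  refine Em_colP I (fun i => (((i.1 : ZMod m), (i.2 : ZMod m)) :
    ZMod m × ZMod m)) (fun i _ => ?_) (Real.log_nonneg (le_max_right _ _)) ?_
  · refine H45.meas_locfun (bxx (gp r i) (k * r)) fun ω ω' hw => ?_
    show l / c * (Z (gp r i) r ω : ℝ) = l / c * (Z (gp r i) r ω' : ℝ)
    rw [hloc (gp r i) r hr ω ω' fun v hv => hw v (mem_bxx.2 hv)]
  · intro J hJ hcol
    have e2 : (fun ω => ∑ i ∈ J, (c : ℝ) * (l / c * (Z (gp r i) r ω : ℝ))) =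
        fun ω => ∑ i ∈ J, l * (Z (gp r i) r ω : ℝ) := by
      ext ω
      refine Finset.sum_congr rfl fun i _ => ?_
      field_simp
    rw [← hc, e2]
    obtain ⟨h1, h2⟩ := prod_expO (ν := ν) hC.le (k := k) (x := fun i : ℤ × ℤ => gp r i)
      (r := fun _ => r) (Z := fun i => Z (gp r i) r) (W := W) (l := l) J
      (fun i => hloc _ _ hr) (fun i hi => hIW i (hJ hi)) (fun i hi => hE i (hJ hi)) (by
        intro i hi j hj hij
        have hc := hcol i hi j hj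
        have h2 := congrArg Prod.fst hc
        have h3 := congrArg Prod.snd hc
        dsimp only at h2 h3
        exact gp_disj hr (by omega) hij h2 h3)
    rw [Em_eq (loc_integrable h1)]
    refine ENNReal.ofReal_le_ofReal (h2.trans ?_)
    rw [Real.exp_nat_mul, Real.exp_log (by positivity)]
    exact pow_le_pow_left₀ hC.le (le_max_left _ _) _

/-! ### the macroscopic bound -/

/-- The set of the squares at distance at most `a` of `A` (as a predicate). -/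
def Nr (A : Finset (ℤ × ℤ)) (a : ℝ) (v : ℤ × ℤ) : Prop := ∃ u ∈ A, (nm (v - u) : ℝ) ≤ a

/-- **Large segments near a zone, up to the boundary.** The number `N` of the pairwise disjoint segments
of diameter at least `κ ρ` which visit the zone `A`: exponential moments, for all domains such that
the boxes near the zone have the property `OneC`, and all factors `G` which do not depend on the squares
of the domain near the zone. -/
theorem macro_B (hQ : 1 ≤ Q) (h : RSW Q) (κ R s : ℝ) (m : ℕ) (hκ : 0 < κ) (hR : 0 ≤ R) :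
    ∃ ε C ρ0 : ℝ, 0 < ε ∧ 0 < C ∧ 0 < ρ0 ∧ ∀ ρ : ℝ, ρ0 ≤ ρ → ∀ (c : ℤ × ℤ) (A : Finset (ℤ × ℤ)),
      (∀ v ∈ A, (nm (v - c) : ℝ) ≤ R * ρ) → ∀ (x : Fin m → ℤ × ℤ), ∃ N : Cfg → ℕ,
      (∀ ω ω' : Cfg, (∀ v, Nr A (κ * ρ) v →
        (∀ i, ε * ρ < (nm (v - x i) : ℝ)) → ω v = ω' v) → N ω = N ω') ∧
      (∀ ω, MajA A (κ * ρ) ω (N ω)) ∧
      ∀ (D : Finset (ℤ × ℤ)) (η : Cfg), Good η →
        (∀ (y : ℤ × ℤ) (a : ℤ), 1 ≤ a → (∀ v ∈ bxx y a, Nr A (κ * ρ) v) → OneC y a D η) →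
        ∀ G : Cfg → ℝ, (∀ ω, 0 ≤ G ω) →
        (∀ ω ω' : Cfg, (∀ v, ¬ (v ∈ D ∧ Nr A (κ * ρ) v) → ω v = ω' v) → G ω = G ω') →
        Ex Q D η (fun ω => G ω * Real.exp (s * (N ω : ℝ))) ≤ C * Ex Q D η G := by
  classical
  have hQ0 : 0 < Q := by linarith
  obtain ⟨n0, hn4, hcr⟩ := crossB hQ h
  have hn4' : (4 : ℤ) ≤ n0 := by exact_mod_cast hn4
  have hlog : 0 < Real.log (3 / 2) := Real.log_pos (by norm_num)
  have hk : 2 ≤ (n0 : ℤ) + 2 := by omega
  have hloc : ∀ (x : ℤ × ℤ) (r : ℤ), 1 ≤ r → ∀ ω ω' : Cfg,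
      (∀ v, nm (v - x) ≤ ((n0 : ℤ) + 2) * r → ω v = ω' v) → ZC n0 x r ω = ZC n0 x r ω' :=
    fun x r hr ω ω' hω => ZC_loc n0 x (by omega) hω
  obtain ⟨θ, b, hθ, hb, hEm⟩ := Em_crossO hk (l := Real.log (3 / 2) / 4) (by linarith)
    (C := 3) (by norm_num) hloc
  obtain ⟨n, hn⟩ := exists_nat_ge (|s| / θ)
  have hsn : |s| ≤ θ * (n + 1 : ℕ) := by
    rw [div_le_iff₀ hθ] at hn
    push_cast
    nlinarith
  set N : ℕ := n + 1 with hN
  have hN0 : 0 < N := by omega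
  obtain ⟨ε, Dc, ρ0, hε, hρ0, hdet⟩ := macro_detA hk hloc
    (fun x r hr ω 𝓕 h1 h2 h3 => ZC_seg n0 x hr ω 𝓕 h1 h2 h3) κ R m N hN0 hκ hR
  refine ⟨ε, Real.exp (Dc * b), ρ0, hε, Real.exp_pos _, hρ0, fun ρ hρ c A hA x => ?_⟩
  obtain ⟨r, I, hr1, hI, hI0, hIU, h1, h2⟩ := hdet ρ hρ c A hA x
  refine ⟨fun ω => (∑ i ∈ I, ZC n0 (gp r i.2) r ω) / N, h1, h2, fun D η hη hone G hG0 hG => ?_⟩
  have hnear : ∀ i ∈ I, ∀ v ∈ bxx (gp r i.2) (((n0 : ℤ) + 2) * r), Nr A (κ * ρ) v :=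
    fun i hi v hv => hIU i hi v (mem_bxx.1 hv)
  rcases (FKA.Ex_nonneg (D := D) (η := η) hQ0 fun S _ => hG0 _).eq_or_lt with h0 | hpos
  · -- `G` vanishes
    have hz : ∀ S ⊆ D, G (cf D η S) = 0 := by
      intro S hS
      have hZ := FKA.Zq_pos hQ0 D η
      have hs : ∑ S ∈ D.powerset, Q ^ LD D (cf D η S) * G (cf D η S) = 0 := by
        unfold Ex at h0
        rw [eq_comm, div_eq_zero_iff] at h0
        rcases h0 with h0 | h0
        · exact h0
        · exact absurd h0 hZ.ne'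
      rw [Finset.sum_eq_zero_iff_of_nonneg fun S _ => mul_nonneg (pow_pos hQ0 _).le (hG0 _)] at hs
      have := hs S (Finset.mem_powerset.2 hS)
      rcases mul_eq_zero.1 this with h3 | h3
      · exact absurd h3 (pow_pos hQ0 _).ne'
      · exact h3
    rw [← h0, mul_zero]
    refine le_of_eq ?_
    have : Ex Q D η (fun ω => G ω * Real.exp (s * (((∑ i ∈ I, ZC n0 (gp r i.2) r ω) / N : ℕ) : ℝ)))
        = Ex Q D η (fun _ => 0) := FKA.Ex_congr fun S hS => by rw [hz S hS, zero_mul]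
    rw [this, FKA.Ex_const hQ0]
  obtain ⟨ν, hνp, hν⟩ := exists_law hQ0 hG0 hpos
  set W : Finset (ℤ × ℤ) := I.biUnion fun i => bxx (gp r i.2) (((n0 : ℤ) + 2) * r) with hW
  have hEmI := hEm ν W hνp r hr1 (I.image Prod.snd) (fun i hi v hv => by
      obtain ⟨j, hj, rfl⟩ := Finset.mem_image.1 hi
      exact Finset.mem_biUnion.2 ⟨j, hj, hv⟩) (fun i hi G2 hG20 _ hG2 => by
      obtain ⟨j, hj, rfl⟩ := Finset.mem_image.1 hi
      rw [hν, hν, ← mul_div_assoc]
      refine div_le_div_of_nonneg_right ?_ hpos.le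
      have h5 := hcr (gp r j.2) r hr1 D η (fun ω => G ω * G2 ω) hη
        (hone _ _ (by nlinarith) fun v hv => hnear j hj v (by
          rw [mem_bxx] at hv ⊢
          nlinarith)) (fun ω => mul_nonneg (hG0 ω) (hG20 ω))
        (FKA.Ind.mul (fun ω ω' h' => hG ω ω' fun v hv => h' v fun hv' => hv
          ⟨(Finset.mem_inter.1 hv').1, hnear j hj v (Finset.mem_inter.1 hv').2⟩)
          (FKA.Ind.mono Finset.inter_subset_right hG2))
      refine le_trans (le_of_eq ?_) h5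
      refine FKA.Ex_congr fun S _ => ?_
      ring)
  have hsum : ∀ ω, ∑ i ∈ I, (ZC n0 (gp r i.2) r ω : ℝ) =
      ∑ i ∈ I.image Prod.snd, (ZC n0 (gp r i) r ω : ℝ) := by
    intro ω
    rw [Finset.sum_image]
    intro i hi j hj hij
    exact Prod.ext ((hI0 i hi).trans (hI0 j hj).symm) hij
  have hcard : (((I.image Prod.snd).card : ℕ) : ℝ) ≤ Dc :=
    le_trans (by exact_mod_cast Finset.card_image_le) hI
  have hfin : Em ν (fun ω => s * (((∑ i ∈ I, ZC n0 (gp r i.2) r ω) / N : ℕ) : ℝ)) ≤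
      ENNReal.ofReal (Real.exp (Dc * b)) := by
    refine le_trans ?_ (hEmI.trans (ENNReal.ofReal_le_ofReal (Real.exp_le_exp.2
      (mul_le_mul_of_nonneg_right hcard hb))))
    refine Em_mono (μ := ν) fun ω => ?_
    have hN1 : (0 : ℝ) < N := by exact_mod_cast hN0
    have h5 : (((∑ i ∈ I, ZC n0 (gp r i.2) r ω) / N : ℕ) : ℝ) ≤
        (∑ i ∈ I, (ZC n0 (gp r i.2) r ω : ℝ)) / N := by
      refine Nat.cast_div_le.trans ?_
      rw [Nat.cast_sum]
    have h6 : (0 : ℝ) ≤ (((∑ i ∈ I, ZC n0 (gp r i.2) r ω) / N : ℕ) : ℝ) := by positivity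
    rw [← hsum ω]
    calc s * (((∑ i ∈ I, ZC n0 (gp r i.2) r ω) / N : ℕ) : ℝ)
        ≤ |s| * (((∑ i ∈ I, ZC n0 (gp r i.2) r ω) / N : ℕ) : ℝ) :=
          mul_le_mul_of_nonneg_right (le_abs_self s) h6
      _ ≤ (θ * N) * ((∑ i ∈ I, (ZC n0 (gp r i.2) r ω : ℝ)) / N) :=
          mul_le_mul hsn h5 h6 (by positivity)
      _ = _ := by field_simp
  -- back to the expectation
  have hL : Loc W (fun ω => Real.exp (s * (((∑ i ∈ I, ZC n0 (gp r i.2) r ω) / N : ℕ) : ℝ))) := by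
    intro ω ω' hw
    have : ∀ i ∈ I, ZC n0 (gp r i.2) r ω = ZC n0 (gp r i.2) r ω' := fun i hi =>
      hloc _ _ hr1 ω ω' fun v hv => hw v (Finset.mem_biUnion.2 ⟨i, hi, mem_bxx.2 hv⟩)
    simp only
    rw [Finset.sum_congr rfl this]
  rw [Em_eq (loc_integrable hL), ENNReal.ofReal_le_ofReal_iff (Real.exp_pos _).le, hν,
    div_le_iff₀ hpos] at hfin
  exact hfin

end Vale.Agent.P167.H562.QM
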