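import Vale.Agent.P167.H562.Q.CB1

/-!
# P167, general `q`, block Q-MAJ: crossing clusters near the boundary of a domain, continued

`OneP B D ζ`: the open squares of `B` outside of `D` belong to one cluster. `crossB`: the number of the
pairwise disjoint segments which cross an annulus has an exponential moment, for all domains such that the
open squares and the closed squares of the box outside of the domain belong to one primal and one dual
cluster.
-/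

namespace Vale.Agent.P167.H562.QM

open Finset Filter Topology MeasureTheory Vale.Agent.P167.FK Vale.Agent.P167.FKA
open Vale.Agent.P145.FB (PStep PConn)
open Vale.Agent.P167.H166 (cl CC CC_finite cl_eq bxx mem_bxx Sb)
open Vale.Agent.P167.H259 (f_markov)
open Relation

variable {Q : ℝ} {D B : Finset (ℤ × ℤ)} {η ω ζ : Cfg} {x : ℤ × ℤ} {r R : ℤ}

/-! ### squares joined by their corners -/

/-- All even corners of `v` and `w` are connected in `F`. -/
def QC (F : Set (ℤ × ℤ)) (v w : ℤ × ℤ) : Prop := ∀ u u' : ℤ × ℤ, Even (u.1 + u.2) →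
  Even (u'.1 + u'.2) → Cor v u → Cor w u' → u' ∈ cl F u

theorem cl_trans {F : Set (ℤ × ℤ)} {a b c : ℤ × ℤ} (h : b ∈ cl F a) (h' : c ∈ cl F b) :
    c ∈ cl F a := ReflTransGen.trans h h'

theorem cl_mono {F F' : Set (ℤ × ℤ)} (h : F ⊆ F') {a b : ℤ × ℤ} (hab : b ∈ cl F a) :
    b ∈ cl F' a := H166.rtg_mono h hab

theorem QC.mono {F F' : Set (ℤ × ℤ)} (h : F ⊆ F') {v w : ℤ × ℤ} (hv : QC F v w) : QC F' v w :=
  fun u u' h1 h2 h3 h4 => cl_mono h (hv u u' h1 h2 h3 h4)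

theorem QC.refl {F : Set (ℤ × ℤ)} {v : ℤ × ℤ} (hv : v ∈ F) : QC F v v := by
  intro u u' h1 h2 h3 h4
  by_cases h : u = u'
  · rw [h]; exact ReflTransGen.refl
  · exact ReflTransGen.single (step_of_cor hv h3 h4 h1 h2 h)

theorem QC.symm {F : Set (ℤ × ℤ)} {v w : ℤ × ℤ} (h : QC F v w) : QC F w v :=
  fun u u' h1 h2 h3 h4 => cl_symm (h u' u h2 h1 h4 h3)

/-- Every square has an even corner. -/
theorem exists_even (v : ℤ × ℤ) : ∃ u, Even (u.1 + u.2) ∧ Cor v u := by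
  rcases Int.even_or_odd (v.1 + v.2) with h | h
  · exact ⟨v, h, by simp [Cor]⟩
  · refine ⟨(v.1 + 1, v.2), ?_, by simp [Cor]⟩
    rw [Int.even_iff]
    rw [Int.odd_iff] at h
    simp only
    omega

theorem QC.trans {F : Set (ℤ × ℤ)} {v w z : ℤ × ℤ} (h : QC F v w) (h' : QC F w z) : QC F v z := by
  intro u u' h1 h2 h3 h4
  obtain ⟨c, hc, hcw⟩ := exists_even w
  exact cl_trans (h u c h1 hc h3 hcw) (h' c u' hc h2 hcw h4)

/-- Adjacent squares. -/
theorem QC.adj {F : Set (ℤ × ℤ)} {v w : ℤ × ℤ} (hv : v ∈ F) (hw : w ∈ F)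
    (h : w = (v.1 + 1, v.2) ∨ w = (v.1, v.2 + 1)) : QC F v w := by
  obtain ⟨c, hc, hcv, hcw⟩ : ∃ c : ℤ × ℤ, Even (c.1 + c.2) ∧ Cor v c ∧ Cor w c := by
    rcases Int.even_or_odd (v.1 + v.2) with hp | hp
    · exact ⟨(v.1 + 1, v.2 + 1), by rw [Int.even_iff] at *; simp only; omega, by simp [Cor], by
        rcases h with rfl | rfl <;> simp [Cor]⟩
    · rw [Int.odd_iff] at hp
      rcases h with rfl | rfl
      · exact ⟨(v.1 + 1, v.2), by rw [Int.even_iff]; simp only; omega, by simp [Cor], by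
          simp [Cor]⟩
      · exact ⟨(v.1, v.2 + 1), by rw [Int.even_iff]; simp only; omega, by simp [Cor], by
          simp [Cor]⟩
  intro u u' h1 h2 h3 h4
  exact cl_trans (QC.refl hv u c h1 hc h3 hcv) (QC.refl hw c u' hc h2 hcw h4)

/-- The squares of a rectangle. -/
theorem QC.rect {F : Set (ℤ × ℤ)} {x0 x1 y0 y1 : ℤ} (hF : ∀ v : ℤ × ℤ, x0 ≤ v.1 → v.1 < x1 →
    y0 ≤ v.2 → v.2 < y1 → v ∈ F) {v w : ℤ × ℤ} (hv : x0 ≤ v.1 ∧ v.1 < x1 ∧ y0 ≤ v.2 ∧ v.2 < y1)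
    (hw : x0 ≤ w.1 ∧ w.1 < x1 ∧ y0 ≤ w.2 ∧ w.2 < y1) : QC F v w := by
  have hrow : ∀ (n : ℕ) (a y : ℤ), x0 ≤ a → a + n < x1 → y0 ≤ y → y < y1 →
      QC F (a, y) (a + n, y) := by
    intro n
    induction n with
    | zero =>
      intro a y h1 h2 h3 h4
      simp only [Nat.cast_zero, add_zero] at h2 ⊢
      exact QC.refl (hF _ h1 h2 h3 h4)
    | succ n ih =>
      intro a y h1 h2 h3 h4
      push_cast at h2 ⊢
      refine (ih a y h1 (by omega) h3 h4).trans ?_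
      exact QC.adj (hF _ (by simp only; omega) (by simp only; omega) h3 h4)
        (hF _ (by simp only; omega) (by simp only; omega) h3 h4)
        (Or.inl (by simp only [Prod.mk.injEq, and_true]; ring))
  have hcol : ∀ (n : ℕ) (a y : ℤ), x0 ≤ a → a < x1 → y0 ≤ y → y + n < y1 →
      QC F (a, y) (a, y + n) := by
    intro n
    induction n with
    | zero =>
      intro a y h1 h2 h3 h4
      simp only [Nat.cast_zero, add_zero] at h4 ⊢
      exact QC.refl (hF _ h1 h2 h3 h4)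
    | succ n ih =>
      intro a y h1 h2 h3 h4
      push_cast at h4 ⊢
      refine (ih a y h1 h2 h3 (by omega)).trans ?_
      exact QC.adj (hF _ h1 h2 (by simp only; omega) (by simp only; omega))
        (hF _ h1 h2 (by simp only; omega) (by simp only; omega))
        (Or.inr (by simp only [Prod.mk.injEq, true_and]; ring))
  obtain ⟨v1, v2⟩ := v
  obtain ⟨w1, w2⟩ := w
  simp only at hv hw
  have h1 : QC F (v1, v2) (w1, v2) := by
    rcases le_total v1 w1 with h | h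
    · have := hrow (w1 - v1).toNat v1 v2 hv.1 (by omega) hv.2.2.1 hv.2.2.2
      rwa [show v1 + ((w1 - v1).toNat : ℤ) = w1 by omega] at this
    · have := hrow (v1 - w1).toNat w1 v2 hw.1 (by omega) hv.2.2.1 hv.2.2.2
      rw [show w1 + ((v1 - w1).toNat : ℤ) = v1 by omega] at this
      exact this.symm
  have h2 : QC F (w1, v2) (w1, w2) := by
    rcases le_total v2 w2 with h | h
    · have := hcol (w2 - v2).toNat w1 v2 hw.1 hw.2.1 hv.2.2.1 (by omega)
      rwa [show v2 + ((w2 - v2).toNat : ℤ) = w2 by omega] at this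
    · have := hcol (v2 - w2).toNat w1 w2 hw.1 hw.2.1 hw.2.2.1 (by omega)
      rw [show w2 + ((v2 - w2).toNat : ℤ) = v2 by omega] at this
      exact this.symm
  exact h1.trans h2

/-! ### the boundary cluster -/

/-- The open squares of `B` outside of `D` belong to one cluster. -/
def OneP (B D : Finset (ℤ × ℤ)) (ζ : Cfg) : Prop := ∀ v ∈ B, v ∉ D → ζ v = true →
  ∀ w ∈ B, w ∉ D → ζ w = true → QC {z | z ∈ B ∧ z ∉ D ∧ ζ z = true} v w

open Classical in
/-- The even corners of the open squares of `B` outside of `D`. -/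
noncomputable def bS (B D : Finset (ℤ × ℤ)) (ζ : Cfg) : Finset (ℤ × ℤ) :=
  ((B.filter fun v => v ∉ D ∧ ζ v = true).biUnion fun v =>
    {v, (v.1 + 1, v.2), (v.1, v.2 + 1), (v.1 + 1, v.2 + 1)}).filter fun u => Even (u.1 + u.2)

theorem mem_bS {u : ℤ × ℤ} : u ∈ bS B D ζ ↔ Even (u.1 + u.2) ∧ ∃ v ∈ B, v ∉ D ∧ ζ v = true ∧
    Cor v u := by
  classical
  unfold bS
  simp only [mem_filter, mem_biUnion, mem_insert, mem_singleton]
  constructor
  · rintro ⟨⟨v, ⟨h1, h2, h3⟩, h4⟩, h5⟩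
    refine ⟨h5, v, h1, h2, h3, ?_⟩
    rcases h4 with rfl | rfl | rfl | rfl <;> simp [Cor]
  · rintro ⟨h5, v, h1, h2, h3, h4, h6⟩
    refine ⟨⟨v, ⟨h1, h2, h3⟩, ?_⟩, h5⟩
    simp only [Prod.ext_iff]
    omega

theorem kc_le (hD : D ⊆ B) (hone : OneP B D ζ) (hω : ∀ v, v ∉ D → ω v = ζ v) :
    kc x r R B ω ≤ kcS x r R (bS B D ζ) D ω + 1 := by
  classical
  unfold kc kcS
  -- the boundary cluster
  obtain ⟨C0, hC0⟩ : ∃ C0 : Set (ℤ × ℤ), ∀ s ∈ bS B D ζ, cl (Op B ω) s = C0 := by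
    by_cases hne : (bS B D ζ).Nonempty
    · obtain ⟨s0, hs0⟩ := hne
      refine ⟨cl (Op B ω) s0, fun s hs => ?_⟩
      obtain ⟨h1, v, h2, h3, h4, h5⟩ := mem_bS.1 hs0
      obtain ⟨k1, w, k2, k3, k4, k5⟩ := mem_bS.1 hs
      have h6 := hone v h2 h3 h4 w k2 k3 k4 s0 s h1 k1 h5 k5
      refine cl_eq (cl_mono ?_ h6)
      rintro z ⟨z1, z2, z3⟩
      exact ⟨z1, by rw [hω z z2]; exact z3⟩
    · exact ⟨∅, fun s hs => absurd ⟨s, hs⟩ hne⟩
  have hsub : CC x r R 0 (Op B ω) ⊆ insert C0 {C : Set (ℤ × ℤ) | C ∈ CC x r R 0 (Op D ω) ∧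
      ∀ s ∈ bS B D ζ, s ∉ C} := by
    rintro C ⟨u, h1, h2, rfl, t, ht, h3⟩
    by_cases hs : ∃ s ∈ bS B D ζ, s ∈ cl (Op B ω) u
    · obtain ⟨s, hs, hsu⟩ := hs
      left
      rw [← hC0 s hs]
      exact (cl_eq hsu).symm
    · right
      push Not at hs
      have hue : Even (u.1 + u.2) := by rw [Int.even_iff]; exact h1
      have heq : cl (Op D ω) u = cl (Op B ω) u := by
        apply Set.Subset.antisymm
        · intro t ht
          refine cl_mono (F := Op D ω) (F' := Op B ω) ?_ ht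
          exact fun v hv => ⟨hD hv.1, hv.2⟩
        · intro t ht
          have ht' : ReflTransGen (PStep (Op B ω)) u t := ht
          clear h3
          induction ht' with
          | refl => exact ReflTransGen.refl
          | @tail a b h4 h5 ih =>
            have ha := ih h4
            refine ReflTransGen.tail ha ⟨h5.1, h5.2.1, ?_⟩
            obtain ⟨h6, h7⟩ := h5.2.2
            refine ⟨?_, h7⟩
            by_contra hnD
            have hc := cor_of_step h5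
            have hae : Even (a.1 + a.2) := cl_even hue h4
            refine hs a (mem_bS.2 ⟨hae, _, h6, hnD, ?_, hc.1⟩) h4
            rw [← hω _ hnD]; exact h7
      refine ⟨⟨u, h1, h2, heq.symm, t, ht, h3⟩, hs⟩
  refine (Set.ncard_le_ncard hsub ((kcS_fin _ _ _ _ _ _).insert _)).trans ?_
  exact Set.ncard_insert_le _ _

/-- Exponential moment of the number of the primal crossing clusters, near the boundary. -/
theorem kc_exp_bd (hQ : 1 ≤ Q) (hrR : r + 2 < R)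
    (hA : Pr Q (bxx x R) eta1 {ω | ArmPx x (r + 1) (R - 1) ω} ≤ 1 / 2) (hD : D ⊆ bxx x R)
    (hη : Good η) (hone : OneP (bxx x R) D η) :
    Ex Q D η (fun ω => (3 / 2 : ℝ) ^ kc x r R (bxx x R) ω) ≤ 3 := by
  have hQ0 : 0 < Q := by linarith
  have hA' : ∀ (D : Finset (ℤ × ℤ)) (η : Cfg), (D : Set (ℤ × ℤ)) ⊆ (bxx x R : Finset (ℤ × ℤ)) →
      Good η → Sep (bxx x R : Finset (ℤ × ℤ)) D η →
      Pr Q D η {ω | 1 ≤ kc x r R D ω} ≤ 1 / 2 := by
    intro D η hD hη hsep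
    refine (pr_wired hQ f_markov f_good (Finset.coe_subset.1 hD) hη hsep).trans (le_trans ?_ hA)
    exact Pr_mono hQ0 fun ω hω => arm_of_kc hrR hω
  have h0 : ∀ (D : Finset (ℤ × ℤ)) (η : Cfg), (D : Set (ℤ × ℤ)) ⊆ (bxx x R : Finset (ℤ × ℤ)) →
      Good η → Sep (bxx x R : Finset (ℤ × ℤ)) D η →
      Ex Q D η (fun ω => (3 / 2 : ℝ) ^ kc x r R D ω) ≤ 2 := by
    intro D η hD hη hsep
    have h := kc_exp hQ0 f_markov f_good hrR (a := 1 / 2) (y := 3 / 2) (β := 2) (by norm_num)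
      (by norm_num) (by norm_num) hA' _ D η le_rfl hD hη hsep
    have h2 := hA' D η hD hη hsep
    linarith
  have h1 := kcs_exp hQ0 (y := 3 / 2) (by norm_num) h0 (bS (bxx x R) D η)
    (fun s hs => (mem_bS.1 hs).1) D η (Finset.coe_subset.2 hD) hη
    (fun v hv hv' hvo a ha u hue hc hca => mem_bS.2 ⟨hue, v, hv, hv', hvo, hc⟩)
  have h2 : Ex Q D η (fun ω => (3 / 2 : ℝ) ^ kc x r R (bxx x R) ω) ≤
      Ex Q D η (fun ω => (3 / 2 : ℝ) * (3 / 2 : ℝ) ^ kcS x r R (bS (bxx x R) D η) D ω) := by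
    refine Ex_mono hQ0 fun S _ => ?_
    rw [← pow_succ']
    exact pow_le_pow_right₀ (by norm_num) (kc_le hD hone fun v hv => cf_out hv)
  rw [Ex_mul_left] at h2
  linarith

/-- The dual version. -/
theorem kc_exp_bd_dual (hQ : 1 ≤ Q) (hrR : r + 2 < R)
    (hA : Pr Q (bxx (FKA.sh x) R) eta1 {ω | ArmPx (FKA.sh x) (r + 1) (R - 1) ω} ≤ 1 / 2)
    (hD : D ⊆ bxx x R) (hη : Good η)
    (hone : OneP (bxx (FKA.sh x) R) (D.image fun v => (v.1 + 1, v.2)) (du η)) :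
    Ex Q D η (fun ω => (3 / 2 : ℝ) ^ kap x r R 1 false ω) ≤ 3 := by
  have hQ0 : 0 < Q := by linarith
  have hD' : D.image (fun v => (v.1 + 1, v.2)) ⊆ bxx (FKA.sh x) R := by
    intro v hv
    obtain ⟨w, hw, rfl⟩ := Finset.mem_image.1 hv
    rw [mem_bxx_sh]
    have : shi (w.1 + 1, w.2) = w := shi_sh w
    rw [this]
    exact hD hw
  have h1 := kc_exp_bd hQ hrR hA hD' (f_dual.1 η hη) hone
  have h2 := f_dual.2 Q D η (fun ω => (3 / 2 : ℝ) ^ kc (FKA.sh x) r R (bxx (FKA.sh x) R) ω) hQ0 hη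
  rw [h2] at h1
  simp only [kap_dual]
  exact h1

/-- The open squares and the closed squares of the box outside of the domain belong to one primal and
one dual cluster. -/
def OneC (x : ℤ × ℤ) (R : ℤ) (D : Finset (ℤ × ℤ)) (η : Cfg) : Prop :=
  OneP (bxx x R) D η ∧ OneP (bxx (FKA.sh x) R) (D.image fun v => (v.1 + 1, v.2)) (du η)

/-- The crossing number. -/
noncomputable def ZC (n : ℕ) (x : ℤ × ℤ) (r : ℤ) (ω : Cfg) : ℕ :=
  2 * (kap x r ((n + 1) * r) 0 true ω + kap x r ((n + 1) * r) 1 false ω)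

theorem ZC_loc (n : ℕ) (x : ℤ × ℤ) {r : ℤ} (hr : 0 ≤ r) {ω ω' : Cfg}
    (hω : ∀ v, nm (v - x) ≤ ((n : ℤ) + 2) * r → ω v = ω' v) : ZC n x r ω = ZC n x r ω' := by
  have : ∀ v, nm (v - x) ≤ ((n : ℤ) + 1) * r → ω v = ω' v := fun v hv => hω v (by nlinarith)
  simp only [ZC, kap, Sb_congr this]

theorem ZC_seg (n : ℕ) (x : ℤ × ℤ) {r : ℤ} (hr : 1 ≤ r) (ω : Cfg) (𝓕 : Finset (Finset Ed))
    (hs : ∀ γ ∈ 𝓕, H945.IsSeg ω γ) (hd : ∀ γ ∈ 𝓕, ∀ γ' ∈ 𝓕, γ ≠ γ' → Disjoint γ γ')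
    (hc : ∀ γ ∈ 𝓕, H945.Crs ((n : ℤ) + 2) r x γ) : 𝓕.card ≤ ZC n x r ω := by
  have hrR : r ≤ ((n : ℤ) + 1) * r := by nlinarith
  refine H945.segs_le hrR 𝓕 hs hd (fun γ hγ => (hc γ hγ).1) fun γ hγ => ?_
  obtain ⟨b, hb, hb2⟩ := (hc γ hγ).2
  exact ⟨b, hb, by nlinarith⟩

/-- **The number of the disjoint crossing segments, up to the boundary.** -/
theorem crossB (hQ : 1 ≤ Q) (h : RSW Q) : ∃ n : ℕ, 4 ≤ n ∧
    ∀ (x : ℤ × ℤ) (r : ℤ), 1 ≤ r → ∀ (D : Finset (ℤ × ℤ)) (η : Cfg) (G : Cfg → ℝ), Good η →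
      OneC x (((n : ℤ) + 1) * r) D η → (∀ ω, 0 ≤ G ω) → Ind (D ∩ bxx x (((n : ℤ) + 2) * r)) G →
      Ex Q D η (fun ω => G ω * Real.exp (Real.log (3 / 2) / 4 * (ZC n x r ω : ℝ))) ≤
        3 * Ex Q D η G := by
  classical
  have hQ0 : 0 < Q := by linarith
  obtain ⟨α, C, hα, hC, hdec, -⟩ := FKA.arm_fk hQ h
  -- the ratio
  obtain ⟨n, hn, hn4⟩ : ∃ n : ℕ, C * ((4 : ℝ) / n) ^ α ≤ 1 / 2 ∧ 4 ≤ n := by
    have h1 : Tendsto (fun n : ℕ => C * ((4 : ℝ) / n) ^ α) atTop (𝓝 0) := by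
      have h2 : Tendsto (fun n : ℕ => (4 : ℝ) / n) atTop (𝓝 0) :=
        tendsto_const_div_atTop_nhds_zero_nat 4
      have h3 := (h2.rpow_const (p := α) (Or.inr hα.le)).const_mul C
      rw [Real.zero_rpow hα.ne', mul_zero] at h3
      exact h3
    obtain ⟨n, h2, h3⟩ := ((h1.eventually (ge_mem_nhds (show (0 : ℝ) < 1 / 2 by norm_num))).and
      (eventually_ge_atTop 4)).exists
    exact ⟨n, h2, h3⟩
  have hn4' : (4 : ℝ) ≤ n := by exact_mod_cast hn4
  have hn4'' : (4 : ℤ) ≤ n := by exact_mod_cast hn4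
  have harm : ∀ (x : ℤ × ℤ) (r : ℤ), 1 ≤ r → Pr Q (bxx x ((n + 1) * r)) eta1
      {ω | ArmPx x (r + 1) ((n + 1) * r - 1) ω} ≤ 1 / 2 := by
    intro x r hr
    have hr' : (1 : ℝ) ≤ r := by exact_mod_cast hr
    have h1 := hdec x (r + 1) ((n + 1) * r - 1) (bxx x ((n + 1) * r)) eta1 (fun _ => 1)
      (by omega) (by nlinarith) f_good.2.2
      (Finset.sdiff_subset.trans (FKA.sub_bxx x ((n + 1) * r))) (fun _ => zero_le_one)
      (fun _ _ _ => rfl)
    rw [FKA.Ex_const hQ0] at h1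
    simp only [one_mul, mul_one] at h1
    refine h1.trans (le_trans ?_ hn)
    refine mul_le_mul_of_nonneg_left (Real.rpow_le_rpow ?_ ?_ hα.le) hC.le
    · push_cast
      apply div_nonneg <;> nlinarith
    · push_cast
      rw [div_le_div_iff₀ (by nlinarith) (by linarith)]
      nlinarith
  refine ⟨n, hn4, fun x r hr D η G hη hone hG0 hG => ?_⟩
  set R : ℤ := ((n : ℤ) + 1) * r with hR
  have hrR : r + 2 < R := by rw [hR]; nlinarith
  set D1 : Finset (ℤ × ℤ) := D.filter (fun v => v ∈ bxx x R) with hD1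
  have hD1D : D1 ⊆ D := filter_subset _ _
  have hD1B : D1 ⊆ bxx x R := fun v hv => (mem_filter.1 hv).2
  have hsub : D1 ⊆ D ∩ bxx x (((n : ℤ) + 2) * r) := fun v hv => by
    have := mem_bxx.1 (hD1B hv)
    rw [mem_inter, mem_bxx]
    rw [hR] at this
    exact ⟨hD1D hv, by nlinarith⟩
  rw [FKA.markov f_markov hQ0 hD1D hη (Ind.mono hsub hG), ← FKA.Ex_mul_left]
  refine FKA.Ex_mono hQ0 fun S _ => ?_
  rw [mul_comm (3 : ℝ)]
  refine mul_le_mul_of_nonneg_left ?_ (hG0 _)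
  generalize hζ : cf D η S = ζ
  have hζg : Good ζ := by rw [← hζ]; exact f_good.1 _ _ _ hη
  have hζD : ∀ v, v ∉ D → ζ v = η v := fun v hv => by rw [← hζ]; exact cf_out hv
  have hset : ({z | z ∈ bxx x R ∧ z ∉ D1 ∧ ζ z = true} : Set (ℤ × ℤ)) =
      {z | z ∈ bxx x R ∧ z ∉ D ∧ η z = true} := by
    ext z
    simp only [Set.mem_ofPred_eq, hD1, mem_filter, not_and]
    constructor
    · rintro ⟨h1, h2, h3⟩
      have h4 : z ∉ D := fun h => h2 h h1
      exact ⟨h1, h4, by rw [← hζD z h4]; exact h3⟩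
    · rintro ⟨h1, h2, h3⟩
      exact ⟨h1, fun h => absurd h h2, by rw [hζD z h2]; exact h3⟩
  have hP1 : OneP (bxx x R) D1 ζ := by
    intro v h1 h2 h3 w k1 k2 k3
    have hv : v ∉ D := fun h => h2 (mem_filter.2 ⟨h, h1⟩)
    have hw : w ∉ D := fun h => k2 (mem_filter.2 ⟨h, k1⟩)
    rw [hset]
    exact hone.1 v h1 hv (by rw [← hζD v hv]; exact h3) w k1 hw (by rw [← hζD w hw]; exact k3)
  have him : ∀ z : ℤ × ℤ, z ∈ bxx (FKA.sh x) R → (z ∉ D1.image (fun v => (v.1 + 1, v.2)) ↔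
      z ∉ D.image (fun v => (v.1 + 1, v.2))) := by
    intro z hz
    rw [not_iff_not]
    simp only [Finset.mem_image]
    constructor
    · rintro ⟨w, hw, rfl⟩; exact ⟨w, hD1D hw, rfl⟩
    · rintro ⟨w, hw, rfl⟩
      refine ⟨w, mem_filter.2 ⟨hw, ?_⟩, rfl⟩
      rw [mem_bxx_sh] at hz
      have : shi (w.1 + 1, w.2) = w := shi_sh w
      rwa [this] at hz
  have hdu : ∀ z : ℤ × ℤ, z ∉ D.image (fun v => (v.1 + 1, v.2)) → du ζ z = du η z := by
    intro z hz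
    simp only [du]
    rw [hζD]
    intro h
    exact hz (Finset.mem_image.2 ⟨_, h, by simp⟩)
  have hset2 : ({z | z ∈ bxx (FKA.sh x) R ∧ z ∉ D1.image (fun v => (v.1 + 1, v.2)) ∧ du ζ z = true} :
      Set (ℤ × ℤ)) = {z | z ∈ bxx (FKA.sh x) R ∧ z ∉ D.image (fun v => (v.1 + 1, v.2)) ∧
        du η z = true} := by
    ext z
    simp only [Set.mem_ofPred_eq]
    constructor
    · rintro ⟨h1, h2, h3⟩
      have h4 := (him z h1).1 h2
      exact ⟨h1, h4, by rw [← hdu z h4]; exact h3⟩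
    · rintro ⟨h1, h2, h3⟩
      exact ⟨h1, (him z h1).2 h2, by rw [hdu z h2]; exact h3⟩
  have hP2 : OneP (bxx (FKA.sh x) R) (D1.image fun v => (v.1 + 1, v.2)) (du ζ) := by
    intro v h1 h2 h3 w k1 k2 k3
    have hv := (him v h1).1 h2
    have hw := (him w k1).1 k2
    rw [hset2]
    exact hone.2 v h1 hv (by rw [← hdu v hv]; exact h3) w k1 hw (by rw [← hdu w hw]; exact k3)
  have h1 := kc_exp_bd hQ hrR (harm x r hr) hD1B hζg hP1
  have h2 := kc_exp_bd_dual hQ hrR (harm (FKA.sh x) r hr) hD1B hζg hP2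
  have h3 : Ex Q D1 ζ (fun ω => Real.exp (Real.log (3 / 2) / 4 * (ZC n x r ω : ℝ))) ≤
      Ex Q D1 ζ (fun ω => (1 / 2) * ((3 / 2 : ℝ) ^ kc x r R (bxx x R) ω +
        (3 / 2 : ℝ) ^ kap x r R 1 false ω)) := by
    refine FKA.Ex_mono hQ0 fun T _ => ?_
    unfold ZC
    rw [← FKA.kap_eq, ← hR]
    generalize FKA.kap x r R 0 true (cf D1 ζ T) = a
    generalize FKA.kap x r R 1 false (cf D1 ζ T) = b
    have e : ∀ n : ℕ, ((3 : ℝ) / 2) ^ n = Real.exp (Real.log (3 / 2) / 2 * n) ^ 2 := by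
      intro n
      rw [← Real.exp_nat_mul, ← Real.rpow_natCast, Real.rpow_def_of_pos (by norm_num)]
      congr 1
      push_cast
      ring
    rw [e a, e b]
    have e2 : Real.log (3 / 2) / 4 * (((2 * (a + b) : ℕ)) : ℝ) =
        Real.log (3 / 2) / 2 * a + Real.log (3 / 2) / 2 * b := by push_cast; ring
    rw [e2, Real.exp_add]
    nlinarith [sq_nonneg (Real.exp (Real.log (3 / 2) / 2 * (a : ℝ)) -
        Real.exp (Real.log (3 / 2) / 2 * (b : ℝ)))]
  rw [FKA.Ex_mul_left, FKA.Ex_add] at h3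
  linarith

end Vale.Agent.P167.H562.QM
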