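import Vale.Agent.P167.H562.Q.SM1
import Vale.Agent.P167.H562.SML

/-!
# P167, general `q`, block Q-MAJ: linear statistics of the small loops

`lin_U`: exponential moments of the centred linear statistics of the small loops which visit a set `A`, for
every measure which is the infinite-volume measure conditioned outside of a neighbourhood of `A`.
-/

namespace Vale.Agent.P167.H562.QM

open Finset Filter Topology MeasureTheory Vale.Agent.P167.FK
open Vale.Agent.P167.FKA (Loc Ind ArmDec)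
open Vale.Agent.P167.H519 (IsLim loc_cont Bq_mono exists_Bq)
open Vale.Agent.P167.H45 (gp BL BL_fin zz zz_box small_box bs_le grid_fin nm_le nm_sub_le cl)
open Vale.Agent.P167.H562.GL Vale.Agent.P167.H562.SML

theorem half_sq (j : ℕ) : ((2 : ℝ) ^ j / 2 ^ (j / 2)) ^ 2 ≤ 2 * 2 ^ j := by
  have h5 : (2 : ℝ) ^ j ≤ 2 * (2 ^ (j / 2)) ^ 2 := by
    rw [← pow_mul, ← pow_succ']
    exact pow_le_pow_right₀ (by norm_num) (by omega)
  rw [div_pow, div_le_iff₀ (by positivity)]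
  have : (0 : ℝ) < 2 ^ j := by positivity
  nlinarith

/-- The constant in the number of the super-boxes. -/
noncomputable def bes (R κ : ℝ) : ℝ := ((R + 3 * κ) / κ) ^ 2 + 32

/-- The super-boxes which matter, and their number. -/
theorem grid_superA {R κ ρ : ℝ} (hR : 0 ≤ R) (hκ : 0 < κ) (hρ : 1 ≤ ρ) (x : ℤ × ℤ)
    (A : Finset (ℤ × ℤ)) (hA : ∀ v ∈ A, (nm (v - x) : ℝ) ≤ R * ρ) :
    ∃ W : ℕ → Finset (ℤ × ℤ), ∀ j : ℕ, 1 ≤ κ * ρ / 2 ^ j →
      ((W j).card : ℝ) ≤ bes R κ * 2 ^ j ∧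
      (∀ ω, ∀ ℓ ∈ smf A (κ * ρ) ω, ∃ w ∈ W j, zz ⌈κ * ρ / 2 ^ j⌉ ℓ ∈ sS j w) ∧
      ∀ w ∈ W j, ∀ v ∈ sU ⌈κ * ρ / 2 ^ j⌉ j w, (nm (v - x) : ℝ) ≤ (R + 32 * κ) * ρ := by
  classical
  have hex : ∀ j : ℕ, ∃ I : Finset (ℤ × ℤ), 1 ≤ κ * ρ / 2 ^ j →
      (I.card : ℝ) ≤ bes R κ * 2 ^ j ∧
      (∀ ω, ∀ ℓ ∈ smf A (κ * ρ) ω, ∃ w ∈ I, zz ⌈κ * ρ / 2 ^ j⌉ ℓ ∈ sS j w) ∧
      ∀ w ∈ I, ∀ v ∈ sU ⌈κ * ρ / 2 ^ j⌉ j w, (nm (v - x) : ℝ) ≤ (R + 32 * κ) * ρ := by
    intro j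
    by_cases hj : 1 ≤ κ * ρ / 2 ^ j
    · have hρ0 : 0 < ρ := by linarith
      have hκρ : 0 < κ * ρ := by positivity
      have hRρ : 0 ≤ R * ρ := by positivity
      have h2j : (1 : ℝ) ≤ 2 ^ j := one_le_pow₀ (by norm_num)
      set y : ℝ := κ * ρ / 2 ^ j with hy
      have hyκ : y ≤ κ * ρ := div_le_self hκρ.le h2j
      set L : ℤ := ⌈y⌉ with hL
      have hL1 : 1 ≤ L := Int.one_le_ceil_iff.2 (by linarith)
      have hyL : y ≤ L := Int.le_ceil y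
      have hLy : (L : ℝ) ≤ 2 * y := by
        have := Int.ceil_lt_add_one y
        rw [← hL] at this
        linarith
      have hN := sN_pos j
      have hLN : 1 ≤ L * sN j := by nlinarith
      set P : ℤ := ⌈R * ρ⌉ + ⌈κ * ρ⌉ + L * sN j with hP
      have hP0 : 0 ≤ P := by
        have h1 : 0 ≤ ⌈R * ρ⌉ := Int.ceil_nonneg hRρ
        have h2 : 0 ≤ ⌈κ * ρ⌉ := Int.ceil_nonneg hκρ.le
        omega
      have hPR : (P : ℝ) ≤ R * ρ + 3 * (κ * ρ) + ((L * sN j : ℤ) : ℝ) := by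
        rw [hP]
        push_cast
        have := Int.ceil_lt_add_one (R * ρ)
        have := Int.ceil_lt_add_one (κ * ρ)
        linarith
      obtain ⟨I, hI1, hI2⟩ := grid_fin x hLN hP0
      -- the side
      set D : ℝ := 2 ^ (j / 2) with hD
      have hD0 : 0 < D := by positivity
      have hD1 : D ≤ 2 ^ j := pow_le_pow_right₀ (by norm_num) (Nat.div_le_self _ _)
      have hsN : (sN j : ℝ) = 4 * D := by unfold sN; push_cast; rfl
      refine ⟨I.filter (fun w => nm (gp (L * sN j) w - x) ≤ P), fun _ => ⟨?_, ?_, ?_⟩⟩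
      · refine le_trans (Nat.cast_le.2 (card_filter_le _ _)) ?_
        have h1 : ((I.card : ℤ) : ℝ) ≤ ((2 * P / (L * sN j) + 2 : ℤ) : ℝ) ^ 2 := by
          exact_mod_cast hI2
        have hLNR : (0 : ℝ) < ((L * sN j : ℤ) : ℝ) := by exact_mod_cast (by omega : 0 < L * sN j)
        have h2 : ((2 * P / (L * sN j) : ℤ) : ℝ) ≤ 2 * P / ((L * sN j : ℤ) : ℝ) := by
          rw [le_div_iff₀ hLNR]
          exact_mod_cast Int.ediv_mul_le (2 * P) (by omega : L * sN j ≠ 0)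
        have hy0 : 0 < y := by linarith
        have h4 : y * (4 * D) ≤ ((L * sN j : ℤ) : ℝ) := by
          push_cast
          rw [hsN]
          exact mul_le_mul_of_nonneg_right hyL (by positivity)
        set E : ℝ := 2 ^ j / D with hE
        have hE0 : 0 < E := by positivity
        have hE2 : E ^ 2 ≤ 2 * 2 ^ j := half_sq j
        set s : ℝ := (R + 3 * κ) / κ with hs
        have hs0 : 0 ≤ s := by positivity
        have h5 : (2 * P : ℝ) / ((L * sN j : ℤ) : ℝ) ≤ s / 2 * E + 2 := by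
          rw [div_le_iff₀ hLNR]
          have h6 : 2 * (R * ρ + 3 * (κ * ρ)) ≤ s / 2 * E * ((L * sN j : ℤ) : ℝ) := by
            have h7 : s / 2 * E * (y * (4 * D)) = 2 * (R * ρ + 3 * (κ * ρ)) := by
              rw [hE, hy, hs]; field_simp; ring
            rw [← h7]
            exact mul_le_mul_of_nonneg_left h4 (by positivity)
          linarith
        have h7 : ((2 * P / (L * sN j) + 2 : ℤ) : ℝ) ≤ s / 2 * E + 4 := by
          rw [Int.cast_add]; push_cast; push_cast at h2 h5; linarith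
        have h8 : (0 : ℝ) ≤ ((2 * P / (L * sN j) + 2 : ℤ) : ℝ) := by
          have : 0 ≤ 2 * P / (L * sN j) := Int.ediv_nonneg (by omega) (by omega)
          exact_mod_cast (by omega : (0 : ℤ) ≤ 2 * P / (L * sN j) + 2)
        have h9 : ((I.card : ℤ) : ℝ) = (I.card : ℝ) := by norm_cast
        rw [h9] at h1
        calc (I.card : ℝ) ≤ ((2 * P / (L * sN j) + 2 : ℤ) : ℝ) ^ 2 := h1
          _ ≤ (s / 2 * E + 4) ^ 2 := pow_le_pow_left₀ h8 h7 2
          _ ≤ s ^ 2 / 2 * E ^ 2 + 32 := by nlinarith [sq_nonneg (s / 2 * E - 4)]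
          _ ≤ s ^ 2 / 2 * (2 * 2 ^ j) + 32 * 2 ^ j := by
              refine add_le_add (mul_le_mul_of_nonneg_left hE2 (by positivity)) (by linarith)
          _ = bes R κ * 2 ^ j := by unfold bes; ring
      · intro ω ℓ hℓ
        rw [mem_smf] at hℓ
        obtain ⟨g1, ⟨u, hu, g2⟩, g3⟩ := hℓ
        have hnear : nm (gp (L * sN j) (zz (L * sN j) ℓ) - x) ≤ P := by
          obtain ⟨b1, b2, b3, b4⟩ := zz_box (by omega : 0 < L * sN j) ℓ
          obtain ⟨c1, c2⟩ := small_box g3 hu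
          obtain ⟨e1, e2⟩ := bs_le hu
          have f1 : nm (u - x) ≤ ⌈R * ρ⌉ := by
            have : (nm (u - x) : ℝ) ≤ ⌈R * ρ⌉ := (hA u g2).trans (Int.le_ceil _)
            exact_mod_cast this
          have c1' : u.1 - (H45.bs ℓ).1 < ⌈κ * ρ⌉ := Int.lt_ceil.2 c1
          have c2' : u.2 - (H45.bs ℓ).2 < ⌈κ * ρ⌉ := Int.lt_ceil.2 c2
          rw [nm_le] at f1 ⊢
          simp only [Prod.fst_sub, Prod.snd_sub, abs_le] at f1
          simp only [gp, Prod.fst_sub, Prod.snd_sub, abs_le]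
          obtain ⟨⟨k1, k2⟩, k3, k4⟩ := f1
          refine ⟨⟨?_, ?_⟩, ?_, ?_⟩ <;> rw [hP] <;> linarith
        refine ⟨zz (L * sN j) ℓ, mem_filter.2 ⟨hI1 _ hnear, hnear⟩, ?_⟩
        rw [mem_sS]
        simp only [zz]
        rw [Int.ediv_ediv_of_nonneg (by omega), Int.ediv_ediv_of_nonneg (by omega)]
      · intro w hw v hv
        have hw2 : nm (gp (L * sN j) w - x) ≤ P := (mem_filter.1 hw).2
        have h1 : nm (v - gp (L * sN j) w) ≤ 2 * (L * sN j) := by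
          unfold sU at hv
          rw [Finset.mem_product, Finset.mem_Ico, Finset.mem_Ico] at hv
          rw [nm_le]
          simp only [gp, Prod.fst_sub, Prod.snd_sub, abs_le]
          obtain ⟨⟨k1, k2⟩, k3, k4⟩ := hv
          refine ⟨⟨?_, ?_⟩, ?_, ?_⟩ <;> nlinarith
        have h2 : nm (v - x) ≤ 2 * (L * sN j) + P := (nm_sub_le _ _ _).trans (add_le_add h1 hw2)
        have h3 : (nm (v - x) : ℝ) ≤ 2 * ((L * sN j : ℤ) : ℝ) + P := by exact_mod_cast h2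
        have h4 : ((L * sN j : ℤ) : ℝ) ≤ 8 * (κ * ρ) := by
          push_cast
          rw [hsN]
          have h5 : (L : ℝ) * (4 * D) ≤ 2 * y * (4 * D) :=
            mul_le_mul_of_nonneg_right hLy (by positivity)
          have h6 : y * D ≤ κ * ρ := by
            rw [hy, div_mul_eq_mul_div, div_le_iff₀ (by positivity)]
            exact mul_le_mul_of_nonneg_left hD1 hκρ.le
          nlinarith
        have h5 : (R + 32 * κ) * ρ = R * ρ + 32 * (κ * ρ) := by ring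
        rw [h5]
        linarith
    · exact ⟨∅, fun h => absurd h hj⟩
  choose W hW using hex
  exact ⟨W, hW⟩

theorem ar_end {be n b0 Gg k a0 t Γ : ℝ} (hbe : 0 ≤ be) (hn : 0 ≤ n) (hb0 : 0 ≤ b0)
    (hG : 0 ≤ Gg) (ha : 0 ≤ a0) (hΓ : 0 ≤ Γ) :
    be * (n * |t| * (a0 * b0) * Γ + 12 * Gg * n ^ 2 * t ^ 2 * (16 * (a0 * k)) ^ 2) ≤
      be * (n * b0 * Γ + 12 * Gg * n ^ 2 * (16 * k) ^ 2) * (a0 * |t| + a0 ^ 2 * t ^ 2) := by
  rw [mul_assoc be]
  refine mul_le_mul_of_nonneg_left ?_ hbe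
  have p1 : 0 ≤ n * b0 * Γ := by positivity
  have p2 : 0 ≤ 12 * Gg * n ^ 2 * (16 * k) ^ 2 := by positivity
  have p3 : 0 ≤ a0 * |t| := by positivity
  have p4 : 0 ≤ a0 ^ 2 * t ^ 2 := by positivity
  have e : n * |t| * (a0 * b0) * Γ + 12 * Gg * n ^ 2 * t ^ 2 * (16 * (a0 * k)) ^ 2 =
      (n * b0 * Γ) * (a0 * |t|) + (12 * Gg * n ^ 2 * (16 * k) ^ 2) * (a0 ^ 2 * t ^ 2) := by ring
  rw [e]
  nlinarith [mul_nonneg p1 p4, mul_nonneg p2 p3]

theorem sum_center {ι : Type*} {P : Measure Cfg} {J : ℕ} {W : ℕ → Finset ι} {S : ℕ → ι → Finset ι}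
    {X : ℕ → ι → Cfg → ℝ} (hint : ∀ j < J, ∀ w ∈ W j, ∀ z ∈ S j w, Integrable (X j z) P)
    {F : Cfg → ℝ} (hdec : ∀ ω, F ω = ∑ j ∈ Finset.range J, ∑ w ∈ W j, ∑ z ∈ S j w, X j z ω)
    (ω : Cfg) : F ω - ∫ ω', F ω' ∂P = ∑ j ∈ Finset.range J, ∑ w ∈ W j, ∑ z ∈ S j w,
      (X j z ω - ∫ ω', X j z ω' ∂P) := by
  have hI : ∫ ω', F ω' ∂P =
      ∑ j ∈ Finset.range J, ∑ w ∈ W j, ∑ z ∈ S j w, ∫ ω', X j z ω' ∂P := by
    simp only [hdec]
    rw [integral_finsetSum _ fun j hj => integrable_finsetSum _ fun w hw =>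
      integrable_finsetSum _ fun z hz => hint j (Finset.mem_range.1 hj) w hw z hz]
    refine Finset.sum_congr rfl fun j hj => ?_
    rw [integral_finsetSum _ fun w hw =>
      integrable_finsetSum _ fun z hz => hint j (Finset.mem_range.1 hj) w hw z hz]
    refine Finset.sum_congr rfl fun w hw => ?_
    rw [integral_finsetSum _ fun z hz => hint j (Finset.mem_range.1 hj) w hw z hz]
  rw [hI, hdec, ← Finset.sum_sub_distrib]
  refine Finset.sum_congr rfl fun j _ => ?_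
  rw [← Finset.sum_sub_distrib]
  refine Finset.sum_congr rfl fun w _ => ?_
  rw [← Finset.sum_sub_distrib]

/-- **Linear statistics of the small loops, conditioned measures.** -/
theorem lin_U {Q : ℝ} (hQ : 1 ≤ Q) {al Ca : ℝ} (hal : 0 < al) (hCa : 0 < Ca)
    (hA : ArmDec Q al Ca) {P : Measure Cfg} (hP : IsLim Q P) (hX : CrossP P) {R κ : ℝ} (T : ℝ)
    (hR : 0 ≤ R) (hκ : 0 < κ) : ∃ C : ℝ, 0 ≤ C ∧
    ∀ ρ : ℝ, 1 ≤ ρ → ∀ (x : ℤ × ℤ) (A : Finset (ℤ × ℤ)), (∀ v ∈ A, (nm (v - x) : ℝ) ≤ R * ρ) →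
    ∀ (U : Finset (ℤ × ℤ)) (N : Measure Cfg), (∀ v, (nm (v - x) : ℝ) ≤ (R + 32 * κ) * ρ → v ∈ U) →
    Nu P N U → ∀ (φ : Finset Ed → ℝ) (α : ℝ), 0 < α → Bd κ ρ α φ → ∀ t : ℝ, |t| * α ≤ T →
      Em N (fun ω => t * (∑ ℓ ∈ smf A (κ * ρ) ω, φ ℓ -
        ∫ ω', ∑ ℓ ∈ smf A (κ * ρ) ω', φ ℓ ∂P)) ≤
        ENNReal.ofReal (Real.exp (C * (α * |t| + α ^ 2 * t ^ 2))) := by
  classical
  have hPp : IsProbabilityMeasure P := hP.1
  set s1 : ℝ := 4 * (9 : ℕ) * (16 * κ ^ 2) * |T| with hs1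
  have hs0 : 0 ≤ s1 := by positivity
  obtain ⟨C, hC⟩ := large_genU hX s_con s_two (1 / 8) (s1 + 1) (by norm_num)
  set M : ℝ := Real.log (max C 1) with hM
  have hM0 : 0 ≤ M := Real.log_nonneg (le_max_right _ _)
  have heM : Real.exp M = max C 1 := Real.exp_log (by positivity)
  -- mixing rate
  set x0 : ℝ := Real.sqrt ((1 / 2) ^ al) with hx
  have hx0 : 0 < x0 := Real.sqrt_pos.2 (by positivity)
  have hxx : x0 ^ 2 = (1 / 2) ^ al := Real.sq_sqrt (by positivity)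
  have hx1 : x0 < 1 := by
    have h1 : ((1 : ℝ) / 2) ^ al < 1 := Real.rpow_lt_one (by norm_num) (by norm_num) hal
    rw [← hxx] at h1
    nlinarith
  set C1 : ℝ := Real.sqrt (2 * Ca) with hC1
  have hC10 : 0 < C1 := Real.sqrt_pos.2 (by positivity)
  have hC11 : C1 ^ 2 = 2 * Ca := Real.sq_sqrt (by positivity)
  set b0 : ℝ := 16 * κ ^ 2 * (C1 * (2 + 4 * Real.exp M)) with hb0
  have hb00 : 0 ≤ b0 := by positivity
  set Gc : ℝ := 2 * Real.exp M * Real.exp ((s1 + 1) * Real.exp M) with hGc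
  have hGc0 : 0 ≤ Gc := by positivity
  have hx2 : 0 ≤ 2 / (1 - x0) := div_nonneg (by norm_num) (by linarith)
  have hbes : 0 ≤ bes R κ := by unfold bes; positivity
  refine ⟨bes R κ * (((9 : ℕ) : ℝ) * b0 * (2 / (1 - x0)) +
    12 * Gc * (9 : ℕ) ^ 2 * (16 * κ ^ 2) ^ 2), by positivity,
    fun ρ hρ x A hAx U N hU hN φ a0 ha0 hφ t ht => ?_⟩
  have hNp : IsProbabilityMeasure N := hN.prob
  set α : ℝ := a0 * κ ^ 2 with hα
  have hα0 : 0 < α := by positivity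
  have hρ0 : 0 < ρ := by linarith
  obtain ⟨W, hW⟩ := grid_superA hR hκ hρ x A hAx
  -- number of scales
  obtain ⟨J, hJ, hJ'⟩ := exists_J hκ hρ
  set Lj : ℕ → ℤ := fun j => ⌈κ * ρ / 2 ^ j⌉ with hLj
  have hL1 : ∀ j < J, 1 ≤ Lj j := fun j hj =>
    Int.one_le_ceil_iff.2 (by linarith [hJ' j hj])
  have hUs : ∀ j < J, ∀ w ∈ W j, sU (Lj j) j w ⊆ U := fun j hj w hw v hv =>
    hU v ((hW j (hJ' j hj)).2.2 w hw v hv)
  have hXl : ∀ j < J, ∀ w ∈ W j, ∀ z ∈ sS j w,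
      Loc (Bq (gp (Lj j) z) (2 * Lj j)) (YY A (κ * ρ) φ j z) := by
    intro j hj w _ z _ ω ω' hω
    refine YY_loc hJ φ j z ω ω' fun v hv => hω v ?_
    obtain ⟨h1, h2, h3, h4⟩ := hv
    have := hL1 j hj
    simp only [Bq, gp, Finset.mem_product, Finset.mem_Ico]
    simp only [hLj] at this ⊢
    refine ⟨⟨?_, ?_⟩, ?_, ?_⟩ <;> linarith
  have hXK : ∀ j < J, ∀ w ∈ W j, ∀ z ∈ sS j w, ∀ ω, |YY A (κ * ρ) φ j z ω| ≤
      α * (1 / 4) ^ j * ((BL (gp (Lj j) z) (2 * (Lj j : ℝ)) (1 / 8 * (2 * (Lj j : ℝ))) ω).ncard :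
        ℝ) := fun j hj w _ z _ ω =>
    YY_le hJ (hJ' j hj) z ω (by positivity) (fun ℓ h1 h2 => hφ.at hκ hρ j h1 h2)
  have hMK : ∀ j < J, ∀ w ∈ W j, ∀ z ∈ sS j w, ∀ ν, Nu P ν (sU (Lj j) j w) →
      Em ν (fun ω => (s1 + 1) * ((BL (gp (Lj j) z) (2 * (Lj j : ℝ))
        (1 / 8 * (2 * (Lj j : ℝ))) ω).ncard : ℝ)) ≤ ENNReal.ofReal (Real.exp M) := by
    intro j hj w _ z hz ν hν
    have h1 : (1 : ℝ) ≤ Lj j := by exact_mod_cast hL1 j hj
    rw [heM]
    exact (hC ν _ hν (gp (Lj j) z) (2 * (Lj j : ℝ)) (by linarith)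
      (fun v hv => near_sub_sU (hL1 j hj) hz hv)).trans (ENNReal.ofReal_le_ofReal (le_max_left _ _))
  set b : ℕ → ℝ := fun j => α * (1 / 4) ^ j * (C1 * x0 ^ (j / 2)) * (2 + 4 * Real.exp M) with hb
  have hbias : ∀ j < J, ∀ w ∈ W j, ∀ z ∈ sS j w, ∀ ν, Nu P ν (sU (Lj j) j w) →
      |∫ ω, YY A (κ * ρ) φ j z ω ∂ν - ∫ ω, YY A (κ * ρ) φ j z ω ∂P| ≤ b j := by
    intro j hj w hw z hz ν hν
    have hνp := hν.prob
    have hmono : ∀ η : Measure Cfg, Em η (fun ω => (s1 + 1) * ((BL (gp (Lj j) z)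
        (2 * (Lj j : ℝ)) (1 / 8 * (2 * (Lj j : ℝ))) ω).ncard : ℝ)) ≤
          ENNReal.ofReal (Real.exp M) → Em η (fun ω => ((BL (gp (Lj j) z)
        (2 * (Lj j : ℝ)) (1 / 8 * (2 * (Lj j : ℝ))) ω).ncard : ℝ)) ≤
          ENNReal.ofReal (Real.exp M) := by
      intro η h
      refine (Em_mono fun ω => ?_).trans h
      have : (0 : ℝ) ≤ ((BL (gp (Lj j) z) (2 * (Lj j : ℝ))
        (1 / 8 * (2 * (Lj j : ℝ))) ω).ncard : ℝ) := by positivity
      nlinarith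
    refine bias (hXl j hj w hw z hz) (H45.BL_measR _ _ _) (fun ω => by positivity)
      (by positivity) (Real.exp_pos M).le (by positivity) (hXK j hj w hw z hz)
      (hmono ν (hMK j hj w hw z hz ν hν)) (hmono P (hMK j hj w hw z hz P (nu_self _)))
      fun F hF0 hF1 hF => ?_
    have hNj := sN_pos j
    have hLpos := hL1 j hj
    refine (nu_mix hQ hA hP (x := gp (Lj j) z) (r := 2 * Lj j) (R := sN j * Lj j) (by omega)
      (by nlinarith) (Bq_sub_sU (hL1 j hj) hz) hν (Finset.Subset.refl _) hF0 hF1 hF).trans ?_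
    have hLR : (0 : ℝ) < Lj j := by exact_mod_cast (by omega : 0 < Lj j)
    have e1 : ((2 * Lj j : ℤ) : ℝ) / ((sN j * Lj j : ℤ) : ℝ) = (1 / 2) * (1 / 2) ^ (j / 2) := by
      unfold sN
      push_cast
      rw [one_div, inv_pow]
      field_simp
      norm_num
    rw [e1, Real.mul_rpow (by norm_num) (by positivity), mul_pow, hC11]
    have e2 : (((1 : ℝ) / 2) ^ (j / 2)) ^ al = (x0 ^ (j / 2)) ^ 2 := by
      rw [← pow_mul, mul_comm, pow_mul, hxx, ← Real.rpow_natCast, ← Real.rpow_mul (by norm_num),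
        ← Real.rpow_natCast, ← Real.rpow_mul (by norm_num), mul_comm]
    rw [e2]
    have h3 : ((1 : ℝ) / 2) ^ al ≤ 1 := Real.rpow_le_one (by norm_num) (by norm_num) hal.le
    have h4 : 0 ≤ (x0 ^ (j / 2)) ^ 2 := by positivity
    have h5 : ((1 : ℝ) / 2) ^ al * (x0 ^ (j / 2)) ^ 2 ≤ 1 * (x0 ^ (j / 2)) ^ 2 :=
      mul_le_mul_of_nonneg_right h3 h4
    nlinarith
  have hna : ∀ j < J, (sn j : ℝ) * (α * (1 / 4) ^ j) ≤ 16 * α * (1 / 2) ^ j := by
    intro j _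
    have h1 := four_half j
    have e1 : ((1 : ℝ) / 4) ^ j = (1 / 2) ^ j * (1 / 2) ^ j := by rw [← mul_pow]; norm_num
    have e2 : (2 : ℝ) ^ j * (1 / 2) ^ j = 1 := by rw [← mul_pow]; norm_num
    unfold sn
    push_cast
    rw [e1]
    have h2 : (0 : ℝ) < (1 / 2) ^ j := by positivity
    have h3 : (4 : ℝ) ^ (j / 2) * (1 / 2) ^ j ≤ 1 :=
      (mul_le_mul_of_nonneg_right h1 h2.le).trans e2.le
    calc 16 * (4 : ℝ) ^ (j / 2) * (α * ((1 / 2) ^ j * (1 / 2) ^ j))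
        = 16 * α * (1 / 2) ^ j * ((4 : ℝ) ^ (j / 2) * (1 / 2) ^ j) := by ring
      _ ≤ 16 * α * (1 / 2) ^ j * 1 := mul_le_mul_of_nonneg_left h3 (by positivity)
      _ = _ := by ring
  have hmain := multiU (P := P) (N := N) J 9 (by norm_num) W code3 sS
    (X := fun j z ω => YY A (κ * ρ) φ j z ω)
    (K := fun j z ω => ((BL (gp (Lj j) z) (2 * (Lj j : ℝ)) (1 / 8 * (2 * (Lj j : ℝ))) ω).ncard : ℝ))
    (A := fun j z => Bq (gp (Lj j) z) (2 * Lj j)) (U := fun j w => sU (Lj j) j w)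
    hXl (fun j _ w _ z _ => H45.BL_measR _ _ _) (fun j _ w _ z _ ω => by positivity)
    (fun j hj w _ w' _ hne hcol z hz => by
      refine Finset.disjoint_of_subset_left ?_ (sU_disj (hL1 j hj) hne hcol)
      refine Finset.Subset.trans ?_ (Bq_sub_sU (hL1 j hj) hz)
      have hNj := sN_pos j
      have hLpos := hL1 j hj
      have h1 : 2 * Lj j ≤ sN j * Lj j := by nlinarith
      intro v hv
      simp only [Bq, Finset.mem_product, Finset.mem_Ico] at hv ⊢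
      refine ⟨⟨?_, ?_⟩, ?_, ?_⟩ <;> linarith [hv.1.1, hv.1.2, hv.2.1, hv.2.2])
    (s := s1) (M := M) (A0 := 16 * α) (B0 := a0 * b0) (β := bes R κ) (Γ := 2 / (1 - x0)) (t := t)
    (a := fun j => α * (1 / 4) ^ j) (b := b) (g := fun j => x0 ^ (j / 2)) (n := sn)
    hs0 hM0 (fun j => by unfold sn; positivity) (fun j _ w _ => (sS_card j w).le)
    (fun j => by simp only [hb]; positivity) (fun j => by positivity) (by positivity)
    (by positivity) hbes (fun j => by positivity) hXK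
    (fun j hj w hw z hz ν hν => hMK j hj w hw z hz ν (nu_trans hN hν (hUs j hj w hw)))
    (fun j hj w hw z hz ν hν => hbias j hj w hw z hz ν (nu_trans hN hν (hUs j hj w hw))) hna
    (fun j hj => by
      have h1 := hna j hj
      simp only [hb, hb0]
      have h2 : 0 ≤ C1 * x0 ^ (j / 2) * (2 + 4 * Real.exp M) := by positivity
      have h3 := mul_le_mul_of_nonneg_right h1 h2
      rw [hα] at h3
      nlinarith)
    (fun j hj => (hW j (hJ' j hj)).1) (geom_two hx0.le hx1 J)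
    (by
      rw [hs1]
      have h1 : |t| * a0 ≤ |T| := ht.trans (le_abs_self _)
      have h2 := mul_le_mul_of_nonneg_left h1 (by positivity : 0 ≤ 4 * ((9 : ℕ) : ℝ) * (16 * κ ^ 2))
      calc 4 * ((9 : ℕ) : ℝ) * (16 * α) * |t| = 4 * ((9 : ℕ) : ℝ) * (16 * κ ^ 2) * (|t| * a0) := by
            rw [hα]; ring
        _ ≤ _ := h2)
  have hint : ∀ j < J, ∀ w ∈ W j, ∀ z ∈ sS j w,
      Integrable (fun ω => YY A (κ * ρ) φ j z ω) P :=
    fun j hj w hw z hz => loc_integrable (hXl j hj w hw z hz)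
  have hdec : ∀ ω, ∑ ℓ ∈ smf A (κ * ρ) ω, φ ℓ = ∑ j ∈ Finset.range J, ∑ w ∈ W j,
      ∑ z ∈ sS j w, YY A (κ * ρ) φ j z ω := by
    intro ω
    rw [SML.decomp hJ hJ' (Ig := fun j => (W j).biUnion (sS j)) (fun j hj ω ℓ hℓ => by
      obtain ⟨w, hw, hz⟩ := (hW j hj).2.1 ω ℓ hℓ
      exact Finset.mem_biUnion.2 ⟨w, hw, hz⟩) φ ω]
    refine Finset.sum_congr rfl fun j _ => ?_
    rw [Finset.sum_biUnion]
    intro w _ w' _ hne
    exact sS_disj hne
  have heq : (fun ω => t * (∑ ℓ ∈ smf A (κ * ρ) ω, φ ℓ -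
      ∫ ω', ∑ ℓ ∈ smf A (κ * ρ) ω', φ ℓ ∂P)) =
      fun ω => t * ∑ j ∈ Finset.range J, ∑ w ∈ W j, ∑ z ∈ sS j w,
        (YY A (κ * ρ) φ j z ω - ∫ x, YY A (κ * ρ) φ j z x ∂P) :=
    funext fun ω => congrArg (t * ·) (sum_center hint hdec ω)
  rw [heq]
  refine hmain.trans (ENNReal.ofReal_le_ofReal (Real.exp_le_exp.2 ?_))
  exact ar_end hbes (Nat.cast_nonneg _) hb00 hGc0 ha0.le hx2

end Vale.Agent.P167.H562.QM
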