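import Vale.Agent.P167.H562.Q.MQ3
import Vale.Agent.P167.H562.MAJ5
import Vale.Agent.P167.H167.Crs

/-!
# P167, general `q`: number of the big pieces

`bigs_card_leA`: the number of the big pieces which visit a zone is at most the number of `MajA`.
`mom2`: second moment of the number of the pieces of `D` which visit a box and are not small, with a factor.
-/

namespace Vale.Agent.P167.H562.QM

open Finset Vale.Agent.P167.FK Vale.Agent.P167.BR
open Vale.Agent.P167.FKA (Ind)
open Vale.Agent.P167.H166 (bxx mem_bxx)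
open Vale.Agent.P167.H562.SML
open Vale.Agent.P167.H562.MAJ (bigs nm_tri nm_comm')
open Vale.Agent.P167.H167 (isSeg Bg)

variable {Q : ℝ} {ω : Cfg} {D Z A : Finset (ℤ × ℤ)}

/-- The number of the big pieces which visit `Z`, if the squares next to `Z` are in the zone `A`. -/
theorem bigs_card_leA {d : ℝ} (hZ : ∀ v ∈ Z, ∀ w : ℤ × ℤ, nm (w - v) ≤ 1 → w ∈ A) {N : ℕ}
    (hN : MajA A d ω N) : (bigs D Z d ω).card ≤ N := by
  classical
  refine hN _ ?_ ?_ ?_
  · intro B hB
    exact isSeg (mem_filter.1 hB).1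
  · intro B hB B' hB' hne
    rw [Finset.disjoint_left]
    intro e he he'
    exact hne (eq_of_mem_pcs (mem_filter.1 hB).1 (mem_filter.1 hB').1 he he')
  · intro B hB
    obtain ⟨-, ⟨e, he, heZ⟩, hs⟩ := mem_filter.1 hB
    constructor
    · refine ⟨e, he, ?_⟩
      rcases mem_eds.1 heZ with h | h
      · exact hZ _ h _ (by simp [nm])
      · exact hZ _ h _ (H945.nm_step e)
    · unfold Small at hs
      push Not at hs
      obtain ⟨u, hu, v, hv, h⟩ := hs
      obtain ⟨a1, ha1, rfl⟩ := mem_image.1 hu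
      obtain ⟨a2, ha2, rfl⟩ := mem_image.1 hv
      exact ⟨a1, ha1, a2, ha2, h⟩

/-- The trivial bound of the number of the pieces which visit a box. -/
theorem bg_triv (c : ℤ × ℤ) (L : ℤ) (d : ℝ) (ω : Cfg) :
    (Bg D c L d ω).card ≤ 2 * (bxx c L).card := by
  classical
  have h1 : ∀ A ∈ Bg D c L d ω, ∃ e ∈ A, nm (hdv e - c) ≤ L := fun A hA => (mem_filter.1 hA).2.1
  choose! f hf using h1
  -- the edges with the head in the box
  set E : Finset Ed := (bxx c L).biUnion fun v => {ia v, ib v} with hE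
  have hcard : E.card ≤ 2 * (bxx c L).card := by
    refine card_biUnion_le.trans ?_
    rw [mul_comm]
    refine (sum_le_card_nsmul _ _ 2 (fun v _ => card_le_two)).trans ?_
    simp
  refine le_trans (card_le_card_of_injOn f (fun A hA => ?_) fun A hA B hB h => ?_) hcard
  · have h2 := hf A hA
    rw [hE]
    simp only [coe_biUnion, Set.mem_iUnion, mem_coe, mem_insert, mem_singleton]
    refine ⟨hdv (f A), mem_bxx.2 h2.2, ?_⟩
    exact eq_of_hdv rfl
  · have h2 := hf A hA
    have h3 := hf B hB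
    rw [← h] at h3
    exact eq_of_mem_pcs (mem_filter.1 hA).1 (mem_filter.1 hB).1 h2.1 h3.1

/-- **Second moment of the number of the big pieces near a ball.** -/
theorem mom2 (hQ : 1 ≤ Q) (h : RSW Q) (Lam : ℕ) : ∃ C : ℝ, 0 < C ∧ ∀ (D : Finset (ℤ × ℤ)) (η : Cfg),
    Good η → ∀ (c : ℤ × ℤ) (L d : ℤ), 1 ≤ d → 0 ≤ L → L ≤ Lam * d →
    (∀ (y : ℤ × ℤ) (a : ℤ), 1 ≤ a → bxx y a ⊆ bxx c (2 * L + 2 * d) → OneC y a D η) →
    ∀ G : Cfg → ℝ, (∀ ω, 0 ≤ G ω) → Ind (bxx c (2 * L + 2 * d)) G →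
    Ex Q D η (fun ω => G ω * ((Bg D c L d ω).card : ℝ) ^ 2) ≤ C * Ex Q D η G := by
  classical
  have hQ0 : 0 < Q := by linarith
  obtain ⟨ε, C1, ρ0, hε, hC1, hρ0, h1⟩ := macro_B hQ h 1 Lam 2 0 one_pos (Nat.cast_nonneg _)
  -- the trivial bound
  set B : ℝ := 2 * (2 * (Lam * ρ0) + 1) ^ 2 with hB
  have hB0 : 0 < B := by positivity
  refine ⟨C1 + B ^ 2, by positivity, fun D η hη c L d hd hL hLd hone G hG0 hG => ?_⟩
  have hG1 : 0 ≤ Ex Q D η G := FKA.Ex_nonneg hQ0 fun S _ => hG0 _
  have hLR : (L : ℝ) ≤ Lam * d := by exact_mod_cast hLd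
  rcases le_total ρ0 (d : ℝ) with hρ | hρ
  · -- large scales
    obtain ⟨N, -, hN2, hN3⟩ := h1 d hρ c (bxx c L) (fun v hv => by
      rw [mem_bxx] at hv
      have h2 : (nm (v - c) : ℝ) ≤ L := by exact_mod_cast hv
      linarith) (fun i => i.elim0)
    have hnr : ∀ v, Nr (bxx c L) (1 * (d : ℝ)) v → v ∈ bxx c (2 * L + 2 * d) := by
      rintro v ⟨u, hu, h2⟩
      rw [mem_bxx] at hu ⊢
      have h3 : nm (v - u) ≤ d := by
        rw [one_mul] at h2
        exact_mod_cast h2
      have h4 := nm_tri v u c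
      omega
    have h4 := hN3 D η hη (fun y a ha hy => hone y a ha fun v hv => hnr v (hy v hv)) G hG0
      (fun ω ω' hw => hG ω ω' fun v hv => hw v fun h5 => hv (hnr v h5.2))
    have h5 : Ex Q D η (fun ω => G ω * ((Bg D c L d ω).card : ℝ) ^ 2) ≤
        Ex Q D η (fun ω => G ω * Real.exp (2 * (N ω : ℝ))) := by
      refine FKA.Ex_mono hQ0 fun S _ => mul_le_mul_of_nonneg_left ?_ (hG0 _)
      set w := cf D η S
      have h6 : (Bg D c L d w).card ≤ N w := by
        refine hN2 w _ ?_ ?_ ?_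
        · intro A hA
          exact isSeg (mem_filter.1 hA).1
        · intro A hA A' hA' hne
          rw [Finset.disjoint_left]
          intro e he he'
          exact hne (eq_of_mem_pcs (mem_filter.1 hA).1 (mem_filter.1 hA').1 he he')
        · intro A hA
          obtain ⟨-, ⟨e, he, h7⟩, hs⟩ := mem_filter.1 hA
          refine ⟨⟨e, he, mem_bxx.2 h7⟩, ?_⟩
          unfold Small at hs
          push Not at hs
          obtain ⟨u, hu, v, hv, h8⟩ := hs
          obtain ⟨a1, ha1, rfl⟩ := mem_image.1 hu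
          obtain ⟨a2, ha2, rfl⟩ := mem_image.1 hv
          exact ⟨a1, ha1, a2, ha2, by rw [one_mul]; exact h8⟩
      have h7 : ((Bg D c L d w).card : ℝ) ≤ Real.exp (N w) := by
        have h8 : ((Bg D c L d w).card : ℝ) ≤ N w := by exact_mod_cast h6
        have h9 := Real.add_one_le_exp (N w : ℝ)
        linarith
      calc ((Bg D c L d w).card : ℝ) ^ 2 ≤ Real.exp (N w) ^ 2 :=
            pow_le_pow_left₀ (Nat.cast_nonneg _) h7 2
        _ = Real.exp (2 * (N w : ℝ)) := by rw [← Real.exp_nat_mul]; push_cast; rfl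
    refine h5.trans (h4.trans (mul_le_mul_of_nonneg_right ?_ hG1))
    nlinarith
  · -- small scales
    have h5 : ∀ ω, ((Bg D c L d ω).card : ℝ) ≤ B := by
      intro ω
      have h6 := bg_triv (D := D) c L d ω
      have h7 : ((bxx c L).card : ℝ) = (2 * L + 1) ^ 2 := by
        unfold bxx
        rw [card_product, Int.card_Icc, Int.card_Icc]
        have e1 : (c.1 + L + 1 - (c.1 - L)).toNat = (2 * L + 1).toNat := by congr 1; ring
        have e2 : (c.2 + L + 1 - (c.2 - L)).toNat = (2 * L + 1).toNat := by congr 1; ring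
        rw [e1, e2]
        push_cast
        have e3 : (((2 * L + 1).toNat : ℕ) : ℝ) = 2 * L + 1 := by
          have : (((2 * L + 1).toNat : ℕ) : ℤ) = 2 * L + 1 := Int.toNat_of_nonneg (by omega)
          exact_mod_cast this
        rw [e3]
        ring
      have h8 : ((Bg D c L d ω).card : ℝ) ≤ 2 * ((bxx c L).card : ℝ) := by exact_mod_cast h6
      rw [h7] at h8
      have h9 : (L : ℝ) ≤ Lam * ρ0 :=
        hLR.trans (mul_le_mul_of_nonneg_left hρ (Nat.cast_nonneg _))
      have h10 : (0 : ℝ) ≤ L := by exact_mod_cast hL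
      rw [hB]
      refine h8.trans ?_
      have : (2 * (L : ℝ) + 1) ^ 2 ≤ (2 * (Lam * ρ0) + 1) ^ 2 :=
        pow_le_pow_left₀ (by linarith) (by linarith) 2
      linarith
    have h6 : Ex Q D η (fun ω => G ω * ((Bg D c L d ω).card : ℝ) ^ 2) ≤
        Ex Q D η (fun ω => B ^ 2 * G ω) := by
      refine FKA.Ex_mono hQ0 fun S _ => ?_
      rw [mul_comm]
      refine mul_le_mul_of_nonneg_right ?_ (hG0 _)
      exact pow_le_pow_left₀ (Nat.cast_nonneg _) (h5 _) 2
    rw [FKA.Ex_mul_left] at h6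
    refine h6.trans (mul_le_mul_of_nonneg_right ?_ hG1)
    linarith

end Vale.Agent.P167.H562.QM
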