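import Vale.Agent.P167.H562.Q.SM2
import Vale.Agent.P167.H945.Macro

/-!
# P167, general `q`, block Q-MAJ: quadratic statistics of the small loops, large segments

`quad_U`: exponential moments of the sum of the squares of the masses of the small loops. `macro_U`:
exponential moments of the number of the disjoint macroscopic segments.
-/

namespace Vale.Agent.P167.H562.QM

open Finset Filter Topology MeasureTheory Vale.Agent.P167.FK
open Vale.Agent.P167.FKA (Loc Ind ArmDec)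
open Vale.Agent.P167.H519 (IsLim loc_cont Bq_mono exists_Bq)
open Vale.Agent.P167.H45 (gp BL BL_fin zz zz_box small_box bs_le grid_fin nm_le nm_sub_le cl BL_measR
  nm_sub_comm)
open Vale.Agent.P167.H166 (bxx mem_bxx)
open Vale.Agent.P167.H259 (f_markov)
open Vale.Agent.P167.H562.GL Vale.Agent.P167.H562.SML

theorem Ig_spec {R κ ρ : ℝ} {x : ℤ × ℤ} {A : Finset (ℤ × ℤ)} {W : ℕ → Finset (ℤ × ℤ)}
    (hW : ∀ j : ℕ, 1 ≤ κ * ρ / 2 ^ j → ((W j).card : ℝ) ≤ bes R κ * 2 ^ j ∧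
      (∀ ω, ∀ ℓ ∈ smf A (κ * ρ) ω, ∃ w ∈ W j, zz ⌈κ * ρ / 2 ^ j⌉ ℓ ∈ sS j w) ∧
      ∀ w ∈ W j, ∀ v ∈ sU ⌈κ * ρ / 2 ^ j⌉ j w, (nm (v - x) : ℝ) ≤ (R + 32 * κ) * ρ) :
    ∀ j : ℕ, 1 ≤ κ * ρ / 2 ^ j →
      ((((W j).biUnion (sS j)).card : ℕ) : ℝ) ≤ 16 * bes R κ * 4 ^ j ∧
      ∀ ω, ∀ ℓ ∈ smf A (κ * ρ) ω, zz ⌈κ * ρ / 2 ^ j⌉ ℓ ∈ (W j).biUnion (sS j) := by
  intro j hj
  obtain ⟨h1, h2, -⟩ := hW j hj
  have hbes : 0 ≤ bes R κ := by unfold bes; positivity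
  refine ⟨?_, fun ω ℓ hℓ => mem_biUnion.2 (h2 ω ℓ hℓ)⟩
  have h3 : ((W j).biUnion (sS j)).card ≤ (W j).card * sn j := by
    refine card_biUnion_le.trans ?_
    rw [sum_congr rfl fun w _ => sS_card j w, sum_const, smul_eq_mul]
  have h4 : ((((W j).biUnion (sS j)).card : ℕ) : ℝ) ≤ (W j).card * sn j := by exact_mod_cast h3
  refine h4.trans ?_
  have h5 := four_half j
  have h6 : (sn j : ℝ) = 16 * 4 ^ (j / 2) := by unfold sn; push_cast; rfl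
  rw [h6]
  have h7 : (4 : ℝ) ^ j = 2 ^ j * 2 ^ j := by rw [← mul_pow]; norm_num
  calc ((W j).card : ℝ) * (16 * 4 ^ (j / 2)) ≤ (bes R κ * 2 ^ j) * (16 * 2 ^ j) := by
        refine mul_le_mul h1 (by linarith) (by positivity) (by positivity)
    _ = _ := by rw [h7]; ring

/-- **Quadratic statistics of the small loops.** -/
theorem quad_U {P : Measure Cfg} (hX : CrossP P) {R κ : ℝ} (T : ℝ) (hR : 0 ≤ R) (hκ : 0 < κ) :
    ∃ C : ℝ, 0 ≤ C ∧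
    ∀ ρ : ℝ, 1 ≤ ρ → ∀ (x : ℤ × ℤ) (A : Finset (ℤ × ℤ)), (∀ v ∈ A, (nm (v - x) : ℝ) ≤ R * ρ) →
    ∀ (U : Finset (ℤ × ℤ)) (N : Measure Cfg), (∀ v, (nm (v - x) : ℝ) ≤ (R + 32 * κ) * ρ → v ∈ U) →
    Nu P N U → ∀ (φ : Finset Ed → ℝ) (α : ℝ), 0 ≤ α → Bd κ ρ α φ →
    ∀ lam : ℝ, 0 ≤ lam → lam * α ^ 2 ≤ T →
      Em N (fun ω => lam * ∑ ℓ ∈ smf A (κ * ρ) ω, (φ ℓ) ^ 2) ≤
        ENNReal.ofReal (Real.exp (C * (lam * α ^ 2))) := by
  classical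
  set T' : ℝ := |T| + 1 with hT'
  have hT0 : 0 < T' := by positivity
  set β : ℝ := 16 * bes R κ + 1 with hβ
  have hbes : 0 ≤ bes R κ := by unfold bes; positivity
  have hβ0 : 0 < β := by linarith
  obtain ⟨C, hC⟩ := large_genU hX s_con s_two (1 / 8) (2 * β * T' * (κ ^ 2) ^ 2) (by norm_num)
  set M : ℝ := max C 1 with hM
  have hM1 : 1 ≤ M := le_max_right _ _
  have hlogM : 0 ≤ Real.log M := Real.log_nonneg hM1
  refine ⟨Real.log M / T', by positivity, fun ρ hρ x A hA U N hU hN φ α hα0 hφ lam hlam0 hlam => ?_⟩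
  have hNp : IsProbabilityMeasure N := hN.prob
  have hρ0 : 0 < ρ := by linarith
  obtain ⟨W, hW⟩ := grid_superA hR hκ hρ x A hA
  set Ig : ℕ → Finset (ℤ × ℤ) := fun j => (W j).biUnion (sS j) with hIgd
  have hIg := Ig_spec (κ := κ) (ρ := ρ) (A := A) hW
  obtain ⟨J, hJ, hJ'⟩ := exists_J hκ hρ
  set u : ℝ := lam * α ^ 2 with hu
  have hu0 : 0 ≤ u := by positivity
  have huT : u ≤ T' := by rw [hT']; linarith [le_abs_self T]
  -- bound of the square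
  have hGb : ∀ j : ℕ, ∀ ω ℓ, IsLoop ω ℓ → Small (κ * ρ / 2 ^ j) ℓ →
      |(φ ℓ) ^ 2| ≤ (α * κ ^ 2 * (1 / 4) ^ j) ^ 2 := by
    intro j ω ℓ h1 h2
    rw [abs_of_nonneg (sq_nonneg _), ← sq_abs (φ ℓ)]
    exact pow_le_pow_left₀ (abs_nonneg _) (hφ.at hκ hρ j h1 h2) 2
  rcases hu0.eq_or_lt with hu1 | hu1
  · -- everything vanishes
    have h0 : ∀ ω, lam * ∑ ℓ ∈ smf A (κ * ρ) ω, (φ ℓ) ^ 2 ≤ 0 := by
      intro ω
      rw [Finset.mul_sum]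
      refine Finset.sum_nonpos fun ℓ hℓ => ?_
      rw [mem_smf] at hℓ
      have h1 := hGb 0 ω ℓ hℓ.1 (by simpa using hℓ.2.2)
      rw [abs_of_nonneg (sq_nonneg _)] at h1
      calc lam * (φ ℓ) ^ 2 ≤ lam * (α * κ ^ 2 * (1 / 4) ^ 0) ^ 2 :=
            mul_le_mul_of_nonneg_left h1 hlam0
        _ = u * (κ ^ 2) ^ 2 := by rw [hu]; ring
        _ = 0 := by rw [← hu1]; ring
    refine (Em_mono h0).trans ?_
    unfold Em
    rw [← hu1]
    simp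
  let K : ℕ → ℤ × ℤ → Cfg → ℝ := fun j z ω => ((BL (gp ⌈κ * ρ / 2 ^ j⌉ z)
    (2 * (⌈κ * ρ / 2 ^ j⌉ : ℝ)) (1 / 8 * (2 * (⌈κ * ρ / 2 ^ j⌉ : ℝ))) ω).ncard : ℝ)
  have hKm : ∀ j z, Measurable (K j z) := fun j z => BL_measR _ _ _
  let I : Finset (Σ _ : ℕ, ℤ × ℤ) := (Finset.range J).sigma Ig
  let θ : (Σ _ : ℕ, ℤ × ℤ) → ℝ := fun p => (1 / 2) ^ (p.1 + 1) * (1 / 4) ^ p.1 / β * (u / T')
  have hθ : ∀ p, 0 < θ p := fun p => by positivity
  have hsum : ∑ p ∈ I, θ p ≤ u / T' := by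
    rw [Finset.sum_sigma]
    calc ∑ j ∈ Finset.range J, ∑ z ∈ Ig j, θ ⟨j, z⟩
        ≤ ∑ j ∈ Finset.range J, ((1 : ℝ) / 2) ^ (j + 1) * (u / T') := by
          refine Finset.sum_le_sum fun j hj => ?_
          simp only [θ, Finset.sum_const, nsmul_eq_mul]
          have h1 := (hIg j (hJ' j (Finset.mem_range.1 hj))).1
          have h2 : ((Ig j).card : ℝ) ≤ β * 4 ^ j := h1.trans
            (mul_le_mul_of_nonneg_right (by linarith) (by positivity))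
          calc ((Ig j).card : ℝ) * ((1 / 2) ^ (j + 1) * (1 / 4) ^ j / β * (u / T'))
              ≤ (β * 4 ^ j) * ((1 / 2) ^ (j + 1) * (1 / 4) ^ j / β * (u / T')) :=
                mul_le_mul_of_nonneg_right h2 (by positivity)
            _ = (1 / 2) ^ (j + 1) * ((4 : ℝ) ^ j * (1 / 4) ^ j) * (u / T') := by field_simp
            _ = (1 / 2) ^ (j + 1) * (u / T') := by rw [← mul_pow]; norm_num
      _ ≤ 1 * (u / T') := by
          rw [← Finset.sum_mul]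
          exact mul_le_mul_of_nonneg_right (geom_half J) (by positivity)
      _ = u / T' := one_mul _
  have hsum1 : ∑ p ∈ I, θ p ≤ 1 := hsum.trans ((div_le_one hT0).2 huT)
  have hB : ∀ p ∈ I, Em N (fun ω => (θ p)⁻¹ *
      (lam * ((α * κ ^ 2 * (1 / 4) ^ p.1) ^ 2 * K p.1 p.2 ω))) ≤
      ENNReal.ofReal (Real.exp (Real.log M)) := by
    rintro ⟨j, z⟩ hp
    have hj : j < J := Finset.mem_range.1 (Finset.mem_sigma.1 hp).1
    have h1 : (1 : ℝ) ≤ ⌈κ * ρ / 2 ^ j⌉ := (hJ' j hj).trans (Int.le_ceil _)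
    obtain ⟨w, hw, hz⟩ := mem_biUnion.1 (Finset.mem_sigma.1 hp).2
    have hL1 : (1 : ℤ) ≤ ⌈κ * ρ / 2 ^ j⌉ := by exact_mod_cast h1
    have h2 := hC N U hN (gp ⌈κ * ρ / 2 ^ j⌉ z) (2 * (⌈κ * ρ / 2 ^ j⌉ : ℝ)) (by linarith)
      (fun v hv => hU v ((hW j (hJ' j hj)).2.2 w hw v (near_sub_sU hL1 hz hv)))
    rw [Real.exp_log (by linarith)]
    refine le_trans (Em_mono fun ω => ?_) (h2.trans (ENNReal.ofReal_le_ofReal (le_max_left _ _)))
    have hK0 : 0 ≤ K j z ω := by simp only [K]; positivity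
    have e1 : (θ ⟨j, z⟩)⁻¹ * (lam * ((α * κ ^ 2 * (1 / 4) ^ j) ^ 2 * K j z ω)) =
        (2 * β * T' * (κ ^ 2) ^ 2) * ((1 / 2) ^ j * K j z ω) := by
      simp only [θ]
      have e2 : ((1 : ℝ) / 4) ^ j = (1 / 2) ^ j * (1 / 2) ^ j := by rw [← mul_pow]; norm_num
      have e3 : ((1 : ℝ) / 2) ^ j ≠ 0 := by positivity
      have e4 : lam * ((α * κ ^ 2 * (1 / 4) ^ j) ^ 2 * K j z ω) =
          u * ((κ ^ 2 * (1 / 4) ^ j) ^ 2 * K j z ω) := by rw [hu]; ring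
      rw [e4, e2, pow_succ]
      field_simp
    show (θ ⟨j, z⟩)⁻¹ * (lam * ((α * κ ^ 2 * (1 / 4) ^ j) ^ 2 * K j z ω)) ≤ _
    rw [e1]
    have h3 : ((1 : ℝ) / 2) ^ j * K j z ω ≤ 1 * K j z ω :=
      mul_le_mul_of_nonneg_right (pow_le_one₀ (by norm_num) (by norm_num)) hK0
    rw [one_mul] at h3
    exact mul_le_mul_of_nonneg_left h3 (by positivity)
  have hfin := Em_holder (μ := N) I
    (Y := fun p ω => lam * ((α * κ ^ 2 * (1 / 4) ^ p.1) ^ 2 * K p.1 p.2 ω))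
    (fun p _ => ((hKm p.1 p.2).const_mul _).const_mul _) (fun p _ => hθ p) hsum1 hB
  have hle : ∀ ω, lam * ∑ ℓ ∈ smf A (κ * ρ) ω, (φ ℓ) ^ 2 ≤
      ∑ p ∈ I, lam * ((α * κ ^ 2 * (1 / 4) ^ p.1) ^ 2 * K p.1 p.2 ω) := by
    intro ω
    rw [SML.decomp hJ hJ' (fun j hj => (hIg j hj).2) (fun ℓ => (φ ℓ) ^ 2) ω, ← Finset.mul_sum,
      Finset.sum_sigma]
    refine mul_le_mul_of_nonneg_left (Finset.sum_le_sum fun j hj => Finset.sum_le_sum fun z _ => ?_)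
      hlam0
    exact (le_abs_self _).trans (YY_le hJ (hJ' j (Finset.mem_range.1 hj)) z ω (by positivity)
      (fun ℓ h1 h2 => hGb j ω ℓ h1 h2))
  refine (Em_mono hle).trans (hfin.trans (ENNReal.ofReal_le_ofReal (Real.exp_le_exp.2 ?_)))
  rw [← Finset.sum_mul]
  calc (∑ p ∈ I, θ p) * Real.log M ≤ u / T' * Real.log M :=
        mul_le_mul_of_nonneg_right hsum hlogM
    _ = Real.log M / T' * u := by ring



/-! ### Segments -/

open Vale.Agent.P167.H945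

/-- The number of the disjoint crossing segments, conditionally on the outside of the box. -/
def CrossSP (P : Measure Cfg) : Prop := ∃ (k : ℤ) (l C : ℝ), 2 ≤ k ∧ 0 < l ∧ 0 < C ∧
  ∀ (x : ℤ × ℤ) (r : ℤ), 1 ≤ r → ∃ Z : Cfg → ℕ,
    (∀ ω ω' : Cfg, (∀ v, nm (v - x) ≤ k * r → ω v = ω' v) → Z ω = Z ω') ∧
    (∀ (ω : Cfg) (𝓕 : Finset (Finset Ed)), (∀ γ ∈ 𝓕, IsSeg ω γ) →
      (∀ γ ∈ 𝓕, ∀ γ' ∈ 𝓕, γ ≠ γ' → Disjoint γ γ') → (∀ γ ∈ 𝓕, Crs k r x γ) → 𝓕.card ≤ Z ω) ∧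
    ∀ (B : Finset (ℤ × ℤ)) (G : Cfg → ℝ), (∀ ω, 0 ≤ G ω) → Loc B G → Ind (bxx x (k * r)) G →
      ∫ ω, G ω * Real.exp (l * (Z ω : ℝ)) ∂P ≤ C * ∫ ω, G ω ∂P

/-- The number of the disjoint crossing segments, uniformly in the boundary conditions. -/
theorem crossS_fk {Q : ℝ} (hQ : 1 ≤ Q) (h : RSW Q) : ∃ (k : ℤ) (l C : ℝ), 2 ≤ k ∧ 0 < l ∧ 0 < C ∧
    ∀ (x : ℤ × ℤ) (r : ℤ), 1 ≤ r → ∃ Z : Cfg → ℕ,
    (∀ ω ω' : Cfg, (∀ v, nm (v - x) ≤ k * r → ω v = ω' v) → Z ω = Z ω') ∧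
    (∀ (ω : Cfg) (𝓕 : Finset (Finset Ed)), (∀ γ ∈ 𝓕, IsSeg ω γ) →
      (∀ γ ∈ 𝓕, ∀ γ' ∈ 𝓕, γ ≠ γ' → Disjoint γ γ') → (∀ γ ∈ 𝓕, Crs k r x γ) → 𝓕.card ≤ Z ω) ∧
    ∀ (D : Finset (ℤ × ℤ)) (η : Cfg) (G : Cfg → ℝ), Good η → bxx x (k * r) ⊆ D →
      (∀ ω, 0 ≤ G ω) → Ind (bxx x (k * r)) G →
      Ex Q D η (fun ω => G ω * Real.exp (l * (Z ω : ℝ))) ≤ C * Ex Q D η G := by
  have hQ0 : 0 < Q := by linarith
  obtain ⟨α, C, hα, hC, hdec, -⟩ := FKA.arm_fk hQ h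
  -- the ratio
  obtain ⟨n, hn, hn4⟩ : ∃ n : ℕ, C * ((4 : ℝ) / n) ^ α ≤ 1 / 2 ∧ 4 ≤ n := by
    have h1 : Tendsto (fun n : ℕ => C * ((4 : ℝ) / n) ^ α) atTop (𝓝 0) := by
      have h2 : Tendsto (fun n : ℕ => (4 : ℝ) / n) atTop (𝓝 0) :=
        tendsto_const_div_atTop_nhds_zero_nat 4
      have h3 := (h2.rpow_const (p := α) (Or.inr hα.le)).const_mul C
      rw [Real.zero_rpow hα.ne', mul_zero] at h3
      exact h3
    obtain ⟨n, h2, h3⟩ := ((h1.eventually (ge_mem_nhds (show (0 : ℝ) < 1 / 2 by norm_num))).and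
      (eventually_ge_atTop 4)).exists
    exact ⟨n, h2, h3⟩
  have hn4' : (4 : ℝ) ≤ n := by exact_mod_cast hn4
  have hn4'' : (4 : ℤ) ≤ n := by exact_mod_cast hn4
  have harm : ∀ (x : ℤ × ℤ) (r : ℤ), 1 ≤ r → Pr Q (bxx x ((n + 1) * r)) eta1
      {ω | ArmPx x (r + 1) ((n + 1) * r - 1) ω} ≤ 1 / 2 := by
    intro x r hr
    have hr' : (1 : ℝ) ≤ r := by exact_mod_cast hr
    have h1 := hdec x (r + 1) ((n + 1) * r - 1) (bxx x ((n + 1) * r)) eta1 (fun _ => 1)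
      (by omega) (by nlinarith) f_good.2.2
      (Finset.sdiff_subset.trans (FKA.sub_bxx x ((n + 1) * r))) (fun _ => zero_le_one)
      (fun _ _ _ => rfl)
    rw [FKA.Ex_const hQ0] at h1
    simp only [one_mul, mul_one] at h1
    refine h1.trans (le_trans ?_ hn)
    refine mul_le_mul_of_nonneg_left (Real.rpow_le_rpow ?_ ?_ hα.le) hC.le
    · push_cast
      apply div_nonneg <;> nlinarith
    · push_cast
      rw [div_le_div_iff₀ (by nlinarith) (by linarith)]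
      nlinarith
  have hlog : 0 < Real.log (3 / 2) := Real.log_pos (by norm_num)
  refine ⟨n + 2, Real.log (3 / 2) / 4, 2, by omega, by linarith, by norm_num,
    fun x r hr => ⟨fun ω => 2 * (FKA.kap x r ((n + 1) * r) 0 true ω +
      FKA.kap x r ((n + 1) * r) 1 false ω), ?_, ?_, ?_⟩⟩
  · intro ω ω' hω
    have : ∀ v, nm (v - x) ≤ ((n : ℤ) + 1) * r → ω v = ω' v := fun v hv => hω v (by nlinarith)
    simp only [FKA.kap, FKA.Sb_congr this]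
  · intro ω 𝓕 hs hd hc
    have hrR : r ≤ ((n : ℤ) + 1) * r := by nlinarith
    refine H945.segs_le hrR 𝓕 hs hd (fun γ hγ => (hc γ hγ).1) fun γ hγ => ?_
    obtain ⟨b, hb, hb2⟩ := (hc γ hγ).2
    exact ⟨b, hb, by nlinarith⟩
  · intro D η G hη hD hG0 hG
    have hsub : bxx x (((n : ℤ) + 1) * r) ⊆ bxx x (((n : ℤ) + 2) * r) := fun v hv => by
      rw [mem_bxx] at hv ⊢
      nlinarith
    rw [FKA.markov f_markov hQ0 (hsub.trans hD) hη (Ind.mono hsub hG), ← FKA.Ex_mul_left]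
    refine FKA.Ex_mono hQ0 fun S _ => ?_
    rw [mul_comm (2 : ℝ)]
    refine mul_le_mul_of_nonneg_left ?_ (hG0 _)
    generalize hζ : cf D η S = ζ
    have hζg : Good ζ := by rw [← hζ]; exact f_good.1 _ _ _ hη
    have hrR : r + 2 < ((n : ℤ) + 1) * r := by nlinarith
    have h1 := FKA.kap_exp_primal hQ f_markov f_good hrR (harm x r hr) hζg
    have h2 := FKA.kap_exp_dual hQ f_markov f_good f_dual hrR (harm (FKA.sh x) r hr) hζg
    have h3 : Ex Q (bxx x ((n + 1) * r)) ζ (fun ω => Real.exp (Real.log (3 / 2) / 4 *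
        ((2 * (FKA.kap x r ((n + 1) * r) 0 true ω + FKA.kap x r ((n + 1) * r) 1 false ω) : ℕ) :
          ℝ))) ≤
        Ex Q (bxx x ((n + 1) * r)) ζ (fun ω => (1 / 2) *
          ((3 / 2 : ℝ) ^ FKA.kc x r ((n + 1) * r) (bxx x ((n + 1) * r)) ω +
          (3 / 2 : ℝ) ^ FKA.kap x r ((n + 1) * r) 1 false ω)) := by
      refine FKA.Ex_mono hQ0 fun T _ => ?_
      rw [← FKA.kap_eq]
      generalize FKA.kap x r ((n + 1) * r) 0 true (cf (bxx x ((n + 1) * r)) ζ T) = a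
      generalize FKA.kap x r ((n + 1) * r) 1 false (cf (bxx x ((n + 1) * r)) ζ T) = b
      have e : ∀ n : ℕ, ((3 : ℝ) / 2) ^ n = Real.exp (Real.log (3 / 2) / 2 * n) ^ 2 := by
        intro n
        rw [← Real.exp_nat_mul, ← Real.rpow_natCast, Real.rpow_def_of_pos (by norm_num)]
        congr 1
        push_cast
        ring
      rw [e a, e b]
      have e2 : Real.log (3 / 2) / 4 * (((2 * (a + b) : ℕ)) : ℝ) =
          Real.log (3 / 2) / 2 * a + Real.log (3 / 2) / 2 * b := by push_cast; ring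
      rw [e2, Real.exp_add]
      nlinarith [sq_nonneg (Real.exp (Real.log (3 / 2) / 2 * (a : ℝ)) -
          Real.exp (Real.log (3 / 2) / 2 * (b : ℝ)))]
    rw [FKA.Ex_mul_left, FKA.Ex_add] at h3
    linarith

theorem crossSP {Q : ℝ} (hQ : 1 ≤ Q) (h : RSW Q) {P : Measure Cfg} (hP : IsLim Q P) :
    CrossSP P := by
  obtain ⟨k, l, C, hk, hl, hC, h⟩ := crossS_fk hQ h
  refine ⟨k, l, C, hk, hl, hC, fun x r hr => ?_⟩
  obtain ⟨Z, h1, h2, h3⟩ := h x r hr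
  refine ⟨Z, h1, h2, fun B G hG0 hG hI => ?_⟩
  have hZ : Loc (bxx x (k * r)) (fun ω => Real.exp (l * (Z ω : ℝ))) := fun ω ω' hw => by
    show Real.exp (l * (Z ω : ℝ)) = Real.exp (l * (Z ω' : ℝ))
    rw [h1 ω ω' fun v hv => hw v (mem_bxx.2 hv)]
  refine lim_le hP (A := B ∪ bxx x (k * r)) (B := B) (D0 := bxx x (k * r))
      (GL.Loc.mulU hG hZ) hG fun D hD => ?_
  exact h3 D eta0 G f_good.2.1 hD hG0 hI

/-- Deterministic part of the bound of the number of the macroscopic segments. -/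
theorem macro_det {k : ℤ} (hk : 2 ≤ k) {Z : ℤ × ℤ → ℤ → Cfg → ℕ}
    (hZ1 : ∀ x r, 1 ≤ r → ∀ ω ω' : Cfg, (∀ v, nm (v - x) ≤ k * r → ω v = ω' v) →
      Z x r ω = Z x r ω')
    (hZ2 : ∀ x r, 1 ≤ r → ∀ (ω : Cfg) (𝓕 : Finset (Finset Ed)), (∀ γ ∈ 𝓕, IsSeg ω γ) →
      (∀ γ ∈ 𝓕, ∀ γ' ∈ 𝓕, γ ≠ γ' → Disjoint γ γ') → (∀ γ ∈ 𝓕, Crs k r x γ) → 𝓕.card ≤ Z x r ω)
    (κ R : ℝ) (m N : ℕ) (hN0 : 0 < N) (hκ : 0 < κ) (hR : 0 ≤ R) : ∃ ε D ρ0 : ℝ, 0 < ε ∧ 0 < ρ0 ∧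
    ∀ ρ : ℝ, ρ0 ≤ ρ → ∀ (c : ℤ × ℤ) (x : Fin m → ℤ × ℤ), ∃ (r : ℤ) (I : Finset (ℕ × (ℤ × ℤ))),
      1 ≤ r ∧ (I.card : ℝ) ≤ D ∧ (∀ i ∈ I, i.1 = 0) ∧
      (∀ i ∈ I, ∀ v, nm (v - gp r i.2) ≤ k * r → (nm (v - c) : ℝ) ≤ (R + κ) * ρ) ∧
      (∀ ω ω' : Cfg, (∀ v, (nm (v - c) : ℝ) ≤ (R + κ) * ρ →
        (∀ i, ε * ρ < (nm (v - x i) : ℝ)) → ω v = ω' v) →
        (∑ i ∈ I, Z (gp r i.2) r ω) / N = (∑ i ∈ I, Z (gp r i.2) r ω') / N) ∧
      ∀ ω, Maj c (R * ρ) (κ * ρ) ω ((∑ i ∈ I, Z (gp r i.2) r ω) / N) := by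
  classical
  have hkR : (2 : ℝ) ≤ k := by exact_mod_cast hk
  have hNm : (1 : ℝ) ≤ ((N + 2 * m : ℕ) : ℝ) := by
    have : 1 ≤ N + 2 * m := by omega
    exact_mod_cast this
  set a : ℝ := 4 * (k + 4) * ((N + 2 * m : ℕ) : ℝ) with ha
  have ha0 : 0 < a := by positivity
  set D : ℝ := (4 * (R + κ) * (a / κ) + 2) ^ 2 with hD
  refine ⟨κ / (2 * a), D, a / κ, by positivity, by positivity,
    fun ρ hρ c x => ?_⟩
  have hρ0 : 0 < ρ := lt_of_lt_of_le (by positivity) hρ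
  have hxa : 1 ≤ κ * ρ / a := by
    rw [div_le_iff₀ hκ] at hρ
    rw [one_le_div ha0]; linarith
  set r : ℤ := ⌊κ * ρ / a⌋ with hr
  have hr1 : 1 ≤ r := by rw [hr, Int.le_floor]; exact_mod_cast hxa
  have hrle : (r : ℝ) ≤ κ * ρ / a := Int.floor_le _
  have hrge : κ * ρ / a ≤ 2 * r := by
    have := Int.lt_floor_add_one (κ * ρ / a)
    have h1 : (1 : ℝ) ≤ r := by exact_mod_cast hr1
    rw [← hr] at this
    linarith
  have hrle' : a * r ≤ κ * ρ := by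
    rw [le_div_iff₀ ha0] at hrle; linarith
  have hr1' : (1 : ℝ) ≤ r := by exact_mod_cast hr1
  have hεr : κ / (2 * a) * ρ ≤ r := by
    have : κ / (2 * a) * ρ = κ * ρ / a / 2 := by field_simp
    rw [this]; linarith
  set P1 : ℤ := ⌊(R + κ) * ρ⌋ with hP
  have hP0 : 0 ≤ P1 := by
    rw [hP]; exact Int.floor_nonneg.2 (by positivity)
  obtain ⟨J, hJ1, hJ2⟩ := grid_fin c hr1 hP0
  have hJcard : (J.card : ℝ) ≤ D := by
    have h1 : ((J.card : ℤ) : ℝ) ≤ ((2 * P1 / r + 2 : ℤ) : ℝ) ^ 2 := by exact_mod_cast hJ2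
    have h3 : ((2 * P1 / r : ℤ) : ℝ) ≤ 4 * (R + κ) * (a / κ) := by
      have h4 : ((2 * P1 / r : ℤ) : ℝ) * r ≤ 2 * P1 := by
        exact_mod_cast Int.ediv_mul_le (2 * P1) (by omega : r ≠ 0)
      have h5 : (P1 : ℝ) ≤ (R + κ) * ρ := Int.floor_le _
      have h6 : (2 * P1 : ℝ) ≤ 4 * (R + κ) * (a / κ) * r := by
        have h7 : κ * ρ ≤ 2 * r * a := by rw [div_le_iff₀ ha0] at hrge; linarith
        have h8 : ρ ≤ 2 * r * (a / κ) := by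
          rw [mul_div_assoc', le_div_iff₀ hκ]; linarith
        nlinarith
      have h9 : ((2 * P1 / r : ℤ) : ℝ) * r ≤ 4 * (R + κ) * (a / κ) * r := by linarith
      exact le_of_mul_le_mul_right h9 (by linarith)
    have h4 : (0 : ℝ) ≤ ((2 * P1 / r : ℤ) : ℝ) := by
      exact_mod_cast Int.ediv_nonneg (by omega : (0 : ℤ) ≤ 2 * P1) (by omega)
    have h5 : ((2 * P1 / r + 2 : ℤ) : ℝ) = ((2 * P1 / r : ℤ) : ℝ) + 2 := by push_cast; rfl
    rw [h5] at h1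
    rw [hD]
    have h6 : ((J.card : ℤ) : ℝ) = (J.card : ℝ) := by norm_cast
    rw [h6] at h1
    refine h1.trans ?_
    exact pow_le_pow_left₀ (by linarith) (by linarith) 2
  set J' : Finset (ℤ × ℤ) := J.filter (fun z => (∀ i, (k + 1) * r < nm (x i - gp r z)) ∧
    nm (gp r z - c) ≤ R * ρ + κ * ρ / 2) with hJ'
  set I : Finset (ℕ × (ℤ × ℤ)) := {0} ×ˢ J' with hI
  have hIcard : (I.card : ℝ) ≤ J.card := by
    rw [hI, Finset.card_product]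
    simp only [Finset.card_singleton, one_mul, Nat.cast_le]
    exact Finset.card_le_card (Finset.filter_subset _ _)
  refine ⟨r, I, hr1, hIcard.trans hJcard, fun i hi => ?_, fun i hi v hv' => ?_, ?_, ?_⟩
  · rw [hI, Finset.mem_product, Finset.mem_singleton] at hi
    exact hi.1
  · rw [hI, Finset.mem_product, hJ', Finset.mem_filter] at hi
    have h1 : nm (v - c) ≤ nm (v - gp r i.2) + nm (gp r i.2 - c) := nm_sub_le _ _ _
    have h2 : (nm (v - c) : ℝ) ≤ k * r + nm (gp r i.2 - c) := by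
      have : nm (v - c) ≤ k * r + nm (gp r i.2 - c) := by linarith
      exact_mod_cast this
    have h3 := hi.2.2.2
    have h4 : (k : ℝ) * r ≤ κ * ρ / 4 := by
      have : 4 * ((k : ℝ) * r) ≤ a * r := by
        rw [ha]
        calc 4 * ((k : ℝ) * r) = 4 * k * 1 * r := by ring
          _ ≤ 4 * (k + 4) * ((N + 2 * m : ℕ) : ℝ) * r := by gcongr; linarith
      linarith
    have h5 : 0 < κ * ρ := by positivity
    nlinarith
  · intro ω ω' hω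
    show (∑ i ∈ I, Z (gp r i.2) r ω) / N = (∑ i ∈ I, Z (gp r i.2) r ω') / N
    congr 1
    refine Finset.sum_congr rfl fun i hi => ?_
    rw [hI, Finset.mem_product, hJ', Finset.mem_filter] at hi
    refine hZ1 _ _ hr1 ω ω' fun v hv => hω v ?_ fun j => ?_
    · have h1 : nm (v - c) ≤ nm (v - gp r i.2) + nm (gp r i.2 - c) := nm_sub_le _ _ _
      have h2 : (nm (v - c) : ℝ) ≤ k * r + nm (gp r i.2 - c) := by
        have : nm (v - c) ≤ k * r + nm (gp r i.2 - c) := by linarith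
        exact_mod_cast this
      have h3 := hi.2.2.2
      have h4 : (k : ℝ) * r ≤ κ * ρ / 4 := by
        have : 4 * ((k : ℝ) * r) ≤ a * r := by
          rw [ha]
          calc 4 * ((k : ℝ) * r) = 4 * k * 1 * r := by ring
            _ ≤ 4 * (k + 4) * ((N + 2 * m : ℕ) : ℝ) * r := by gcongr; linarith
        linarith
      have h5 : 0 < κ * ρ := by positivity
      nlinarith
    · have h1 := hi.2.2.1 j
      have h2 : nm (x j - gp r i.2) ≤ nm (x j - v) + nm (v - gp r i.2) := nm_sub_le _ _ _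
      rw [nm_sub_comm (x j) v] at h2
      have h3 : r < nm (v - x j) := by linarith
      have h4 : (r : ℝ) < nm (v - x j) := by exact_mod_cast h3
      linarith
  · intro ω 𝓕 hs hd hbig
    rw [Nat.le_div_iff_mul_le hN0, mul_comm]
    refine seg_count (k := k) I (fun i => gp r i.2) (fun _ => r) (fun i => Z (gp r i.2) r ω) hs hd
      (fun i _ 𝓖 h1 h2 h3 => hZ2 (gp r i.2) r hr1 ω 𝓖 h1 h2 h3) fun γ hγ => ?_
    obtain ⟨⟨e, he, hec⟩, e1, he1, e2, he2, h12⟩ := hbig γ hγ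
    obtain ⟨q, hq, hqd⟩ : ∃ q ∈ γ, κ * ρ / 2 ≤ (nm (hdv q - hdv e) : ℝ) := by
      have h5 : (nm (hdv e1 - hdv e2) : ℝ) ≤ nm (hdv e1 - hdv e) + nm (hdv e - hdv e2) := by
        exact_mod_cast nm_sub_le _ _ _
      rw [nm_sub_comm (hdv e) (hdv e2)] at h5
      by_cases h6 : κ * ρ / 2 ≤ (nm (hdv e1 - hdv e) : ℝ)
      · exact ⟨e1, he1, h6⟩
      · exact ⟨e2, he2, by linarith⟩
    have h11 : ((k : ℝ) + 4) * r * ((N + 2 * m : ℕ) : ℝ) ≤ κ * ρ / 4 := by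
      have : a * r = 4 * (((k : ℝ) + 4) * r * ((N + 2 * m : ℕ) : ℝ)) := by rw [ha]; ring
      linarith
    have hκρ : 0 < κ * ρ := by positivity
    have h7 : (k + 4) * r * (N + 2 * m : ℕ) ≤ nm (hdv q - hdv e) := by
      have h8 : ((k : ℝ) + 4) * r * ((N + 2 * m : ℕ) : ℝ) ≤ nm (hdv q - hdv e) := by linarith
      exact_mod_cast h8
    obtain ⟨T, hT1, hT2⟩ := seg_many (hs γ hγ) he hq (by omega) hr1 x h7
    refine ⟨T.map ⟨fun z => ((0 : ℕ), z), fun z z' hz => (Prod.ext_iff.1 hz).2⟩, ?_, ?_, ?_⟩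
    · intro i hi
      rw [Finset.mem_map] at hi
      obtain ⟨z, hz, rfl⟩ := hi
      obtain ⟨-, h8, h9⟩ := hT2 z hz
      have h10 : nm (gp r z - c) ≤ nm (gp r z - hdv e) + nm (hdv e - c) := nm_sub_le _ _ _
      have h12 : (nm (gp r z - c) : ℝ) ≤ ((k + 4) * r * ((N + 2 * m : ℕ) : ℝ) + r) +
          nm (hdv e - c) := by
        have : nm (gp r z - c) ≤ ((k + 4) * r * ((N + 2 * m : ℕ) : ℤ) + r) + nm (hdv e - c) := by
          linarith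
        exact_mod_cast this
      have h13 : (r : ℝ) ≤ ((k : ℝ) + 4) * r * ((N + 2 * m : ℕ) : ℝ) := by
        calc (r : ℝ) = 1 * r * 1 := by ring
          _ ≤ ((k : ℝ) + 4) * r * ((N + 2 * m : ℕ) : ℝ) := by gcongr; linarith
      have h14 : (nm (gp r z - c) : ℝ) ≤ R * ρ + κ * ρ / 2 := by linarith
      rw [hI, Finset.mem_product, hJ', Finset.mem_filter]
      refine ⟨Finset.mem_singleton.2 rfl, hJ1 z ?_, h9, h14⟩
      rw [hP, Int.le_floor]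
      nlinarith
    · rw [Finset.card_map]; exact hT1
    · intro i hi
      rw [Finset.mem_map] at hi
      obtain ⟨z, hz, rfl⟩ := hi
      exact (hT2 z hz).1

/-- **Macroscopic segments, conditioned measures.** The number of pairwise disjoint segments of
diameter at least `κ * ρ` which meet a box of radius `R * ρ` is bounded by a variable which does not
depend on the squares of `m` given balls of radius `ε * ρ` and all whose exponential moments are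
bounded uniformly in `ρ` and in the conditioning outside of the box of radius `(R + κ) * ρ`. -/
theorem macro_U {P : Measure Cfg} (hX : CrossSP P) (κ R s : ℝ) (m : ℕ) (hκ : 0 < κ) (hR : 0 ≤ R) :
    ∃ ε C ρ0 : ℝ, 0 < ε ∧ 0 < C ∧
    0 < ρ0 ∧ ∀ ρ : ℝ, ρ0 ≤ ρ → ∀ (c : ℤ × ℤ) (x : Fin m → ℤ × ℤ), ∃ N : Cfg → ℕ,
      (∀ ω ω' : Cfg, (∀ v, (nm (v - c) : ℝ) ≤ (R + κ) * ρ →
        (∀ i, ε * ρ < (nm (v - x i) : ℝ)) → ω v = ω' v) → N ω = N ω') ∧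
      (∀ ω, Maj c (R * ρ) (κ * ρ) ω (N ω)) ∧
      ∀ (U : Finset (ℤ × ℤ)) (ν : Measure Cfg), (∀ v, (nm (v - c) : ℝ) ≤ (R + κ) * ρ → v ∈ U) →
        Nu P ν U → Em ν (fun ω => s * (N ω : ℝ)) ≤ ENNReal.ofReal C := by
  classical
  obtain ⟨k, l, C0, hk, hl, hC0, h⟩ := hX
  choose! Z hZ1 hZ2 hZ3 using h
  obtain ⟨θ, b, hθ, hb, hEm⟩ := Em_crossU hk hl hC0 hZ1
  obtain ⟨n, hn⟩ := exists_nat_ge (|s| / θ)
  have hsn : |s| ≤ θ * (n + 1 : ℕ) := by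
    rw [div_le_iff₀ hθ] at hn
    push_cast
    nlinarith
  set N : ℕ := n + 1 with hN
  have hN0 : 0 < N := by omega
  obtain ⟨ε, D, ρ0, hε, hρ0, hdet⟩ := macro_det hk hZ1 hZ2 κ R m N hN0 hκ hR
  refine ⟨ε, Real.exp (D * b), ρ0, hε, Real.exp_pos _, hρ0, fun ρ hρ c x => ?_⟩
  obtain ⟨r, I, hr1, hI, hI0, hIU, h1, h2⟩ := hdet ρ hρ c x
  refine ⟨fun ω => (∑ i ∈ I, Z (gp r i.2) r ω) / N, h1, h2, fun U ν hU hν => ?_⟩
  have hνp := hν.prob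
  have hEmI := hEm ν U hνp (crossU_of hZ1 hZ3 hν) (fun _ => r) (fun _ => hr1) I
    (fun i hi v hv => hU v (hIU i hi v (mem_bxx.1 hv)))
    (fun i hi i' hi' hne => absurd ((hI0 i hi).trans (hI0 i' hi').symm) hne)
  refine le_trans ?_ (hEmI.trans (ENNReal.ofReal_le_ofReal (Real.exp_le_exp.2
    (mul_le_mul_of_nonneg_right hI hb))))
  refine Em_mono (μ := ν) (f := fun ω => s * (((∑ i ∈ I, Z (gp r i.2) r ω) / N : ℕ) : ℝ))
    fun ω => ?_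
  show s * (((∑ i ∈ I, Z (gp r i.2) r ω) / N : ℕ) : ℝ) ≤ _
  have hN1 : (0 : ℝ) < N := by exact_mod_cast hN0
  have h5 : (((∑ i ∈ I, Z (gp r i.2) r ω) / N : ℕ) : ℝ) ≤
      (∑ i ∈ I, (Z (gp r i.2) r ω : ℝ)) / N := by
    refine Nat.cast_div_le.trans ?_
    rw [Nat.cast_sum]
  have h6 : (0 : ℝ) ≤ (((∑ i ∈ I, Z (gp r i.2) r ω) / N : ℕ) : ℝ) := by positivity
  calc s * (((∑ i ∈ I, Z (gp r i.2) r ω) / N : ℕ) : ℝ)
      ≤ |s| * (((∑ i ∈ I, Z (gp r i.2) r ω) / N : ℕ) : ℝ) :=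
        mul_le_mul_of_nonneg_right (le_abs_self s) h6
    _ ≤ (θ * N) * ((∑ i ∈ I, (Z (gp r i.2) r ω : ℝ)) / N) :=
        mul_le_mul hsn h5 h6 (by positivity)
    _ = _ := by field_simp

end Vale.Agent.P167.H562.QM
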