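import Vale.Agent.P167.H562.MAJ1
import Vale.Agent.P167.H562.Q.SM3
import Vale.Agent.P167.H562.GCls

/-!
# P167, general `q`, block Q-MAJ: majorants of the products over the pieces of a domain (deterministic)

`w A t` is the weight of the piece `A` with mass `t`: `cos (a + t) / cos a` for the loops, anything
bounded by `M` for the strands. `BumpsQ.maj_det`: the product of the weights over a family of pieces is at
most `∏ j, M ^ (number of the big pieces which visit Zb j) * exp (- tan a * S_j)`, `S_j` the sum of the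
masses of the small loops, times the product of the weights of the far strands (the strands which are not
big pieces visiting some `Zb j`).
-/

namespace Vale.Agent.P167.H562.QM

open Finset Vale.Agent.P167.BR Vale.Agent.P167.H562.SML Vale.Agent.P167.H45 Relation
open Vale.Agent.P167.H562.MAJ (loop_mem_pcs potD_W mass_loop bbox near_of_ins near_ins
  exists_ins_of_G nm_tri nm_comm' near_site one_le_prodR bigs nb1 G_sum mass_sum)
open Vale.Agent.P167.H167 (tot isSeg)
open Vale.Agent.P167.H562.GQ (wt0 abs_wt_le one_le_inv_cos)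

variable {ω : Cfg} {D : Finset (ℤ × ℤ)} {p : ℤ × ℤ} {A : Finset Ed}

/-! ### the weight of a loop -/

/-- `cos (a + t) / cos a ≤ exp (- tan a * t)`. -/
theorem wt_le_exp {a t : ℝ} (ha0 : 0 < a) (ha1 : a < Real.pi / 2) (ht : |t| ≤ Real.pi) :
    wt a t ≤ Real.exp (-(Real.tan a * t)) := by
  have hc : 0 < Real.cos a := Real.cos_pos_of_mem_Ioo ⟨by linarith, ha1⟩
  set g : ℝ → ℝ := fun t => Real.exp (Real.tan a * t) * Real.cos (a + t) with hg
  have hder : ∀ t, HasDerivAt g (-(Real.exp (Real.tan a * t) * Real.sin t / Real.cos a)) t := by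
    intro t
    have h1 : HasDerivAt (fun t => Real.tan a * t) (Real.tan a) t := by
      simpa using (hasDerivAt_id t).const_mul (Real.tan a)
    have h2 : HasDerivAt (fun t => a + t) 1 t := by simpa using (hasDerivAt_id t).const_add a
    have h3 := h1.exp.mul h2.cos
    refine h3.congr_deriv ?_
    rw [Real.tan_eq_sin_div_cos, Real.cos_add, Real.sin_add]
    field_simp
    have := Real.sin_sq_add_cos_sq a
    linear_combination (-(Real.sin t)) * this
  have hcont : Continuous g := continuous_iff_continuousAt.2 fun t => (hder t).continuousAt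
  have hle : g t ≤ g 0 := by
    rw [abs_le] at ht
    rcases le_total 0 t with h | h
    · refine (antitoneOn_of_deriv_nonpos (convex_Icc 0 Real.pi) hcont.continuousOn
        (fun x _ => (hder x).differentiableAt.differentiableWithinAt) fun x hx => ?_)
        ⟨le_rfl, Real.pi_pos.le⟩ ⟨h, ht.2⟩ h
      rw [interior_Icc] at hx
      rw [(hder x).deriv]
      have := Real.sin_nonneg_of_nonneg_of_le_pi hx.1.le hx.2.le
      have : 0 ≤ Real.exp (Real.tan a * x) * Real.sin x / Real.cos a := by positivity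
      linarith
    · refine (monotoneOn_of_deriv_nonneg (convex_Icc (-Real.pi) 0) hcont.continuousOn
        (fun x _ => (hder x).differentiableAt.differentiableWithinAt) fun x hx => ?_)
        ⟨ht.1, h⟩ ⟨by linarith [Real.pi_pos], le_rfl⟩ h
      rw [interior_Icc] at hx
      rw [(hder x).deriv]
      have h4 := Real.sin_nonneg_of_nonneg_of_le_pi (x := -x) (by linarith [hx.2]) (by linarith [hx.1])
      rw [Real.sin_neg] at h4
      have : 0 ≤ Real.exp (Real.tan a * x) * (-Real.sin x) / Real.cos a := by positivity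
      have e : Real.exp (Real.tan a * x) * (-Real.sin x) / Real.cos a =
        -(Real.exp (Real.tan a * x) * Real.sin x / Real.cos a) := by ring
      linarith
  simp only [hg, mul_zero, Real.exp_zero, one_mul, add_zero] at hle
  unfold wt
  rw [div_le_iff₀ hc, Real.exp_neg, inv_mul_eq_div, le_div_iff₀ (Real.exp_pos _), mul_comm]
  exact hle

theorem wt_nonneg' {a t : ℝ} (ha0 : 0 < a) (ha1 : a ≤ Real.pi / 3) (ht : |t| ≤ 1 / 2) :
    0 ≤ wt a t := by
  unfold wt
  have h := Real.pi_gt_three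
  have h2 := abs_le.1 ht
  refine div_nonneg (Real.cos_nonneg_of_mem_Icc ⟨by linarith, by linarith⟩)
    (Real.cos_nonneg_of_mem_Icc ⟨by linarith, by linarith⟩)

theorem tan_bd {a : ℝ} (ha0 : 0 < a) (ha1 : a ≤ Real.pi / 3) :
    0 ≤ Real.tan a ∧ Real.tan a ≤ 2 := by
  have hp := Real.pi_pos
  refine ⟨Real.tan_nonneg_of_nonneg_of_le_pi_div_two ha0.le (by linarith), ?_⟩
  have h1 : Real.tan a ≤ Real.tan (Real.pi / 3) := by
    rcases ha1.eq_or_lt with h | h
    · rw [h]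
    · exact (Real.tan_lt_tan_of_nonneg_of_lt_pi_div_two ha0.le (by linarith) h).le
  refine h1.trans ?_
  rw [Real.tan_pi_div_three, Real.sqrt_le_left (by norm_num)]
  norm_num

/-! ### bumps -/

/-- Bumps `f j` in the zones `Z j` of `D`, small means diameter less than `d j`; `Q` is a class of
pieces. -/
structure BumpsQ {ι : Type*} (J : Finset ι) (D : Finset (ℤ × ℤ)) (p : ℤ × ℤ)
    (Z Zb : ι → Finset (ℤ × ℤ)) (f : ι → ℤ × ℤ → ℝ) (d : ι → ℝ) (Q : Finset Ed → Prop) :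
    Prop where
  sub : ∀ j ∈ J, Z j ⊆ D
  zb : ∀ j ∈ J, Z j ⊆ Zb j
  econ : ∀ j ∈ J, ECon (Z j)
  supp : ∀ j ∈ J, ∀ z, f j z ≠ 0 → z ∈ sites (Z j)
  nbhd : ∀ j ∈ J, ∀ v ∈ Z j, ∀ w, (nm (w - v) : ℝ) ≤ d j + 1 → w ∈ D
  small : ∀ j ∈ J, ∀ (ω : Cfg) (ℓ : Finset Ed), IsLoop ω ℓ → Small (d j) ℓ → |G (f j) ℓ| ≤ 1 / 2
  sep : ∀ i ∈ J, ∀ j ∈ J, i ≠ j → ∀ u ∈ Z i, ∀ v ∈ Z j, d i + 2 ≤ (nm (u - v) : ℝ)
  base : ∀ (ω : Cfg), ∀ A ∈ pcs ω D, Q A → IsLp D A → W A p = 0
  conn : ∀ j ∈ J, ∀ z ∈ sites (Z j), ReflTransGen (Ec D) z p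
  loop : ∀ j ∈ J, ∀ (ω : Cfg), ∀ A ∈ pcs ω D, Q A → IsLp D A → G (f j) A ≠ 0 → Vz (Zb j) A

section

variable {ι : Type*} {J : Finset ι} {Z Zb : ι → Finset (ℤ × ℤ)} {f : ι → ℤ × ℤ → ℝ} {d : ι → ℝ}
  {Q : Finset Ed → Prop}

/-- A loop of small diameter which surrounds charge is near the zone. -/
theorem BumpsQ.near (hB : BumpsQ J D p Z Zb f d Q) {j : ι} (hj : j ∈ J) (hA : IsLoop ω A)
    (hs : Small (d j) A) (hG : G (f j) A ≠ 0) :
    ∃ v ∈ Z j, ∀ w ∈ vs A, (nm (w - v) : ℝ) ≤ d j + 1 := by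
  obtain ⟨z, hz, hfz⟩ := exists_ins_of_G hG
  obtain ⟨v, hv, h1⟩ := near_site (hB.supp j hj z hfz)
  refine ⟨v, hv, fun w hw => ?_⟩
  have h2 := near_of_ins hA hs hz hw
  have h3 := nm_tri w z v
  have h4 : (nm (w - v) : ℝ) ≤ nm (w - z) + nm (z - v) := by exact_mod_cast h3
  have h5 : (nm (z - v) : ℝ) ≤ 1 := by exact_mod_cast h1
  linarith

theorem BumpsQ.mem_pcs (hB : BumpsQ J D p Z Zb f d Q) {j : ι} (hj : j ∈ J) (hA : IsLoop ω A)
    (hs : Small (d j) A) (hG : G (f j) A ≠ 0) : A ∈ pcs ω D ∧ IsLp D A := by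
  obtain ⟨v, hv, h⟩ := hB.near hj hA hs hG
  have h1 : ∀ e ∈ A, hdv e ∈ D := fun e he =>
    hB.nbhd j hj v hv _ (h _ (mem_image_of_mem _ he))
  exact ⟨loop_mem_pcs hA h1, h1⟩

theorem BumpsQ.mem_smf (hB : BumpsQ J D p Z Zb f d Q) {j : ι} (hj : j ∈ J) (hA : IsLoop ω A)
    (hs : Small (d j) A) (hG : G (f j) A ≠ 0) : A ∈ smf (nb1 Z d j) (d j) ω := by
  obtain ⟨v, hv, h⟩ := hB.near hj hA hs hG
  obtain ⟨w, hw⟩ := vs_nonempty hA
  rw [SML.mem_smf]
  exact ⟨hA, ⟨w, hw, mem_fat hv (h w hw)⟩, hs⟩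

/-- The other masses of a small loop vanish. -/
theorem BumpsQ.other (hB : BumpsQ J D p Z Zb f d Q) {i j : ι} (hi : i ∈ J) (hj : j ∈ J) (hij : i ≠ j)
    (hA : IsLoop ω A) (hs : Small (d i) A) (hG : G (f i) A ≠ 0) : G (f j) A = 0 := by
  by_contra hG'
  obtain ⟨z, hz, hfz⟩ := exists_ins_of_G hG
  obtain ⟨z', hz', hfz'⟩ := exists_ins_of_G hG'
  obtain ⟨u, hu, h1⟩ := near_site (hB.supp i hi z hfz)
  obtain ⟨v, hv, h2⟩ := near_site (hB.supp j hj z' hfz')
  have h3 : (nm (z - z') : ℝ) < d i := near_ins hA hs hz hz'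
  have h4 := hB.sep i hi j hj hij u hu v hv
  have h5 := nm_tri u z v
  have h6 := nm_tri z z' v
  have h7 := nm_comm' u z
  have h8 : (nm (u - v) : ℝ) ≤ 1 + nm (z - z') + 1 := by
    have : nm (u - v) ≤ 1 + nm (z - z') + 1 := by omega
    exact_mod_cast this
  linarith

/-- A strand which visits the zone is not small. -/
theorem BumpsQ.strand (hB : BumpsQ J D p Z Zb f d Q) {j : ι} (hj : j ∈ J) (_hA : A ∈ pcs ω D)
    (hl : ¬ IsLp D A) (hV : Vz (Z j) A) : ¬ Small (d j) A := by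
  intro hs
  apply hl
  obtain ⟨e, he, heZ⟩ := hV
  intro a ha
  have h1 := hs _ (mem_image_of_mem hdv ha) _ (mem_image_of_mem hdv he)
  rcases mem_eds.1 heZ with h | h
  · exact hB.nbhd j hj _ h _ (by linarith)
  · refine hB.nbhd j hj _ h _ ?_
    have h2 := nm_tri (hdv a) (hdv e) (tlv e)
    have h3 := H945.nm_step e
    have h4 : (nm (hdv a - tlv e) : ℝ) ≤ nm (hdv a - hdv e) + nm (hdv e - tlv e) := by
      exact_mod_cast h2
    have h5 : (nm (hdv e - tlv e) : ℝ) ≤ 1 := by exact_mod_cast h3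
    linarith

/-- The mass of a piece which does not visit the zone. -/
theorem BumpsQ.mass_off (hB : BumpsQ J D p Z Zb f d Q) {j : ι} (hj : j ∈ J) (hV : ¬ Vz (Z j) A) :
    mass D p (f j) A = 0 ∨ mass D p (f j) A = tot D (f j) := by
  classical
  by_cases hf : ∃ z, f j z ≠ 0
  · obtain ⟨z0, hz0⟩ := hf
    have hs0 := hB.supp j hj z0 hz0
    have key : ∀ z ∈ sites (Z j), (Sep D A z p ↔ Sep D A z0 p) := by
      intro z hz
      constructor
      · rintro ⟨u, hu, h⟩
        exact ⟨u, hu, by rwa [← pot_zone hu (hB.sub j hj) hV (hB.econ j hj z hz z0 hs0)]⟩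
      · rintro ⟨u, hu, h⟩
        exact ⟨u, hu, by rwa [pot_zone hu (hB.sub j hj) hV (hB.econ j hj z hz z0 hs0)]⟩
    by_cases h : Sep D A z0 p
    · right
      unfold mass tot
      refine sum_congr rfl fun z _ => ?_
      by_cases hfz : f j z = 0
      · simp [hfz]
      · rw [if_pos ((key z (hB.supp j hj z hfz)).2 h)]
    · left
      unfold mass
      refine sum_eq_zero fun z _ => ?_
      by_cases hfz : f j z = 0
      · simp [hfz]
      · rw [if_neg (fun h' => h ((key z (hB.supp j hj z hfz)).1 h'))]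
  · push Not at hf
    left
    unfold mass
    exact sum_eq_zero fun z _ => by simp [hf z]

/-- The mass of a loop of the domain. -/
theorem BumpsQ.mass_lp (hB : BumpsQ J D p Z Zb f d Q) (hA : A ∈ pcs ω D) (hQ : Q A)
    (hl : IsLp D A) :
    mass D p (fun z => ∑ j ∈ J, f j z) A = ∑ j ∈ J, G (f j) A := by
  have h1 := BR.IsLp.isLoop hA hl
  rw [mass_sum]
  refine sum_congr rfl fun j hj => ?_
  refine mass_loop h1 (hB.base ω A hA hQ hl) fun z hz => ?_
  have h2 := hB.supp j hj z hz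
  exact ⟨sites_mono (hB.sub j hj) h2, hB.conn j hj z h2⟩

open Classical in
/-- The factor of the bump `j` of the majorant of the weight of the piece `A`. -/
noncomputable def fac (a M : ℝ) (D Zb : Finset (ℤ × ℤ)) (f : ℤ × ℤ → ℝ) (d : ℝ) (A : Finset Ed) : ℝ :=
  (if Vz Zb A ∧ ¬ Small d A then M else 1) *
    Real.exp (-(Real.tan a * if IsLp D A ∧ Small d A then G f A else 0))

/-- The far strands. -/
def Far (J : Finset ι) (D : Finset (ℤ × ℤ)) (Zb : ι → Finset (ℤ × ℤ)) (d : ι → ℝ)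
    (A : Finset Ed) : Prop := ¬ IsLp D A ∧ ∀ j ∈ J, ¬ (Vz (Zb j) A ∧ ¬ Small (d j) A)

/-- Weights of the pieces: the loops have the weight `cos (a + t) / cos a`, all weights are bounded. -/
structure WtQ (a M : ℝ) (D : Finset (ℤ × ℤ)) (w : Finset Ed → ℝ → ℝ) : Prop where
  a0 : 0 < a
  a1 : a ≤ Real.pi / 3
  M1 : 1 ≤ M
  loop : ∀ A t, IsLp D A → w A t = wt a t
  bd : ∀ A t, |w A t| ≤ M

variable {a M : ℝ} {w : Finset Ed → ℝ → ℝ}

theorem fac_pos (hM : 1 ≤ M) (D Zb : Finset (ℤ × ℤ)) (f : ℤ × ℤ → ℝ) (d : ℝ) (A : Finset Ed) :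
    0 < fac a M D Zb f d A := by
  have : 0 < M := by linarith
  unfold fac
  split_ifs <;> positivity

theorem fac_one (hM : 1 ≤ M) {Zb : Finset (ℤ × ℤ)} {f : ℤ × ℤ → ℝ} {d : ℝ}
    (h : IsLp D A → Small d A → G f A = 0) : 1 ≤ fac a M D Zb f d A := by
  classical
  unfold fac
  have : (if IsLp D A ∧ Small d A then G f A else 0) = 0 := by
    split_ifs with h'
    · exact h h'.1 h'.2
    · rfl
  rw [this, mul_zero, neg_zero, Real.exp_zero, mul_one]
  split_ifs
  · exact hM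
  · exact le_rfl

open Classical in
/-- The majorant of the weight of one piece. -/
theorem BumpsQ.wp_le (hB : BumpsQ J D p Z Zb f d Q) (hw : WtQ a M D w) (hA : A ∈ pcs ω D)
    (hQ : Q A) :
    |w A (mass D p (fun z => ∑ j ∈ J, f j z) A)| ≤ (∏ j ∈ J, fac a M D (Zb j) (f j) (d j) A) *
      if Far J D Zb d A then |w A (mass D p (fun z => ∑ j ∈ J, f j z) A)| else 1 := by
  have ha2 : a < Real.pi / 2 := by have := hw.a1; have := Real.pi_pos; linarith
  have hge : ∀ j ∈ J, (IsLp D A → Small (d j) A → G (f j) A = 0) →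
      1 ≤ fac a M D (Zb j) (f j) (d j) A := fun j _ h => fac_one hw.M1 h
  by_cases hfar : Far J D Zb d A
  · rw [if_pos hfar]
    refine le_mul_of_one_le_left (abs_nonneg _) (one_le_prodR fun j hj => ?_)
    exact hge j hj fun h => absurd h hfar.1
  rw [if_neg hfar, mul_one]
  by_cases hex : ∃ i ∈ J, IsLp D A ∧ Small (d i) A ∧ G (f i) A ≠ 0
  · obtain ⟨i, hi, hl, hs, hG⟩ := hex
    have hL := BR.IsLp.isLoop hA hl
    have h1 : mass D p (fun z => ∑ j ∈ J, f j z) A = G (f i) A := by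
      rw [hB.mass_lp hA hQ hl]
      rw [sum_eq_single i]
      · intro j hj hji
        exact hB.other hi hj (Ne.symm hji) hL hs hG
      · intro h; exact absurd hi h
    rw [h1]
    have h2 := hB.small i hi ω A hL hs
    have h3 : |w A (G (f i) A)| ≤ Real.exp (-(Real.tan a * G (f i) A)) := by
      rw [hw.loop A _ hl, abs_of_nonneg (wt_nonneg' hw.a0 hw.a1 h2)]
      exact wt_le_exp hw.a0 ha2 (h2.trans (by linarith [Real.pi_gt_three]))
    refine h3.trans ?_
    rw [← mul_prod_erase J _ hi]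
    have h4 : Real.exp (-(Real.tan a * G (f i) A)) ≤ fac a M D (Zb i) (f i) (d i) A := by
      unfold fac
      rw [if_pos (⟨hl, hs⟩ : IsLp D A ∧ Small (d i) A)]
      rw [if_neg (fun h => h.2 hs), one_mul]
    have h5 : 1 ≤ ∏ j ∈ J.erase i, fac a M D (Zb j) (f j) (d j) A := by
      refine one_le_prodR ?_
      intro j hj
      rw [mem_erase] at hj
      refine hge j hj.2 fun _ _ => hB.other hi hj.2 (Ne.symm hj.1) hL hs hG
    calc Real.exp (-(Real.tan a * G (f i) A)) ≤ fac a M D (Zb i) (f i) (d i) A := h4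
      _ ≤ fac a M D (Zb i) (f i) (d i) A * ∏ j ∈ J.erase i, fac a M D (Zb j) (f j) (d j) A :=
        le_mul_of_one_le_right ((Real.exp_pos _).le.trans h4) h5
  · push Not at hex
    have hge' : ∀ j ∈ J, 1 ≤ fac a M D (Zb j) (f j) (d j) A := fun j hj => hge j hj fun h1 h2 =>
      hex j hj h1 h2
    by_cases hbig : ∃ i ∈ J, Vz (Zb i) A ∧ ¬ Small (d i) A
    · obtain ⟨i, hi, h1, h2⟩ := hbig
      refine (hw.bd _ _).trans ?_
      have hf : fac a M D (Zb i) (f i) (d i) A = M := by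
        unfold fac
        rw [if_pos ⟨h1, h2⟩, if_neg (fun h => h2 h.2), mul_zero, neg_zero, Real.exp_zero, mul_one]
      rw [← mul_prod_erase J _ hi, hf]
      have h5 : 1 ≤ ∏ j ∈ J.erase i, fac a M D (Zb j) (f j) (d j) A := by
        refine one_le_prodR ?_
        intro j hj
        exact hge' j (mem_of_mem_erase hj)
      have := hw.M1
      nlinarith
    · have h5 : 1 ≤ ∏ j ∈ J, fac a M D (Zb j) (f j) (d j) A := one_le_prodR hge'
      refine le_trans ?_ h5
      by_cases hl : IsLp D A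
      · -- a loop
        push Not at hbig
        have hz : ∀ j ∈ J, G (f j) A = 0 := by
          intro j hj
          by_contra hG
          have h1 := hB.loop j hj ω A hA hQ hl hG
          exact hG (hex j hj hl (hbig j hj h1))
        rw [hB.mass_lp hA hQ hl, sum_eq_zero hz, hw.loop A _ hl, wt0 hw.a0 ha2]
        simp
      · exact absurd ⟨hl, fun j hj h => hbig ⟨j, hj, h⟩⟩ hfar

theorem BumpsQ.fac_ge (hB : BumpsQ J D p Z Zb f d Q) (ha0 : 0 < a) (ha1 : a ≤ Real.pi / 3)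
    (hM : 1 ≤ M) (hA : A ∈ pcs ω D) :
    1 / 3 ≤ ∏ j ∈ J, fac a M D (Zb j) (f j) (d j) A := by
  classical
  have hge : ∀ j ∈ J, (IsLp D A → Small (d j) A → G (f j) A = 0) →
      1 ≤ fac a M D (Zb j) (f j) (d j) A := fun j _ h => fac_one hM h
  by_cases hex : ∃ i ∈ J, IsLp D A ∧ Small (d i) A ∧ G (f i) A ≠ 0
  · obtain ⟨i, hi, hl, hs, hG⟩ := hex
    have hL := BR.IsLp.isLoop hA hl
    rw [← mul_prod_erase J _ hi]
    have h4 : 1 / 3 ≤ fac a M D (Zb i) (f i) (d i) A := by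
      unfold fac
      rw [if_pos (⟨hl, hs⟩ : IsLp D A ∧ Small (d i) A)]
      rw [if_neg (fun h => h.2 hs), one_mul]
      have h2 := (abs_le.1 (hB.small i hi ω A hL hs)).2
      obtain ⟨t0, t1⟩ := tan_bd ha0 ha1
      have h5 : -1 ≤ -(Real.tan a * G (f i) A) := by nlinarith
      refine le_trans ?_ (Real.exp_le_exp.2 h5)
      rw [Real.exp_neg, one_div]
      exact inv_anti₀ (Real.exp_pos _) (by linarith [Real.exp_one_lt_d9])
    have h5 : 1 ≤ ∏ j ∈ J.erase i, fac a M D (Zb j) (f j) (d j) A := by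
      refine one_le_prodR ?_
      intro j hj
      rw [mem_erase] at hj
      refine hge j hj.2 fun _ _ => hB.other hi hj.2 (Ne.symm hj.1) hL hs hG
    exact h4.trans (le_mul_of_one_le_right ((by norm_num : (0 : ℝ) ≤ 1 / 3).trans h4) h5)
  · push Not at hex
    have h5 : 1 ≤ ∏ j ∈ J, fac a M D (Zb j) (f j) (d j) A :=
      one_le_prodR fun j hj => hge j hj fun h1 h2 => hex j hj h1 h2
    linarith

theorem BumpsQ.fac_prod (hB : BumpsQ J D p Z Zb f d Q) (hM : 1 ≤ M) {T : Finset (Finset Ed)}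
    (hT : T ⊆ pcs ω D)
    (hT' : ∀ A ∈ pcs ω D, IsLp D A → ∀ j ∈ J, Small (d j) A → G (f j) A ≠ 0 → A ∈ T) :
    ∏ A ∈ T, ∏ j ∈ J, fac a M D (Zb j) (f j) (d j) A ≤
      ∏ j ∈ J, M ^ (bigs D (Zb j) (d j) ω).card *
        Real.exp (-(Real.tan a * ∑ ℓ ∈ smf (nb1 Z d j) (d j) ω, G (f j) ℓ)) := by
  classical
  have hM0 : 0 < M := by linarith
  rw [prod_comm]
  refine prod_le_prod (fun j _ => prod_nonneg fun A _ => (fac_pos hM _ _ _ _ _).le) fun j hj => ?_
  unfold fac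
  rw [prod_mul_distrib]
  have h1 : ∏ A ∈ T, (if Vz (Zb j) A ∧ ¬ Small (d j) A then M else 1) ≤
      M ^ (bigs D (Zb j) (d j) ω).card := by
    rw [← prod_filter, prod_const]
    refine pow_le_pow_right₀ hM (card_le_card ?_)
    intro A hA
    rw [mem_filter] at hA
    exact mem_filter.2 ⟨hT hA.1, hA.2⟩
  have h2 : ∏ A ∈ T, Real.exp (-(Real.tan a * if IsLp D A ∧ Small (d j) A then G (f j) A else 0)) =
      Real.exp (-(Real.tan a * ∑ ℓ ∈ smf (nb1 Z d j) (d j) ω, G (f j) ℓ)) := by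
    rw [← Real.exp_sum, sum_neg_distrib, ← mul_sum]
    congr 3
    rw [← sum_filter]
    -- both sums are over the loops with non zero mass
    have e1 : ∑ A ∈ T.filter (fun A => IsLp D A ∧ Small (d j) A), G (f j) A =
        ∑ A ∈ (T.filter (fun A => IsLp D A ∧ Small (d j) A)).filter (fun A => G (f j) A ≠ 0),
          G (f j) A := by
      rw [sum_filter_ne_zero]
    have e2 : ∑ A ∈ smf (nb1 Z d j) (d j) ω, G (f j) A =
        ∑ A ∈ (smf (nb1 Z d j) (d j) ω).filter (fun A => G (f j) A ≠ 0), G (f j) A := by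
      rw [sum_filter_ne_zero]
    rw [e1, e2]
    refine sum_congr ?_ fun _ _ => rfl
    ext A
    simp only [mem_filter]
    constructor
    · rintro ⟨⟨h3, h4, h5⟩, h6⟩
      exact ⟨hB.mem_smf hj (BR.IsLp.isLoop (hT h3) h4) h5 h6, h6⟩
    · rintro ⟨h3, h6⟩
      obtain ⟨k1, -, k3⟩ := SML.mem_smf.1 h3
      obtain ⟨k4, k5⟩ := hB.mem_pcs hj k1 k3 h6
      exact ⟨⟨hT' A k4 k5 j hj k3 h6, k5, k3⟩, h6⟩
  rw [h2]
  exact mul_le_mul_of_nonneg_right h1 (Real.exp_pos _).le

open Classical in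
/-- **The deterministic majorant.** -/
theorem BumpsQ.maj_det (hB : BumpsQ J D p Z Zb f d Q) (hw : WtQ a M D w)
    {T T' : Finset (Finset Ed)} (hTT : T ⊆ T') (hT : T' ⊆ pcs ω D) (hQ : ∀ A ∈ T, Q A)
    (hT' : ∀ A ∈ pcs ω D, IsLp D A → ∀ j ∈ J, Small (d j) A → G (f j) A ≠ 0 → A ∈ T') :
    ∏ A ∈ T, |w A (mass D p (fun z => ∑ j ∈ J, f j z) A)| ≤
      (3 ^ (T' \ T).card * ∏ j ∈ J, M ^ (bigs D (Zb j) (d j) ω).card *
        Real.exp (-(Real.tan a * ∑ ℓ ∈ smf (nb1 Z d j) (d j) ω, G (f j) ℓ))) *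
      ∏ A ∈ T.filter (Far J D Zb d), |w A (mass D p (fun z => ∑ j ∈ J, f j z) A)| := by
  have hM := hw.M1
  refine (prod_le_prod (fun A _ => abs_nonneg _)
    fun A hA => hB.wp_le hw (hT (hTT hA)) (hQ A hA)).trans ?_
  rw [prod_mul_distrib, ← prod_filter]
  refine mul_le_mul_of_nonneg_right ?_ (prod_nonneg fun _ _ => abs_nonneg _)
  refine le_trans ?_ (mul_le_mul_of_nonneg_left (hB.fac_prod hM hT hT') (by positivity))
  rw [← prod_sdiff hTT, ← mul_assoc]
  have h0 : 0 ≤ ∏ A ∈ T, ∏ j ∈ J, fac a M D (Zb j) (f j) (d j) A :=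
    prod_nonneg fun _ _ => prod_nonneg fun j _ => (fac_pos hM _ _ _ _ _).le
  refine le_mul_of_one_le_left h0 ?_
  rw [← prod_const, ← prod_mul_distrib]
  refine one_le_prodR fun A hA => ?_
  have := hB.fac_ge (a := a) hw.a0 hw.a1 hM (hT (mem_sdiff.1 hA).1)
  linarith

end

end Vale.Agent.P167.H562.QM
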