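import Vale.Agent.P167.H562.Q.MQ2

/-!
# P167, general `q`, block Q-MAJ: crossing clusters near the boundary of a domain

`kcs_exp`: exponential moment of the number of the open clusters of `D` which cross an annulus and do not
contain a site of `S₀`, if the open squares of the annulus outside of `D` are adjacent to `D` only through
`S₀`.
-/

namespace Vale.Agent.P167.H562.QM

open Finset Filter Topology MeasureTheory Vale.Agent.P167.FK Vale.Agent.P167.FKA
open Vale.Agent.P145.FB (PStep PConn)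
open Vale.Agent.P167.H166 (cl CC CC_finite cl_eq bxx mem_bxx)
open Vale.Agent.P167.H259 (f_markov)
open Relation

variable {Q : ℝ} {D : Finset (ℤ × ℤ)} {η ω : Cfg} {x : ℤ × ℤ} {r R : ℤ}

/-- Number of the crossing clusters which contain no site of `S₀`. -/
noncomputable def kcS (x : ℤ × ℤ) (r R : ℤ) (S₀ D : Finset (ℤ × ℤ)) (ω : Cfg) : ℕ :=
  {C : Set (ℤ × ℤ) | C ∈ CC x r R 0 (Op D ω) ∧ ∀ s ∈ S₀, s ∉ C}.ncard

theorem kcS_fin (x : ℤ × ℤ) (r R : ℤ) (S₀ D : Finset (ℤ × ℤ)) (ω : Cfg) :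
    {C : Set (ℤ × ℤ) | C ∈ CC x r R 0 (Op D ω) ∧ ∀ s ∈ S₀, s ∉ C}.Finite :=
  (CC_finite x r R 0 (Op D ω)).subset fun _ h => h.1

/-- The open squares of `B` outside of `D` touch `D` only at sites of `S₀`. -/
def SepS (B : Set (ℤ × ℤ)) (D' : Finset (ℤ × ℤ)) (η : Cfg) (S₀ : Finset (ℤ × ℤ)) : Prop :=
  ∀ v ∈ B, v ∉ D' → η v = true → ∀ a ∈ D', ∀ u : ℤ × ℤ, Even (u.1 + u.2) → Cor v u → Cor a u →
    u ∈ S₀

theorem cl_symm {F : Set (ℤ × ℤ)} {s t : ℤ × ℤ} (h : t ∈ cl F s) : s ∈ cl F t := by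
  have h1 := cl_eq h
  rw [h1]
  exact ReflTransGen.refl

theorem kcS_rest {s : ℤ × ℤ} {S₁ : Finset (ℤ × ℤ)} (hs : Even (s.1 + s.2)) (ω : Cfg) :
    kcS x r R (insert s S₁) D ω ≤ kcS x r R S₁ (rest D (cl (Op D ω) s)) ω := by
  unfold kcS
  refine Set.ncard_le_ncard ?_ (kcS_fin _ _ _ _ _ _)
  rintro C ⟨⟨u, h1, h2, rfl, t, ht, h3⟩, h4⟩
  have hue : Even (u.1 + u.2) := by rw [Int.even_iff]; exact h1
  have hu : u ∉ cl (Op D ω) s := fun h => h4 s (mem_insert_self _ _) (cl_symm h)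
  have h5 := cl_rest hs hue hu
  refine ⟨⟨u, h1, h2, h5.symm, t, ht, h3⟩, fun s' hs' => h4 s' (mem_insert_of_mem hs')⟩

theorem SepS.step {B : Set (ℤ × ℤ)} {S₁ : Finset (ℤ × ℤ)} {s : ℤ × ℤ}
    (h : SepS B D η (insert s S₁)) (hω : ∀ v, v ∉ D → ω v = η v) (hse : Even (s.1 + s.2)) :
    SepS B (rest D (cl (Op D ω) s)) ω S₁ := by
  intro v hv hv' hvo a ha u hue hc hca
  rw [mem_rest] at ha
  by_cases hvD : v ∈ D
  · exfalso
    rw [mem_rest] at hv'
    push Not at hv'
    obtain ⟨w, hw, hcw⟩ := hv' hvD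
    refine ha.2 u ?_ hca
    by_cases hne : w = u
    · rw [← hne]; exact hw
    · have hwe := cl_even hse hw
      exact ReflTransGen.tail hw (step_of_cor (v := v) ⟨hvD, hvo⟩ hcw hc hwe hue hne)
  · have h1 := h v hv hvD (by rw [← hω v hvD]; exact hvo) a ha.1 u hue hc hca
    rcases mem_insert.1 h1 with h2 | h2
    · exfalso
      refine ha.2 s ReflTransGen.refl ?_
      rw [← h2]; exact hca
    · exact h2

/-- **Crossing clusters off the boundary clusters.** -/
theorem kcs_exp (hQ : 0 < Q) {B : Set (ℤ × ℤ)} {y M : ℝ} (hy : 1 ≤ y)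
    (h0 : ∀ (D : Finset (ℤ × ℤ)) (η : Cfg), (D : Set (ℤ × ℤ)) ⊆ B → Good η → Sep B D η →
      Ex Q D η (fun ω => y ^ kc x r R D ω) ≤ M) (S₀ : Finset (ℤ × ℤ)) :
    (∀ s ∈ S₀, Even (s.1 + s.2)) → ∀ (D : Finset (ℤ × ℤ)) (η : Cfg), (D : Set (ℤ × ℤ)) ⊆ B →
      Good η → SepS B D η S₀ → Ex Q D η (fun ω => y ^ kcS x r R S₀ D ω) ≤ M := by
  classical
  induction S₀ using Finset.induction_on with
  | empty =>
    intro _ D η hDB hη hsep
    have h1 : ∀ ω, kcS x r R ∅ D ω = kc x r R D ω := fun ω => by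
      unfold kcS kc
      simp
    simp only [h1]
    refine h0 D η hDB hη fun v hv hv' hvo a ha u hue hc hca => ?_
    exact absurd (hsep v hv hv' hvo a ha u hue hc hca) (notMem_empty u)
  | insert s S₁ _ ih =>
    intro hev D η hDB hη hsep
    have hse := hev s (mem_insert_self _ _)
    have hev' : ∀ s ∈ S₁, Even (s.1 + s.2) := fun s' hs' => hev s' (mem_insert_of_mem hs')
    set k : Cfg → Set (ℤ × ℤ) := fun ω => cl (Op D ω) s with hk
    rw [← mul_one M, ← Ex_const (Q := Q) (D := D) (η := η) hQ 1, ← Ex_mul_left,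
      Ex_split (α := Set (ℤ × ℤ)) k (fun ω => y ^ kcS x r R (insert s S₁) D ω),
      Ex_split (α := Set (ℤ × ℤ)) k (fun _ => M * (1 : ℝ))]
    refine Finset.sum_le_sum fun K hK => ?_
    rw [Finset.mem_image] at hK
    set D' := rest D K with hD'
    have hsub : D' ⊆ D := fun v hv => (mem_rest.1 hv).1
    set I : Cfg → ℝ := {ω | k ω = K}.indicator 1 with hI
    have hInd : Ind D' I := ind_cl K
    have hI0 : ∀ ω, 0 ≤ I ω := ind_nonneg _
    have hIz : ∀ ω, k ω ≠ K → I ω = 0 := fun ω h =>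
      Set.indicator_of_notMem (show ω ∉ {ω | k ω = K} from h) _
    have h1 : Ex Q D η (fun ω => I ω * y ^ kcS x r R (insert s S₁) D ω) ≤
        Ex Q D η (fun ω => I ω * y ^ kcS x r R S₁ D' ω) := by
      refine Ex_mono hQ fun S _ => ?_
      by_cases h : k (cf D η S) = K
      · refine mul_le_mul_of_nonneg_left (pow_le_pow_right₀ hy ?_) (hI0 _)
        have h2 := kcS_rest (x := x) (r := r) (R := R) (D := D) (S₁ := S₁) hse (cf D η S)
        have h3 : cl (Op D (cf D η S)) s = K := h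
        rw [h3] at h2
        exact h2
      · rw [hIz _ h, zero_mul, zero_mul]
    refine h1.trans ?_
    rw [markov f_markov hQ hsub hη hInd]
    refine Ex_mono hQ fun S hS => ?_
    by_cases h : k (cf D η S) = K
    · have hgood := f_good.1 D η S hη
      have hsep' : SepS B D' (cf D η S) S₁ := by
        have h2 := hsep.step (ω := cf D η S) (fun v hv => cf_out hv) hse
        have h3 : cl (Op D (cf D η S)) s = K := h
        rw [h3] at h2
        exact h2
      have h4 := ih hev' D' _ ((Finset.coe_subset.2 hsub).trans hDB) hgood hsep'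
      have := mul_le_mul_of_nonneg_left h4 (hI0 (cf D η S))
      linarith
    · rw [hIz _ h]
      simp

end Vale.Agent.P167.H562.QM
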