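import Vale.Agent.P167.H562.Q.SM4
import Vale.Agent.P167.H562.MAJ2

/-!
# P167, general `q`, block Q-MAJ: moments of the sum of the masses of the small loops

`lim_map`: invariance of the infinite-volume measure. `NbP P d`: mean number of the loops of diameter less
than `d` around a site. `Sm_mom_U`: exponential moments of the centred sum of the masses, for conditioned
measures. `expSm`: the same for the expectations `Ex Q D η`, with a factor.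
-/

namespace Vale.Agent.P167.H562.QM

open Finset Filter Topology MeasureTheory Vale.Agent.P167.FK
open Vale.Agent.P167.FKA (Loc Ind ArmDec)
open Vale.Agent.P167.H519 (IsLim)
open Vale.Agent.P167.H259 (f_markov)
open Vale.Agent.P167.H135 (Cn Cn_loc Cn_sh shC exists_ball)
open Vale.Agent.P167.H562.GL Vale.Agent.P167.H562.SML
open Vale.Agent.P167.H562.MAJ (Sm Sm_eq Sm_neg sum_G fsum_eq exists_cball Cn_nonneg nm_tri)

variable {Q : ℝ} {P ν : Measure Cfg}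

/-! ### invariance -/

theorem lim_map (hP : IsLim Q P) {T : Cfg → Cfg}
    (hE : ∀ R : ℤ, ∃ (D D' : Finset (ℤ × ℤ)) (η η' : Cfg), Bq 0 R ⊆ D ∧ Bq 0 R ⊆ D' ∧ Good η ∧
      Good η' ∧ ∀ F : Cfg → ℝ, Ex Q D η F = Ex Q D' η' (fun ω => F (T ω)))
    {F : Cfg → ℝ} {B B' : Finset (ℤ × ℤ)} (hF : Loc B F) (hF' : Loc B' (fun ω => F (T ω))) :
    ∫ ω, F (T ω) ∂P = ∫ ω, F ω ∂P := by
  refine eq_of_forall_dist_le fun ε hε => ?_
  obtain ⟨R1, h1⟩ := hP.2 B F hF (ε / 2) (by positivity)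
  obtain ⟨R2, h2⟩ := hP.2 B' _ hF' (ε / 2) (by positivity)
  obtain ⟨D, D', η, η', hD, hD', hη, hη', he⟩ := hE (max R1 R2)
  have k1 := h1 D η ((H519.Bq_mono (le_max_left _ _)).trans hD) hη
  have k2 := h2 D' η' ((H519.Bq_mono (le_max_right _ _)).trans hD') hη'
  rw [he F] at k1
  rw [Real.dist_eq]
  rw [abs_le] at k1 k2 ⊢
  constructor <;> linarith [k1.1, k1.2, k2.1, k2.2]

theorem loc_comp {F : Cfg → ℝ} {B : Finset (ℤ × ℤ)} (hF : Loc B F) (σ : ℤ × ℤ → ℤ × ℤ)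
    (g : Bool → Bool) : Loc (B.image σ) (fun ω => F (fun v => g (ω (σ v)))) := by
  intro ω ω' h
  refine hF _ _ fun v hv => ?_
  rw [h _ (mem_image_of_mem σ hv)]

theorem du_eq (ω : Cfg) : du ω = shC (1, 0) ω := by
  funext v
  have e : v - (1, 0) = (v.1 - 1, v.2) := by ext <;> simp
  simp [du, shC, H135.rl, H135.fx, H135.trS, e]

theorem lim_du (hQ : 0 < Q) (hP : IsLim Q P) {F : Cfg → ℝ} {B : Finset (ℤ × ℤ)} (hF : Loc B F) :
    ∫ ω, F (du ω) ∂P = ∫ ω, F ω ∂P := by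
  refine lim_map hP (T := du) (fun R => ?_) hF
    (loc_comp hF (fun v => (v.1 - 1, v.2)) (fun b => !b))
  refine ⟨(Bq 0 (R + 1)).image (fun v => (v.1 + 1, v.2)), Bq 0 (R + 1), du eta0, eta0, ?_,
    H519.Bq_mono (by omega), f_dual.1 _ f_good.2.1, f_good.2.1,
    fun F => f_dual.2 Q _ eta0 F hQ f_good.2.1⟩
  intro v hv
  refine mem_image.2 ⟨(v.1 - 1, v.2), ?_, by simp⟩
  simp only [Bq, Finset.mem_product, Finset.mem_Ico, Prod.fst_zero, Prod.snd_zero] at hv ⊢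
  omega

theorem lim_tr (hQ : 0 < Q) (hP : IsLim Q P) {F : Cfg → ℝ} {B : Finset (ℤ × ℤ)} (hF : Loc B F) :
    ∫ ω, F (fun v => ω (v.1 + 1, v.2 + 1)) ∂P = ∫ ω, F ω ∂P := by
  have hmem : (fun v : ℤ × ℤ => (v.1 + 1, v.2 + 1)) ∈ syms := by simp [syms]
  have hs := f_sym _ hmem
  refine lim_map hP (T := fun ω v => ω (v.1 + 1, v.2 + 1)) (fun R => ?_) hF
    (loc_comp hF (fun v => (v.1 + 1, v.2 + 1)) (fun b => b))
  refine ⟨Bq 0 (R + 1), (Bq 0 (R + 1)).image (fun v => (v.1 + 1, v.2 + 1)),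
    eta0 ∘ (fun v : ℤ × ℤ => (v.1 + 1, v.2 + 1)), eta0, H519.Bq_mono (by omega), ?_,
    hs.1 _ f_good.2.1, f_good.2.1, fun F => hs.2 Q _ eta0 F hQ f_good.2.1⟩
  intro v hv
  refine mem_image.2 ⟨(v.1 - 1, v.2 - 1), ?_, by simp⟩
  simp only [Bq, Finset.mem_product, Finset.mem_Ico, Prod.fst_zero, Prod.snd_zero] at hv ⊢
  omega

/-! ### the mean number of the small loops around a site -/

/-- The mean number of the loops of diameter less than `d` around a site. -/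
noncomputable def NbP (P : Measure Cfg) (d : ℝ) : ℝ := ∫ ω, Cn d 0 ω ∂P

theorem NbP_nonneg (P : Measure Cfg) (d : ℝ) : 0 ≤ NbP P d :=
  integral_nonneg fun ω => Cn_nonneg d 0 ω

theorem Cn_Loc (d : ℝ) (z : ℤ × ℤ) : ∃ A : Finset (ℤ × ℤ), Loc A (Cn d z) := by
  obtain ⟨A, hA⟩ := exists_ball z d
  exact ⟨fat A d, fun ω ω' hw => Cn_loc (fun v hv => (hA v).2 hv) fun v hv => hw v hv⟩

theorem mean_right (hQ : 0 < Q) (hP : IsLim Q P) (d : ℝ) (z : ℤ × ℤ) :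
    ∫ ω, Cn d (z.1 + 1, z.2) ω ∂P = ∫ ω, Cn d z ω ∂P := by
  obtain ⟨A, hA⟩ := Cn_Loc d (z.1 + 1, z.2)
  rw [← lim_du hQ hP hA]
  refine integral_congr_ae (ae_of_all _ fun ω => ?_)
  simp only
  rw [du_eq]
  have := Cn_sh d z (1, 0) ω
  rw [← this]
  congr 1
  ext <;> simp

theorem mean_diag (hQ : 0 < Q) (hP : IsLim Q P) (d : ℝ) (z : ℤ × ℤ) :
    ∫ ω, Cn d (z.1 - 1, z.2 - 1) ω ∂P = ∫ ω, Cn d z ω ∂P := by
  obtain ⟨A, hA⟩ := Cn_Loc d (z.1 - 1, z.2 - 1)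
  rw [← lim_tr hQ hP hA]
  refine integral_congr_ae (ae_of_all _ fun ω => ?_)
  simp only
  have h1 : (fun v : ℤ × ℤ => ω (v.1 + 1, v.2 + 1)) = shC (-1, -1) ω := by
    funext v
    simp [shC, H135.rl, H135.fx, H135.trS]
    rfl
  rw [h1]
  have := Cn_sh d z (-1, -1) ω
  rw [← this]
  congr 1

theorem mean_cnP (hQ : 0 < Q) (hP : IsLim Q P) (d : ℝ) (z : ℤ × ℤ) :
    ∫ ω, Cn d z ω ∂P = NbP P d := by
  have h1 : ∀ (n : ℕ) (x y : ℤ), ∫ ω, Cn d (x + n, y) ω ∂P = ∫ ω, Cn d (x, y) ω ∂P := by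
    intro n x y
    induction n with
    | zero => simp
    | succ n ih =>
      rw [← ih]
      have := mean_right hQ hP d (x + n, y)
      simp only at this
      rw [← this]
      push_cast
      rw [add_assoc]
  have h2 : ∀ (n : ℕ) (x y : ℤ), ∫ ω, Cn d (x - n, y - n) ω ∂P = ∫ ω, Cn d (x, y) ω ∂P := by
    intro n x y
    induction n with
    | zero => simp
    | succ n ih =>
      rw [← ih]
      have := mean_diag hQ hP d (x - n, y - n)
      simp only at this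
      rw [← this]
      push_cast
      rw [show x - ((n : ℤ) + 1) = x - n - 1 by ring, show y - ((n : ℤ) + 1) = y - n - 1 by ring]
  have h3 : ∀ x x' y : ℤ, ∫ ω, Cn d (x, y) ω ∂P = ∫ ω, Cn d (x', y) ω ∂P := by
    have key : ∀ x x' y : ℤ, x ≤ x' → ∫ ω, Cn d (x, y) ω ∂P = ∫ ω, Cn d (x', y) ω ∂P := by
      intro x x' y h
      have := h1 (x' - x).toNat x y
      rw [show x + ((x' - x).toNat : ℤ) = x' by omega] at this
      exact this.symm
    intro x x' y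
    rcases le_total x x' with h | h
    · exact key x x' y h
    · exact (key x' x y h).symm
  have h4 : ∀ x y y' : ℤ, ∫ ω, Cn d (x, y) ω ∂P = ∫ ω, Cn d (x, y') ω ∂P := by
    have key : ∀ x y y' : ℤ, y' ≤ y → ∫ ω, Cn d (x, y) ω ∂P = ∫ ω, Cn d (x, y') ω ∂P := by
      intro x y y' h
      have := h2 (y - y').toNat x y
      rw [show y - ((y - y').toNat : ℤ) = y' by omega] at this
      rw [← this]
      exact h3 _ _ _
    intro x y y'
    rcases le_total y' y with h | h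
    · exact key x y y' h
    · exact (key x y' y h).symm
  unfold NbP
  exact (h3 z.1 0 z.2).trans (h4 0 z.2 0)

/-- The sum of the masses of the small loops is local. -/
theorem Sm_Loc {f : ℤ × ℤ → ℝ} {F : Finset (ℤ × ℤ)} (hF : ∀ s, f s ≠ 0 → s ∈ F) (d : ℝ) :
    ∃ A : Finset (ℤ × ℤ), Loc A (Sm f d) := by
  classical
  choose A hA using Cn_Loc d
  refine ⟨F.biUnion A, fun ω ω' h => ?_⟩
  rw [Sm_eq hF, Sm_eq hF]
  refine sum_congr rfl fun s hs => ?_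
  rw [hA s ω ω' fun v hv => h v (mem_biUnion.2 ⟨s, hs, hv⟩)]

theorem mean_SmP (hQ : 0 < Q) (hP : IsLim Q P) {f : ℤ × ℤ → ℝ} {F : Finset (ℤ × ℤ)}
    (hF : ∀ s, f s ≠ 0 → s ∈ F) (d : ℝ) : ∫ ω, Sm f d ω ∂P = (∑ᶠ s, f s) * NbP P d := by
  have hPp : IsProbabilityMeasure P := hP.1
  simp only [Sm_eq hF, fsum_eq hF]
  rw [integral_finsetSum _ fun s _ => ?_, sum_mul]
  · refine sum_congr rfl fun s _ => ?_
    rw [integral_const_mul, mean_cnP hQ hP]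
  · obtain ⟨A, hA⟩ := Cn_Loc d s
    exact (loc_integrable hA).const_mul _

/-- **Exponential moments of the sum of the masses of the small loops, conditioned measures.** -/
theorem Sm_mom_U (hQ : 1 ≤ Q) {al Ca : ℝ} (hal : 0 < al) (hCa : 0 < Ca) (hA : ArmDec Q al Ca)
    (hP : IsLim Q P) (hX : CrossP P) (κ R Cm T : ℝ) (hκ : 0 < κ) (hR : 0 ≤ R) (hCm : 0 < Cm) :
    ∃ C : ℝ, 0 ≤ C ∧ ∀ ρ : ℝ, 1 ≤ ρ → ∀ (c : ℤ × ℤ) (f : ℤ × ℤ → ℝ),
    (∀ z, |f z| ≤ Cm / ρ ^ 2) → (∀ z, f z ≠ 0 → (nm (z - c) : ℝ) ≤ R * ρ) →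
    ∀ (U : Finset (ℤ × ℤ)) (ν : Measure Cfg),
    (∀ z, f z ≠ 0 → ∀ v, (nm (v - z) : ℝ) ≤ 33 * κ * ρ → v ∈ U) → Nu P ν U → ∀ t : ℝ, |t| ≤ T →
      Em ν (fun ω => t * (Sm f (κ * ρ) ω - (∑ᶠ s, f s) * NbP P (κ * ρ))) ≤
        ENNReal.ofReal (Real.exp C) := by
  classical
  obtain ⟨C, hC0, hC⟩ := lin_UA hQ hal hCa hA hP hX (R := R + κ) (κ := κ) (T * Cm)
    (by linarith) hκ
  refine ⟨C * (Cm * |T| + Cm ^ 2 * T ^ 2), by positivity,
    fun ρ hρ c f hf hs U ν hU hν t ht => ?_⟩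
  obtain ⟨F, hF⟩ := exists_cball c (R * ρ)
  obtain ⟨A0, hA0⟩ := exists_cball c ((R + κ) * ρ)
  set A : Finset (ℤ × ℤ) := A0.filter (fun v => ∃ s, f s ≠ 0 ∧ (nm (v - s) : ℝ) < κ * ρ) with hAd
  have hF' : ∀ s, f s ≠ 0 → s ∈ F := fun s h => (hF s).2 (hs s h)
  have hA' : ∀ s, f s ≠ 0 → ∀ v : ℤ × ℤ, (nm (v - s) : ℝ) < κ * ρ → v ∈ A := by
    intro s h v hv
    rw [hAd, mem_filter]
    refine ⟨?_, s, h, hv⟩
    rw [hA0]
    have h1 := hs s h
    have h2 := nm_tri v s c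
    have h3 : (nm (v - c) : ℝ) ≤ nm (v - s) + nm (s - c) := by exact_mod_cast h2
    nlinarith
  have h1 := hC ρ hρ c A (fun v hv => (hA0 v).1 (mem_filter.1 hv).1) U ν (fun u hu v hv => by
      obtain ⟨-, s, hs1, hs2⟩ := mem_filter.1 hu
      refine hU s hs1 v ?_
      have h3 : (nm (v - s) : ℝ) ≤ nm (v - u) + nm (u - s) := by exact_mod_cast nm_tri v u s
      linarith) hν (fun ℓ => G f ℓ) Cm hCm (bd_G hρ hCm.le hf) t
    (mul_le_mul_of_nonneg_right ht hCm.le)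
  have h2 : ∀ ω, ∑ ℓ ∈ smf A (κ * ρ) ω, G f ℓ = Sm f (κ * ρ) ω := fun ω => sum_G hF' hA' ω
  simp only [h2] at h1
  rw [mean_SmP (by linarith) hP hF'] at h1
  refine h1.trans (ENNReal.ofReal_le_ofReal (Real.exp_le_exp.2 ?_))
  have hT : |t| ≤ |T| := ht.trans (le_abs_self _)
  have h3 : t ^ 2 ≤ T ^ 2 := sq_le_sq.2 hT
  refine mul_le_mul_of_nonneg_left (add_le_add ?_ ?_) hC0
  · exact mul_le_mul_of_nonneg_left hT hCm.le
  · exact mul_le_mul_of_nonneg_left h3 (by positivity)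

end Vale.Agent.P167.H562.QM
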