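import Vale.Agent.P167.H562.GLin2

/-!
# P167, general `q`, block Q-MAJ: finite-volume measures as conditioned infinite-volume measures

`exists_nuEx`: the expectation `Ex Q D η` of the local functions is the expectation for a measure `ν` with
`Nu P ν D`, `P` the infinite-volume measure. `multiU`: the multiscale exponential bound (`GL.multi`) for
conditioned measures.
-/

namespace Vale.Agent.P167.H562.QM

open Finset Filter Topology MeasureTheory Vale.Agent.P167.FK Vale.Agent.P167.FKA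
open Vale.Agent.P167.H519 (IsLim loc_cont Bq_mono exists_Bq)
open Vale.Agent.P167.H259 (f_markov f_fkg f_comp)
open Vale.Agent.P167.H45 (LV LV_fin LV_ncard)
open Vale.Agent.P167.H562.GL

variable {Q : ℝ} {P ν ν' : Measure Cfg} {U U' D : Finset (ℤ × ℤ)} {η : Cfg}

theorem nu_mono (h : Nu P ν U) (hU : U' ⊆ U) : Nu P ν U' := by
  obtain ⟨G, B, h0, hL, hI, hp, h1⟩ := h.ex
  exact ⟨h.prob, G, B, h0, hL, Ind.mono hU hI, hp, h1⟩

/-- Conditioning twice. -/
theorem nu_trans (h : Nu P ν U') (h' : Nu ν ν' U) (hU : U ⊆ U') : Nu P ν' U := by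
  obtain ⟨G, B, h0, hL, hI, hp, h1⟩ := h.ex
  obtain ⟨G', B', h0', hL', hI', hp', h1'⟩ := h'.ex
  have e1 := h1 G' B' hL'
  have hpos : 0 < ∫ ω, G ω * G' ω ∂P := by
    rw [e1] at hp'
    have := mul_pos hp' hp
    rwa [div_mul_cancel₀ _ hp.ne'] at this
  refine ⟨h'.prob, fun ω => G ω * G' ω, B ∪ B', fun ω => mul_nonneg (h0 ω) (h0' ω),
    Loc.mulU hL hL', Ind.mul (Ind.mono hU hI) hI', hpos, fun F A hF => ?_⟩
  rw [h1' F A hF, h1 _ _ (Loc.mulU hL' hF), e1, div_div_div_cancel_right₀ hp.ne']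
  congr 1
  refine integral_congr_ae (Eventually.of_forall fun ω => ?_)
  simp only
  ring

/-- The loops which visit `D` do not see the outside of a large set. -/
theorem exists_range (hη : Good η) (D A : Finset (ℤ × ℤ)) : ∃ B : Finset (ℤ × ℤ), D ⊆ B ∧ A ⊆ B ∧
    ∀ ω : Cfg, (∀ v ∈ B, v ∉ D → ω v = η v) → ∀ S ⊆ D, LD D (cf D ω S) = LD D (cf D η S) := by
  classical
  set B : Finset (ℤ × ℤ) := D ∪ A ∪ D.powerset.biUnion (fun S =>
    (LV_fin s_two D (cf D η S)).toFinset.biUnion vs) with hB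
  refine ⟨B, fun v hv => by simp [hB, hv], fun v hv => by simp [hB, hv], fun ω hω S hS => ?_⟩
  have hin : ∀ ℓ, IsLoop (cf D η S) ℓ → (∃ v ∈ vs ℓ, v ∈ D) → ∀ v ∈ vs ℓ, v ∈ B := by
    intro ℓ h1 h2 v hv
    rw [hB]
    refine mem_union_right _ (mem_biUnion.2 ⟨S, mem_powerset.2 hS, mem_biUnion.2 ⟨ℓ, ?_, hv⟩⟩)
    exact (Set.Finite.mem_toFinset _).2 ⟨h1, h2⟩
  have hag : ∀ v ∈ B, cf D η S v = cf D ω S v := by
    intro v hv
    by_cases h : v ∈ D
    · simp [cf, h]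
    · rw [cf_out h, cf_out h, hω v hv h]
  have hGS := f_good.1 D η S hη
  unfold LD
  congr 1
  ext ℓ
  constructor
  · rintro ⟨h1, u, hu, huD⟩
    obtain ⟨e, he, rfl⟩ := mem_image.1 hu
    obtain ⟨ℓ', h3, h4⟩ := hGS e
    have hvis : ∃ v ∈ vs ℓ', v ∈ D := ⟨_, mem_image_of_mem _ h4, huD⟩
    have h5 := s_loc _ _ ℓ' h3 fun v hv => hag v (hin ℓ' h3 hvis v hv)
    have h6 : ℓ = ℓ' := Vale.Agent.P167.IsLoop.eq_of_mem h1 h5 he h4
    rw [h6]
    exact ⟨h3, hvis⟩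
  · rintro ⟨h1, h2⟩
    exact ⟨s_loc _ _ ℓ h1 fun v hv => hag v (hin ℓ h1 h2 v hv), h2⟩

/-- The weights of the configurations are bounded from below. -/
theorem ex_pos (hQ : 1 ≤ Q) (B : Finset (ℤ × ℤ)) : ∃ c : ℝ, 0 < c ∧ ∀ (ζ ω₀ : Cfg) (F : Cfg → ℝ),
    (∀ ω, 0 ≤ F ω) → (∀ S ⊆ B, (∀ v ∈ B, decide (v ∈ S) = ω₀ v) → 1 ≤ F (cf B ζ S)) →
    c ≤ Ex Q B ζ F := by
  classical
  have hQ0 : 0 < Q := by linarith
  refine ⟨1 / (2 ^ B.card * Q ^ (4 * B.card)), by positivity, fun ζ ω₀ F hF0 hF => ?_⟩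
  set S₀ : Finset (ℤ × ℤ) := B.filter (fun v => ω₀ v = true) with hS₀
  have hS : S₀ ⊆ B := filter_subset _ _
  have h1 : 1 ≤ F (cf B ζ S₀) := hF S₀ hS fun v hv => by
    by_cases h : ω₀ v = true
    · simp [hS₀, hv, h]
    · simp only [Bool.not_eq_true] at h
      simp [hS₀, h]
  have hZ : Zq Q B ζ ≤ 2 ^ B.card * Q ^ (4 * B.card) := by
    unfold Zq
    calc ∑ S ∈ B.powerset, Q ^ LD B (cf B ζ S) ≤ ∑ _S ∈ B.powerset, Q ^ (4 * B.card) := by
          refine Finset.sum_le_sum fun S _ => pow_le_pow_right₀ hQ ?_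
          exact LV_ncard s_two B (cf B ζ S)
      _ = _ := by rw [sum_const, card_powerset, nsmul_eq_mul]; push_cast; ring
  have hZ0 := Zq_pos hQ0 B ζ
  unfold Ex
  rw [div_le_div_iff₀ (by positivity) hZ0, one_mul]
  have h2 : 1 ≤ ∑ S ∈ B.powerset, Q ^ LD B (cf B ζ S) * F (cf B ζ S) := by
    refine le_trans ?_ (Finset.single_le_sum (f := fun S => Q ^ LD B (cf B ζ S) * F (cf B ζ S))
      (fun S _ => mul_nonneg (by positivity) (hF0 _)) (mem_powerset.2 hS))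
    have h3 : 1 ≤ Q ^ LD B (cf B ζ S₀) := one_le_pow₀ hQ
    nlinarith
  have h4 : 0 < (2 : ℝ) ^ B.card * Q ^ (4 * B.card) := by positivity
  nlinarith

open Classical in
/-- **The finite-volume measures are conditioned infinite-volume measures.** -/
theorem exists_nuEx (hQ : 1 ≤ Q) (hP : IsLim Q P) (hη : Good η) (D A : Finset (ℤ × ℤ)) :
    ∃ ν, Nu P ν D ∧ ∀ F : Cfg → ℝ, Loc A F → ∫ ω, F ω ∂ν = Ex Q D η F := by
  have hQ0 : 0 < Q := by linarith
  have hPp : IsProbabilityMeasure P := hP.1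
  obtain ⟨B, hDB, hAB, hB⟩ := exists_range hη D A
  set G : Cfg → ℝ := fun ω => if ∀ v ∈ B, v ∉ D → ω v = η v then 1 else 0 with hG
  have hG0 : ∀ ω, 0 ≤ G ω := fun ω => by simp only [hG]; split_ifs <;> norm_num
  have hGL : Loc B G := fun ω ω' h => by
    simp only [hG]
    have : (∀ v ∈ B, v ∉ D → ω v = η v) ↔ (∀ v ∈ B, v ∉ D → ω' v = η v) :=
      forall₃_congr fun v hv _ => by rw [h v hv]
    simp only [this]
  have hGI : Ind D G := fun ω ω' h => by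
    simp only [hG]
    have : (∀ v ∈ B, v ∉ D → ω v = η v) ↔ (∀ v ∈ B, v ∉ D → ω' v = η v) :=
      forall₃_congr fun v _ hv => by rw [h v hv]
    simp only [this]
  -- positivity
  obtain ⟨c, hc, hcE⟩ := ex_pos hQ B
  have hpos : 0 < ∫ ω, G ω ∂P := by
    obtain ⟨R, hR⟩ := hP.2 B G hGL (c / 2) (by positivity)
    have h1 := hR (Bq 0 R ∪ B) eta0 subset_union_left f_good.2.1
    have h2 : c ≤ Ex Q (Bq 0 R ∪ B) eta0 G := by
      rw [f_markov Q B _ eta0 G hQ0 subset_union_right f_good.2.1,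
        ← Ex_const (Q := Q) (D := Bq 0 R ∪ B) (η := eta0) hQ0 c]
      refine Ex_mono hQ0 fun S _ => hcE _ η G hG0 fun T hT h => ?_
      simp only [hG]
      rw [if_pos]
      intro v hv _
      simp [cf, hv, h v hv]
    rw [abs_le] at h1
    linarith [h1.1, h1.2]
  obtain ⟨ν, hν, h1⟩ := exists_nu hG0 hGL hGI hpos
  refine ⟨ν, hν, fun F hF => ?_⟩
  rw [h1 F A hF, div_eq_iff hpos.ne']
  -- conditional expectation
  have hcond : ∀ ω : Cfg, G ω * Ex Q D ω F = G ω * Ex Q D η F := by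
    intro ω
    by_cases h : ∀ v ∈ B, v ∉ D → ω v = η v
    · congr 1
      unfold Ex Zq
      have e1 : ∀ S ∈ D.powerset, Q ^ LD D (cf D ω S) = Q ^ LD D (cf D η S) := fun S hS => by
        rw [hB ω h S (mem_powerset.1 hS)]
      have e2 : ∀ S ∈ D.powerset, F (cf D ω S) = F (cf D η S) := fun S _ => by
        refine hF _ _ fun v hv => ?_
        by_cases hvD : v ∈ D
        · simp [cf, hvD]
        · rw [cf_out hvD, cf_out hvD, h v (hAB hv) hvD]
      rw [sum_congr rfl e1, sum_congr rfl fun S hS => by rw [e1 S hS, e2 S hS]]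
    · simp only [hG, if_neg h, zero_mul]
  have hEx : ∀ D' : Finset (ℤ × ℤ), D ⊆ D' →
      Ex Q D' eta0 (fun ω => G ω * F ω) = Ex Q D η F * Ex Q D' eta0 G := by
    intro D' hD'
    rw [markov f_markov hQ0 hD' f_good.2.1 hGI, ← Ex_mul_left]
    refine Ex_congr fun S _ => ?_
    rw [hcond]
    ring
  -- limits
  refine eq_of_forall_dist_le fun ε hε => ?_
  obtain ⟨R1, hR1⟩ := hP.2 (B ∪ A) (fun ω => G ω * F ω) (Loc.mulU hGL hF) (ε / 2) (by positivity)
  obtain ⟨R2, hR2⟩ := hP.2 B G hGL (ε / 2 / (|Ex Q D η F| + 1)) (by positivity)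
  set D' := Bq 0 (max R1 R2) ∪ D with hD'
  have k1 := hR1 D' eta0 ((Bq_mono (le_max_left _ _)).trans subset_union_left) f_good.2.1
  have k2 := hR2 D' eta0 ((Bq_mono (le_max_right _ _)).trans subset_union_left) f_good.2.1
  rw [hEx D' subset_union_right] at k1
  rw [Real.dist_eq]
  have k3 : |Ex Q D η F * Ex Q D' eta0 G - Ex Q D η F * ∫ ω, G ω ∂P| ≤ ε / 2 := by
    rw [← mul_sub, abs_mul]
    calc |Ex Q D η F| * |Ex Q D' eta0 G - ∫ ω, G ω ∂P|
        ≤ |Ex Q D η F| * (ε / 2 / (|Ex Q D η F| + 1)) :=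
          mul_le_mul_of_nonneg_left k2 (abs_nonneg _)
      _ ≤ ε / 2 := by
          rw [mul_div_assoc', div_le_iff₀ (by positivity)]
          nlinarith [abs_nonneg (Ex Q D η F)]
  rw [abs_le] at k1 k3 ⊢
  constructor <;> linarith [k1.1, k1.2, k3.1, k3.2]

/-- Sum over the scales, the super-boxes and the boxes, for a conditioned measure. -/
theorem multiU {N : Measure Cfg} [IsProbabilityMeasure N] {ι : Type*} [DecidableEq ι] (J c : ℕ) (hc : 0 < c)
    (W : ℕ → Finset ι) (col : ι → Fin c) (S : ℕ → ι → Finset ι) {X K : ℕ → ι → Cfg → ℝ}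
    {A U : ℕ → ι → Finset (ℤ × ℤ)} (hXl : ∀ j < J, ∀ w ∈ W j, ∀ z ∈ S j w, Loc (A j z) (X j z))
    (hK : ∀ j < J, ∀ w ∈ W j, ∀ z ∈ S j w, Measurable (K j z))
    (hK0 : ∀ j < J, ∀ w ∈ W j, ∀ z ∈ S j w, ∀ ω, 0 ≤ K j z ω)
    (hd : ∀ j < J, ∀ w ∈ W j, ∀ w' ∈ W j, w ≠ w' → col w = col w' → ∀ z ∈ S j w,
      Disjoint (A j z) (U j w'))
    {s M A0 B0 β Γ t : ℝ} {a b g : ℕ → ℝ} {n : ℕ → ℕ} (hs : 0 ≤ s) (hM0 : 0 ≤ M)
    (hn0 : ∀ j, 0 < n j) (hn : ∀ j < J, ∀ w ∈ W j, (S j w).card ≤ n j) (hb0 : ∀ j, 0 ≤ b j)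
    (ha0 : ∀ j, 0 ≤ a j) (hA0 : 0 ≤ A0) (hB0 : 0 ≤ B0) (hβ : 0 ≤ β) (hg0 : ∀ j, 0 ≤ g j)
    (hXK : ∀ j < J, ∀ w ∈ W j, ∀ z ∈ S j w, ∀ ω, |X j z ω| ≤ a j * K j z ω)
    (hM : ∀ j < J, ∀ w ∈ W j, ∀ z ∈ S j w, ∀ ν, Nu N ν (U j w) →
      Em ν (fun ω => (s + 1) * K j z ω) ≤ ENNReal.ofReal (Real.exp M))
    (hb : ∀ j < J, ∀ w ∈ W j, ∀ z ∈ S j w, ∀ ν, Nu N ν (U j w) →
      |∫ ω, X j z ω ∂ν - ∫ ω, X j z ω ∂P| ≤ b j)
    (hna : ∀ j < J, n j * a j ≤ A0 * (1 / 2) ^ j) (hnb : ∀ j < J, n j * b j ≤ B0 * (1 / 2) ^ j * g j)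
    (hW : ∀ j < J, ((W j).card : ℝ) ≤ β * 2 ^ j) (hg : ∑ j ∈ Finset.range J, g j ≤ Γ)
    (ht : 4 * c * A0 * |t| ≤ s) :
    Em N (fun ω => t * ∑ j ∈ Finset.range J, ∑ w ∈ W j, ∑ z ∈ S j w,
      (X j z ω - ∫ x, X j z x ∂P)) ≤ ENNReal.ofReal (Real.exp (β * (c * |t| * B0 * Γ +
        12 * (2 * Real.exp M * Real.exp ((s + 1) * Real.exp M)) * c ^ 2 * t ^ 2 * A0 ^ 2))) := by
  classical
  set G : ℝ := 2 * Real.exp M * Real.exp ((s + 1) * Real.exp M) with hG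
  have hG0 : 0 ≤ G := by positivity
  have hc' : (0 : ℝ) < c := by exact_mod_cast hc
  let θ : ℕ × Fin c → ℝ := fun p => (1 / 4) * (3 / 4) ^ p.1 / c
  let Y : ℕ × Fin c → Cfg → ℝ := fun p ω => t * ∑ w ∈ (W p.1).filter (fun w => col w = p.2),
    ∑ z ∈ S p.1 w, (X p.1 z ω - ∫ x, X p.1 z x ∂P)
  let E : ℕ × Fin c → ℝ := fun p => β * (4 * c * |t| * B0 * (4 / 3) ^ p.1 * g p.1 +
    16 * G * c ^ 2 * t ^ 2 * A0 ^ 2 * (8 / 9) ^ p.1)
  have hθ : ∀ p, 0 < θ p := fun p => by positivity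
  have h34 : ∑ j ∈ Finset.range J, ((3 : ℝ) / 4) ^ j ≤ 4 := by
    refine (geom_le (by norm_num) (by norm_num) J).trans (by norm_num)
  have h23 : ∑ j ∈ Finset.range J, ((2 : ℝ) / 3) ^ j ≤ 3 := by
    refine (geom_le (by norm_num) (by norm_num) J).trans (by norm_num)
  have hsum : ∑ p ∈ (Finset.range J) ×ˢ (Finset.univ : Finset (Fin c)), θ p ≤ 1 := by
    rw [Finset.sum_product]
    simp only [θ, Finset.sum_const, Finset.card_univ, Fintype.card_fin, nsmul_eq_mul]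
    calc ∑ j ∈ Finset.range J, (c : ℝ) * ((1 / 4) * (3 / 4) ^ j / c)
        = (1 / 4) * ∑ j ∈ Finset.range J, ((3 : ℝ) / 4) ^ j := by
          rw [Finset.mul_sum]
          exact Finset.sum_congr rfl fun j _ => by field_simp
      _ ≤ 1 := by linarith
  have hYm : ∀ p ∈ (Finset.range J) ×ˢ (Finset.univ : Finset (Fin c)), Measurable (Y p) := by
    intro p hp
    have hj : p.1 < J := by simpa using (Finset.mem_product.1 hp).1
    refine Measurable.const_mul ?_ _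
    refine Finset.measurable_fun_sum _ fun w hw => Finset.measurable_fun_sum _ fun z hz => ?_
    exact (Loc.meas (hXl _ hj w (Finset.mem_filter.1 hw).1 z hz)).sub measurable_const
  have hB : ∀ p ∈ (Finset.range J) ×ˢ (Finset.univ : Finset (Fin c)),
      Em N (fun ω => (θ p)⁻¹ * Y p ω) ≤ ENNReal.ofReal (Real.exp (E p)) := by
    rintro ⟨j, k⟩ hp
    have hj : j < J := by simpa using (Finset.mem_product.1 hp).1
    set τ : ℝ := 4 * c * (4 / 3) ^ j * t with hτ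
    have e1 : (fun ω => (θ (j, k))⁻¹ * Y (j, k) ω) =
        fun ω => ∑ w ∈ (W j).filter (fun w => col w = k),
          (τ * ∑ z ∈ S j w, (X j z ω - ∫ x, X j z x ∂P)) := by
      ext ω
      simp only [θ, Y]
      rw [← Finset.mul_sum, ← mul_assoc]
      congr 1
      have : ((4 : ℝ) / 3) ^ j = ((3 / 4) ^ j)⁻¹ := by rw [← inv_pow]; norm_num
      rw [hτ, inv_div, this]
      field_simp
    rw [e1]
    have habs : |τ| = 4 * c * (4 / 3) ^ j * |t| := by
      rw [hτ, abs_mul, abs_of_nonneg (by positivity)]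
    have hτs : |τ| * (n j * a j) ≤ s := by
      rw [habs]
      have h1 := hna j hj
      have e2 : ((4 : ℝ) / 3) ^ j * (1 / 2) ^ j = (2 / 3) ^ j := by rw [← mul_pow]; norm_num
      calc 4 * c * (4 / 3) ^ j * |t| * (n j * a j)
          ≤ 4 * c * (4 / 3) ^ j * |t| * (A0 * (1 / 2) ^ j) :=
            mul_le_mul_of_nonneg_left h1 (by positivity)
        _ = (4 * c * A0 * |t|) * (2 / 3) ^ j := by rw [← e2]; ring
        _ ≤ (4 * c * A0 * |t|) * 1 :=
            mul_le_mul_of_nonneg_left (pow_le_one₀ (by norm_num) (by norm_num)) (by positivity)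
        _ ≤ s := by linarith
    have h2 := prod_nu (P := N) ((W j).filter (fun w => col w = k))
      (Y := fun w ω => τ * ∑ z ∈ S j w, (X j z ω - ∫ x, X j z x ∂P))
      (A := fun w => (S j w).biUnion (A j)) (U := U j)
      (β := |τ| * (n j * b j) + G * (τ ^ 2 * (n j * a j) ^ 2))
      (fun w hw ω ω' hω => by
        simp only
        congr 1
        refine Finset.sum_congr rfl fun z hz => ?_
        rw [hXl j hj w (Finset.mem_filter.1 hw).1 z hz ω ω' fun v hv =>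
          hω v (Finset.mem_biUnion.2 ⟨z, hz, hv⟩)])
      (fun w hw w' hw' hne => by
        rw [Finset.disjoint_biUnion_left]
        intro z hz
        rw [Finset.mem_filter] at hw hw'
        exact hd j hj w hw.1 w' hw'.1 hne (hw.2.trans hw'.2.symm) z hz)
      (fun w hw ν hν => by
        have hw1 := (Finset.mem_filter.1 hw).1
        have hνp := hν.prob
        exact super (P := P) (fun z hz => hXl j hj w hw1 z hz) (fun z hz => hK j hj w hw1 z hz)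
          (fun z hz => hK0 j hj w hw1 z hz) hs hM0 (hn0 j) (hn j hj w hw1) (hb0 j)
          (fun z hz => hXK j hj w hw1 z hz) hτs (fun z hz => hM j hj w hw1 z hz ν hν)
          (fun z hz => hb j hj w hw1 z hz ν hν))
    refine h2.trans (ENNReal.ofReal_le_ofReal (Real.exp_le_exp.2 ?_))
    have h3 : (((W j).filter (fun w => col w = k)).card : ℝ) ≤ β * 2 ^ j :=
      le_trans (by exact_mod_cast Finset.card_filter_le _ _) (hW j hj)
    have h4 : |τ| * (n j * b j) + G * (τ ^ 2 * (n j * a j) ^ 2) ≤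
        4 * c * (4 / 3) ^ j * |t| * (B0 * (1 / 2) ^ j * g j) +
          G * ((4 * c * (4 / 3) ^ j * t) ^ 2 * (A0 * (1 / 2) ^ j) ^ 2) := by
      rw [habs]
      refine add_le_add (mul_le_mul_of_nonneg_left (hnb j hj) (by positivity)) ?_
      refine mul_le_mul_of_nonneg_left ?_ hG0
      rw [hτ]
      refine mul_le_mul_of_nonneg_left ?_ (by positivity)
      exact pow_le_pow_left₀ (mul_nonneg (by positivity) (ha0 j)) (hna j hj) 2
    have h5 : 0 ≤ 4 * c * (4 / 3) ^ j * |t| * (B0 * (1 / 2) ^ j * g j) +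
          G * ((4 * c * (4 / 3) ^ j * t) ^ 2 * (A0 * (1 / 2) ^ j) ^ 2) := by
      have := hg0 j
      positivity
    have h6 : 0 ≤ |τ| * (n j * b j) + G * (τ ^ 2 * (n j * a j) ^ 2) := by
      have := hb0 j
      positivity
    refine (mul_le_mul h3 h4 h6 (by positivity)).trans (le_of_eq ?_)
    simp only [E]
    have e2 : ((1 : ℝ) / 2) ^ j * 2 ^ j = 1 := by rw [← mul_pow]; norm_num
    have e3 : (2 : ℝ) ^ j * ((4 / 3) ^ j) ^ 2 * ((1 / 2) ^ j) ^ 2 = (8 / 9) ^ j := by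
      rw [← pow_mul, ← pow_mul, mul_comm j 2, pow_mul, pow_mul, ← mul_pow, ← mul_pow]
      norm_num
    linear_combination (β * (4 * c * (4 / 3) ^ j * |t| * B0 * g j)) * e2 +
      (β * G * 16 * c ^ 2 * t ^ 2 * A0 ^ 2) * e3
  have hfin := Em_holder (μ := N) ((Finset.range J) ×ˢ (Finset.univ : Finset (Fin c))) hYm
    (fun p _ => hθ p) hsum hB
  have e5 : (fun ω => t * ∑ j ∈ Finset.range J, ∑ w ∈ W j, ∑ z ∈ S j w,
      (X j z ω - ∫ x, X j z x ∂P)) =
      fun ω => ∑ p ∈ (Finset.range J) ×ˢ (Finset.univ : Finset (Fin c)), Y p ω := by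
    ext ω
    rw [Finset.sum_product]
    simp only [Y]
    rw [Finset.mul_sum]
    refine Finset.sum_congr rfl fun j _ => ?_
    rw [← Finset.mul_sum]
    congr 1
    exact (Finset.sum_fiberwise (W j) col _).symm
  rw [e5]
  refine le_trans hfin (ENNReal.ofReal_le_ofReal (Real.exp_le_exp.2 ?_))
  rw [Finset.sum_product]
  have e6 : ∀ j ∈ Finset.range J, ∑ k : Fin c, θ (j, k) * E (j, k) =
      β * (c * |t| * B0 * g j + 4 * G * c ^ 2 * t ^ 2 * A0 ^ 2 * (2 / 3) ^ j) := by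
    intro j _
    simp only [θ, E, Finset.sum_const, Finset.card_univ, Fintype.card_fin, nsmul_eq_mul]
    have e1 : ((3 : ℝ) / 4) ^ j * (4 / 3) ^ j = 1 := by rw [← mul_pow]; norm_num
    have e2 : ((3 : ℝ) / 4) ^ j * (8 / 9) ^ j = (2 / 3) ^ j := by rw [← mul_pow]; norm_num
    have e3 : (c : ℝ) * (1 / 4 * (3 / 4) ^ j / c *
        (β * (4 * c * |t| * B0 * (4 / 3) ^ j * g j +
          16 * G * c ^ 2 * t ^ 2 * A0 ^ 2 * (8 / 9) ^ j))) =
        1 / 4 * (3 / 4) ^ j *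
        (β * (4 * c * |t| * B0 * (4 / 3) ^ j * g j +
          16 * G * c ^ 2 * t ^ 2 * A0 ^ 2 * (8 / 9) ^ j)) := by
      field_simp
    rw [e3]
    linear_combination (β * c * |t| * B0 * g j) * e1 +
      (β * 4 * G * c ^ 2 * t ^ 2 * A0 ^ 2) * e2
  rw [Finset.sum_congr rfl e6, ← Finset.mul_sum, Finset.sum_add_distrib, ← Finset.mul_sum,
    ← Finset.mul_sum]
  refine mul_le_mul_of_nonneg_left ?_ hβ
  refine add_le_add (mul_le_mul_of_nonneg_left hg (by positivity)) ?_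
  have h7 : 4 * G * c ^ 2 * t ^ 2 * A0 ^ 2 * ∑ j ∈ Finset.range J, ((2 : ℝ) / 3) ^ j ≤
      4 * G * c ^ 2 * t ^ 2 * A0 ^ 2 * 3 := mul_le_mul_of_nonneg_left h23 (by positivity)
  linarith


end Vale.Agent.P167.H562.QM
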