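import Vale.Agent.P167.H562.Q.SM3

/-!
# P167, general `q`, block Q-MAJ: the moment bounds for general zones

`lin_UA`, `quad_UA`: the bounds `lin_U`, `quad_U` under the hypothesis that the conditioning is outside of
the `32 κ ρ`-neighbourhood of the set `A` (and not of a ball which contains `A`). `macro_UA`: the same for
the large segments which come near a set `A`.
-/

namespace Vale.Agent.P167.H562.QM

open Finset Filter Topology MeasureTheory Vale.Agent.P167.FK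
open Vale.Agent.P167.FKA (Loc Ind ArmDec)
open Vale.Agent.P167.H519 (IsLim loc_cont Bq_mono exists_Bq)
open Vale.Agent.P167.H45 (gp BL BL_fin zz zz_box small_box bs_le grid_fin nm_le nm_sub_le cl BL_measR
  nm_sub_comm)
open Vale.Agent.P167.H166 (bxx mem_bxx)
open Vale.Agent.P167.H259 (f_markov)
open Vale.Agent.P167.H562.GL Vale.Agent.P167.H562.SML Vale.Agent.P167.H945

/-- The super-boxes which matter, with a localisation near the set `A`. -/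
theorem grid_superB {R κ ρ : ℝ} (hR : 0 ≤ R) (hκ : 0 < κ) (hρ : 1 ≤ ρ) (x : ℤ × ℤ)
    (A : Finset (ℤ × ℤ)) (hA : ∀ v ∈ A, (nm (v - x) : ℝ) ≤ R * ρ) :
    ∃ W : ℕ → Finset (ℤ × ℤ), ∀ j : ℕ, 1 ≤ κ * ρ / 2 ^ j →
      ((W j).card : ℝ) ≤ bes R κ * 2 ^ j ∧
      (∀ ω, ∀ ℓ ∈ smf A (κ * ρ) ω, ∃ w ∈ W j, zz ⌈κ * ρ / 2 ^ j⌉ ℓ ∈ sS j w) ∧
      ∀ w ∈ W j, ∀ v ∈ sU ⌈κ * ρ / 2 ^ j⌉ j w, ∃ u ∈ A, (nm (v - u) : ℝ) ≤ 32 * κ * ρ := by
  classical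
  obtain ⟨W, hW⟩ := grid_superA hR hκ hρ x A hA
  refine ⟨fun j => (W j).filter (fun w => ∃ ω : Cfg, ∃ ℓ ∈ smf A (κ * ρ) ω,
    zz ⌈κ * ρ / 2 ^ j⌉ ℓ ∈ sS j w), fun j hj => ⟨?_, ?_, ?_⟩⟩
  · exact le_trans (Nat.cast_le.2 (card_filter_le _ _)) (hW j hj).1
  · intro ω ℓ hℓ
    obtain ⟨w, hw, h⟩ := (hW j hj).2.1 ω ℓ hℓ
    exact ⟨w, mem_filter.2 ⟨hw, ω, ℓ, hℓ, h⟩, h⟩
  · intro w hw v hv
    obtain ⟨-, ω, ℓ, hℓ, hz⟩ := mem_filter.1 hw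
    rw [mem_smf] at hℓ
    obtain ⟨g1, ⟨u, hu, g2⟩, g3⟩ := hℓ
    have hρ0 : 0 < ρ := by linarith
    have hκρ : 0 < κ * ρ := by positivity
    have h2j : (1 : ℝ) ≤ 2 ^ j := one_le_pow₀ (by norm_num)
    set y : ℝ := κ * ρ / 2 ^ j with hy
    have hyκ : y ≤ κ * ρ := div_le_self hκρ.le h2j
    set L : ℤ := ⌈y⌉ with hL
    have hL1 : 1 ≤ L := Int.one_le_ceil_iff.2 (by linarith)
    have hLy : (L : ℝ) ≤ 2 * y := by
      have := Int.ceil_lt_add_one y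
      rw [← hL] at this
      linarith
    have hN := sN_pos j
    have hLN : 1 ≤ L * sN j := by nlinarith
    -- the side
    set D : ℝ := 2 ^ (j / 2) with hD
    have hD0 : 0 < D := by positivity
    have hD1 : D ≤ 2 ^ j := pow_le_pow_right₀ (by norm_num) (Nat.div_le_self _ _)
    have hsN : (sN j : ℝ) = 4 * D := by unfold sN; push_cast; rfl
    have h4 : ((L * sN j : ℤ) : ℝ) ≤ 8 * (κ * ρ) := by
      push_cast
      rw [hsN]
      have h5 : (L : ℝ) * (4 * D) ≤ 2 * y * (4 * D) :=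
        mul_le_mul_of_nonneg_right hLy (by positivity)
      have h6 : y * D ≤ κ * ρ := by
        rw [hy, div_mul_eq_mul_div, div_le_iff₀ (by positivity)]
        exact mul_le_mul_of_nonneg_left hD1 hκρ.le
      nlinarith
    -- the point of the grid
    have hw1 : w = zz (L * sN j) ℓ := by
      rw [mem_sS] at hz
      rw [hz]
      simp only [zz]
      rw [Int.ediv_ediv_of_nonneg (by omega), Int.ediv_ediv_of_nonneg (by omega)]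
    obtain ⟨b1, b2, b3, b4⟩ := zz_box (by omega : 0 < L * sN j) ℓ
    rw [← hw1] at b1 b2 b3 b4
    obtain ⟨c1, c2⟩ := small_box g3 hu
    obtain ⟨e1, e2⟩ := bs_le hu
    have c1' : u.1 - (H45.bs ℓ).1 < ⌈κ * ρ⌉ := Int.lt_ceil.2 c1
    have c2' : u.2 - (H45.bs ℓ).2 < ⌈κ * ρ⌉ := Int.lt_ceil.2 c2
    have h1 : nm (v - gp (L * sN j) w) ≤ 2 * (L * sN j) := by
      unfold sU at hv
      rw [Finset.mem_product, Finset.mem_Ico, Finset.mem_Ico] at hv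
      rw [nm_le]
      simp only [gp, Prod.fst_sub, Prod.snd_sub, abs_le]
      obtain ⟨⟨k1, k2⟩, k3, k4⟩ := hv
      refine ⟨⟨?_, ?_⟩, ?_, ?_⟩ <;> nlinarith
    have h2 : nm (gp (L * sN j) w - u) ≤ L * sN j + ⌈κ * ρ⌉ := by
      rw [nm_le]
      simp only [gp, Prod.fst_sub, Prod.snd_sub, abs_le]
      refine ⟨⟨?_, ?_⟩, ?_, ?_⟩ <;> linarith
    have h3 : nm (v - u) ≤ 2 * (L * sN j) + (L * sN j + ⌈κ * ρ⌉) :=
      (nm_sub_le _ _ _).trans (add_le_add h1 h2)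
    refine ⟨u, g2, ?_⟩
    have h5 : (nm (v - u) : ℝ) ≤ 3 * ((L * sN j : ℤ) : ℝ) + ⌈κ * ρ⌉ := by
      have : (nm (v - u) : ℝ) ≤ ((2 * (L * sN j) + (L * sN j + ⌈κ * ρ⌉) : ℤ) : ℝ) := by
        exact_mod_cast h3
      refine this.trans (le_of_eq ?_)
      push_cast
      ring
    have h6 := Int.ceil_lt_add_one (κ * ρ)
    have h7 : (1 : ℝ) ≤ κ * ρ := by linarith
    linarith

theorem Ig_specB {R κ ρ : ℝ} {A : Finset (ℤ × ℤ)} {W : ℕ → Finset (ℤ × ℤ)}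
    (hW : ∀ j : ℕ, 1 ≤ κ * ρ / 2 ^ j → ((W j).card : ℝ) ≤ bes R κ * 2 ^ j ∧
      (∀ ω, ∀ ℓ ∈ smf A (κ * ρ) ω, ∃ w ∈ W j, zz ⌈κ * ρ / 2 ^ j⌉ ℓ ∈ sS j w)) :
    ∀ j : ℕ, 1 ≤ κ * ρ / 2 ^ j →
      ((((W j).biUnion (sS j)).card : ℕ) : ℝ) ≤ 16 * bes R κ * 4 ^ j ∧
      ∀ ω, ∀ ℓ ∈ smf A (κ * ρ) ω, zz ⌈κ * ρ / 2 ^ j⌉ ℓ ∈ (W j).biUnion (sS j) := by
  intro j hj
  obtain ⟨h1, h2⟩ := hW j hj
  have hbes : 0 ≤ bes R κ := by unfold bes; positivity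
  refine ⟨?_, fun ω ℓ hℓ => mem_biUnion.2 (h2 ω ℓ hℓ)⟩
  have h3 : ((W j).biUnion (sS j)).card ≤ (W j).card * sn j := by
    refine card_biUnion_le.trans ?_
    rw [sum_congr rfl fun w _ => sS_card j w, sum_const, smul_eq_mul]
  have h4 : ((((W j).biUnion (sS j)).card : ℕ) : ℝ) ≤ (W j).card * sn j := by exact_mod_cast h3
  refine h4.trans ?_
  have h5 := four_half j
  have h6 : (sn j : ℝ) = 16 * 4 ^ (j / 2) := by unfold sn; push_cast; rfl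
  rw [h6]
  have h7 : (4 : ℝ) ^ j = 2 ^ j * 2 ^ j := by rw [← mul_pow]; norm_num
  calc ((W j).card : ℝ) * (16 * 4 ^ (j / 2)) ≤ (bes R κ * 2 ^ j) * (16 * 2 ^ j) := by
        refine mul_le_mul h1 (by linarith) (by positivity) (by positivity)
    _ = _ := by rw [h7]; ring

/-- **Linear statistics of the small loops, conditioned measures.** -/
theorem lin_UA {Q : ℝ} (hQ : 1 ≤ Q) {al Ca : ℝ} (hal : 0 < al) (hCa : 0 < Ca)
    (hA : ArmDec Q al Ca) {P : Measure Cfg} (hP : IsLim Q P) (hX : CrossP P) {R κ : ℝ} (T : ℝ)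
    (hR : 0 ≤ R) (hκ : 0 < κ) : ∃ C : ℝ, 0 ≤ C ∧
    ∀ ρ : ℝ, 1 ≤ ρ → ∀ (x : ℤ × ℤ) (A : Finset (ℤ × ℤ)), (∀ v ∈ A, (nm (v - x) : ℝ) ≤ R * ρ) →
    ∀ (U : Finset (ℤ × ℤ)) (N : Measure Cfg), (∀ u ∈ A, ∀ v, (nm (v - u) : ℝ) ≤ 32 * κ * ρ → v ∈ U) →
    Nu P N U → ∀ (φ : Finset Ed → ℝ) (α : ℝ), 0 < α → Bd κ ρ α φ → ∀ t : ℝ, |t| * α ≤ T →
      Em N (fun ω => t * (∑ ℓ ∈ smf A (κ * ρ) ω, φ ℓ -
        ∫ ω', ∑ ℓ ∈ smf A (κ * ρ) ω', φ ℓ ∂P)) ≤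
        ENNReal.ofReal (Real.exp (C * (α * |t| + α ^ 2 * t ^ 2))) := by
  classical
  have hPp : IsProbabilityMeasure P := hP.1
  set s1 : ℝ := 4 * (9 : ℕ) * (16 * κ ^ 2) * |T| with hs1
  have hs0 : 0 ≤ s1 := by positivity
  obtain ⟨C, hC⟩ := large_genU hX s_con s_two (1 / 8) (s1 + 1) (by norm_num)
  set M : ℝ := Real.log (max C 1) with hM
  have hM0 : 0 ≤ M := Real.log_nonneg (le_max_right _ _)
  have heM : Real.exp M = max C 1 := Real.exp_log (by positivity)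
  -- mixing rate
  set x0 : ℝ := Real.sqrt ((1 / 2) ^ al) with hx
  have hx0 : 0 < x0 := Real.sqrt_pos.2 (by positivity)
  have hxx : x0 ^ 2 = (1 / 2) ^ al := Real.sq_sqrt (by positivity)
  have hx1 : x0 < 1 := by
    have h1 : ((1 : ℝ) / 2) ^ al < 1 := Real.rpow_lt_one (by norm_num) (by norm_num) hal
    rw [← hxx] at h1
    nlinarith
  set C1 : ℝ := Real.sqrt (2 * Ca) with hC1
  have hC10 : 0 < C1 := Real.sqrt_pos.2 (by positivity)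
  have hC11 : C1 ^ 2 = 2 * Ca := Real.sq_sqrt (by positivity)
  set b0 : ℝ := 16 * κ ^ 2 * (C1 * (2 + 4 * Real.exp M)) with hb0
  have hb00 : 0 ≤ b0 := by positivity
  set Gc : ℝ := 2 * Real.exp M * Real.exp ((s1 + 1) * Real.exp M) with hGc
  have hGc0 : 0 ≤ Gc := by positivity
  have hx2 : 0 ≤ 2 / (1 - x0) := div_nonneg (by norm_num) (by linarith)
  have hbes : 0 ≤ bes R κ := by unfold bes; positivity
  refine ⟨bes R κ * (((9 : ℕ) : ℝ) * b0 * (2 / (1 - x0)) +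
    12 * Gc * (9 : ℕ) ^ 2 * (16 * κ ^ 2) ^ 2), by positivity,
    fun ρ hρ x A hAx U N hU hN φ a0 ha0 hφ t ht => ?_⟩
  have hNp : IsProbabilityMeasure N := hN.prob
  set α : ℝ := a0 * κ ^ 2 with hα
  have hα0 : 0 < α := by positivity
  have hρ0 : 0 < ρ := by linarith
  obtain ⟨W, hW⟩ := grid_superB hR hκ hρ x A hAx
  -- number of scales
  obtain ⟨J, hJ, hJ'⟩ := exists_J hκ hρ
  set Lj : ℕ → ℤ := fun j => ⌈κ * ρ / 2 ^ j⌉ with hLj
  have hL1 : ∀ j < J, 1 ≤ Lj j := fun j hj =>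
    Int.one_le_ceil_iff.2 (by linarith [hJ' j hj])
  have hUs : ∀ j < J, ∀ w ∈ W j, sU (Lj j) j w ⊆ U := fun j hj w hw v hv => by
    obtain ⟨u, hu, h⟩ := (hW j (hJ' j hj)).2.2 w hw v hv
    exact hU u hu v h
  have hXl : ∀ j < J, ∀ w ∈ W j, ∀ z ∈ sS j w,
      Loc (Bq (gp (Lj j) z) (2 * Lj j)) (YY A (κ * ρ) φ j z) := by
    intro j hj w _ z _ ω ω' hω
    refine YY_loc hJ φ j z ω ω' fun v hv => hω v ?_
    obtain ⟨h1, h2, h3, h4⟩ := hv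
    have := hL1 j hj
    simp only [Bq, gp, Finset.mem_product, Finset.mem_Ico]
    simp only [hLj] at this ⊢
    refine ⟨⟨?_, ?_⟩, ?_, ?_⟩ <;> linarith
  have hXK : ∀ j < J, ∀ w ∈ W j, ∀ z ∈ sS j w, ∀ ω, |YY A (κ * ρ) φ j z ω| ≤
      α * (1 / 4) ^ j * ((BL (gp (Lj j) z) (2 * (Lj j : ℝ)) (1 / 8 * (2 * (Lj j : ℝ))) ω).ncard :
        ℝ) := fun j hj w _ z _ ω =>
    YY_le hJ (hJ' j hj) z ω (by positivity) (fun ℓ h1 h2 => hφ.at hκ hρ j h1 h2)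
  have hMK : ∀ j < J, ∀ w ∈ W j, ∀ z ∈ sS j w, ∀ ν, Nu P ν (sU (Lj j) j w) →
      Em ν (fun ω => (s1 + 1) * ((BL (gp (Lj j) z) (2 * (Lj j : ℝ))
        (1 / 8 * (2 * (Lj j : ℝ))) ω).ncard : ℝ)) ≤ ENNReal.ofReal (Real.exp M) := by
    intro j hj w _ z hz ν hν
    have h1 : (1 : ℝ) ≤ Lj j := by exact_mod_cast hL1 j hj
    rw [heM]
    exact (hC ν _ hν (gp (Lj j) z) (2 * (Lj j : ℝ)) (by linarith)
      (fun v hv => near_sub_sU (hL1 j hj) hz hv)).trans (ENNReal.ofReal_le_ofReal (le_max_left _ _))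
  set b : ℕ → ℝ := fun j => α * (1 / 4) ^ j * (C1 * x0 ^ (j / 2)) * (2 + 4 * Real.exp M) with hb
  have hbias : ∀ j < J, ∀ w ∈ W j, ∀ z ∈ sS j w, ∀ ν, Nu P ν (sU (Lj j) j w) →
      |∫ ω, YY A (κ * ρ) φ j z ω ∂ν - ∫ ω, YY A (κ * ρ) φ j z ω ∂P| ≤ b j := by
    intro j hj w hw z hz ν hν
    have hνp := hν.prob
    have hmono : ∀ η : Measure Cfg, Em η (fun ω => (s1 + 1) * ((BL (gp (Lj j) z)
        (2 * (Lj j : ℝ)) (1 / 8 * (2 * (Lj j : ℝ))) ω).ncard : ℝ)) ≤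
          ENNReal.ofReal (Real.exp M) → Em η (fun ω => ((BL (gp (Lj j) z)
        (2 * (Lj j : ℝ)) (1 / 8 * (2 * (Lj j : ℝ))) ω).ncard : ℝ)) ≤
          ENNReal.ofReal (Real.exp M) := by
      intro η h
      refine (Em_mono fun ω => ?_).trans h
      have : (0 : ℝ) ≤ ((BL (gp (Lj j) z) (2 * (Lj j : ℝ))
        (1 / 8 * (2 * (Lj j : ℝ))) ω).ncard : ℝ) := by positivity
      nlinarith
    refine bias (hXl j hj w hw z hz) (H45.BL_measR _ _ _) (fun ω => by positivity)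
      (by positivity) (Real.exp_pos M).le (by positivity) (hXK j hj w hw z hz)
      (hmono ν (hMK j hj w hw z hz ν hν)) (hmono P (hMK j hj w hw z hz P (nu_self _)))
      fun F hF0 hF1 hF => ?_
    have hNj := sN_pos j
    have hLpos := hL1 j hj
    refine (nu_mix hQ hA hP (x := gp (Lj j) z) (r := 2 * Lj j) (R := sN j * Lj j) (by omega)
      (by nlinarith) (Bq_sub_sU (hL1 j hj) hz) hν (Finset.Subset.refl _) hF0 hF1 hF).trans ?_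
    have hLR : (0 : ℝ) < Lj j := by exact_mod_cast (by omega : 0 < Lj j)
    have e1 : ((2 * Lj j : ℤ) : ℝ) / ((sN j * Lj j : ℤ) : ℝ) = (1 / 2) * (1 / 2) ^ (j / 2) := by
      unfold sN
      push_cast
      rw [one_div, inv_pow]
      field_simp
      norm_num
    rw [e1, Real.mul_rpow (by norm_num) (by positivity), mul_pow, hC11]
    have e2 : (((1 : ℝ) / 2) ^ (j / 2)) ^ al = (x0 ^ (j / 2)) ^ 2 := by
      rw [← pow_mul, mul_comm, pow_mul, hxx, ← Real.rpow_natCast, ← Real.rpow_mul (by norm_num),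
        ← Real.rpow_natCast, ← Real.rpow_mul (by norm_num), mul_comm]
    rw [e2]
    have h3 : ((1 : ℝ) / 2) ^ al ≤ 1 := Real.rpow_le_one (by norm_num) (by norm_num) hal.le
    have h4 : 0 ≤ (x0 ^ (j / 2)) ^ 2 := by positivity
    have h5 : ((1 : ℝ) / 2) ^ al * (x0 ^ (j / 2)) ^ 2 ≤ 1 * (x0 ^ (j / 2)) ^ 2 :=
      mul_le_mul_of_nonneg_right h3 h4
    nlinarith
  have hna : ∀ j < J, (sn j : ℝ) * (α * (1 / 4) ^ j) ≤ 16 * α * (1 / 2) ^ j := by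
    intro j _
    have h1 := four_half j
    have e1 : ((1 : ℝ) / 4) ^ j = (1 / 2) ^ j * (1 / 2) ^ j := by rw [← mul_pow]; norm_num
    have e2 : (2 : ℝ) ^ j * (1 / 2) ^ j = 1 := by rw [← mul_pow]; norm_num
    unfold sn
    push_cast
    rw [e1]
    have h2 : (0 : ℝ) < (1 / 2) ^ j := by positivity
    have h3 : (4 : ℝ) ^ (j / 2) * (1 / 2) ^ j ≤ 1 :=
      (mul_le_mul_of_nonneg_right h1 h2.le).trans e2.le
    calc 16 * (4 : ℝ) ^ (j / 2) * (α * ((1 / 2) ^ j * (1 / 2) ^ j))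
        = 16 * α * (1 / 2) ^ j * ((4 : ℝ) ^ (j / 2) * (1 / 2) ^ j) := by ring
      _ ≤ 16 * α * (1 / 2) ^ j * 1 := mul_le_mul_of_nonneg_left h3 (by positivity)
      _ = _ := by ring
  have hmain := multiU (P := P) (N := N) J 9 (by norm_num) W code3 sS
    (X := fun j z ω => YY A (κ * ρ) φ j z ω)
    (K := fun j z ω => ((BL (gp (Lj j) z) (2 * (Lj j : ℝ)) (1 / 8 * (2 * (Lj j : ℝ))) ω).ncard : ℝ))
    (A := fun j z => Bq (gp (Lj j) z) (2 * Lj j)) (U := fun j w => sU (Lj j) j w)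
    hXl (fun j _ w _ z _ => H45.BL_measR _ _ _) (fun j _ w _ z _ ω => by positivity)
    (fun j hj w _ w' _ hne hcol z hz => by
      refine Finset.disjoint_of_subset_left ?_ (sU_disj (hL1 j hj) hne hcol)
      refine Finset.Subset.trans ?_ (Bq_sub_sU (hL1 j hj) hz)
      have hNj := sN_pos j
      have hLpos := hL1 j hj
      have h1 : 2 * Lj j ≤ sN j * Lj j := by nlinarith
      intro v hv
      simp only [Bq, Finset.mem_product, Finset.mem_Ico] at hv ⊢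
      refine ⟨⟨?_, ?_⟩, ?_, ?_⟩ <;> linarith [hv.1.1, hv.1.2, hv.2.1, hv.2.2])
    (s := s1) (M := M) (A0 := 16 * α) (B0 := a0 * b0) (β := bes R κ) (Γ := 2 / (1 - x0)) (t := t)
    (a := fun j => α * (1 / 4) ^ j) (b := b) (g := fun j => x0 ^ (j / 2)) (n := sn)
    hs0 hM0 (fun j => by unfold sn; positivity) (fun j _ w _ => (sS_card j w).le)
    (fun j => by simp only [hb]; positivity) (fun j => by positivity) (by positivity)
    (by positivity) hbes (fun j => by positivity) hXK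
    (fun j hj w hw z hz ν hν => hMK j hj w hw z hz ν (nu_trans hN hν (hUs j hj w hw)))
    (fun j hj w hw z hz ν hν => hbias j hj w hw z hz ν (nu_trans hN hν (hUs j hj w hw))) hna
    (fun j hj => by
      have h1 := hna j hj
      simp only [hb, hb0]
      have h2 : 0 ≤ C1 * x0 ^ (j / 2) * (2 + 4 * Real.exp M) := by positivity
      have h3 := mul_le_mul_of_nonneg_right h1 h2
      rw [hα] at h3
      nlinarith)
    (fun j hj => (hW j (hJ' j hj)).1) (geom_two hx0.le hx1 J)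
    (by
      rw [hs1]
      have h1 : |t| * a0 ≤ |T| := ht.trans (le_abs_self _)
      have h2 := mul_le_mul_of_nonneg_left h1 (by positivity : 0 ≤ 4 * ((9 : ℕ) : ℝ) * (16 * κ ^ 2))
      calc 4 * ((9 : ℕ) : ℝ) * (16 * α) * |t| = 4 * ((9 : ℕ) : ℝ) * (16 * κ ^ 2) * (|t| * a0) := by
            rw [hα]; ring
        _ ≤ _ := h2)
  have hint : ∀ j < J, ∀ w ∈ W j, ∀ z ∈ sS j w,
      Integrable (fun ω => YY A (κ * ρ) φ j z ω) P :=
    fun j hj w hw z hz => loc_integrable (hXl j hj w hw z hz)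
  have hdec : ∀ ω, ∑ ℓ ∈ smf A (κ * ρ) ω, φ ℓ = ∑ j ∈ Finset.range J, ∑ w ∈ W j,
      ∑ z ∈ sS j w, YY A (κ * ρ) φ j z ω := by
    intro ω
    rw [SML.decomp hJ hJ' (Ig := fun j => (W j).biUnion (sS j)) (fun j hj ω ℓ hℓ => by
      obtain ⟨w, hw, hz⟩ := (hW j hj).2.1 ω ℓ hℓ
      exact Finset.mem_biUnion.2 ⟨w, hw, hz⟩) φ ω]
    refine Finset.sum_congr rfl fun j _ => ?_
    rw [Finset.sum_biUnion]
    intro w _ w' _ hne
    exact sS_disj hne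
  have heq : (fun ω => t * (∑ ℓ ∈ smf A (κ * ρ) ω, φ ℓ -
      ∫ ω', ∑ ℓ ∈ smf A (κ * ρ) ω', φ ℓ ∂P)) =
      fun ω => t * ∑ j ∈ Finset.range J, ∑ w ∈ W j, ∑ z ∈ sS j w,
        (YY A (κ * ρ) φ j z ω - ∫ x, YY A (κ * ρ) φ j z x ∂P) :=
    funext fun ω => congrArg (t * ·) (sum_center hint hdec ω)
  rw [heq]
  refine hmain.trans (ENNReal.ofReal_le_ofReal (Real.exp_le_exp.2 ?_))
  exact ar_end hbes (Nat.cast_nonneg _) hb00 hGc0 ha0.le hx2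

/-- **Quadratic statistics of the small loops.** -/
theorem quad_UA {P : Measure Cfg} (hX : CrossP P) {R κ : ℝ} (T : ℝ) (hR : 0 ≤ R) (hκ : 0 < κ) :
    ∃ C : ℝ, 0 ≤ C ∧
    ∀ ρ : ℝ, 1 ≤ ρ → ∀ (x : ℤ × ℤ) (A : Finset (ℤ × ℤ)), (∀ v ∈ A, (nm (v - x) : ℝ) ≤ R * ρ) →
    ∀ (U : Finset (ℤ × ℤ)) (N : Measure Cfg), (∀ u ∈ A, ∀ v, (nm (v - u) : ℝ) ≤ 32 * κ * ρ → v ∈ U) →
    Nu P N U → ∀ (φ : Finset Ed → ℝ) (α : ℝ), 0 ≤ α → Bd κ ρ α φ →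
    ∀ lam : ℝ, 0 ≤ lam → lam * α ^ 2 ≤ T →
      Em N (fun ω => lam * ∑ ℓ ∈ smf A (κ * ρ) ω, (φ ℓ) ^ 2) ≤
        ENNReal.ofReal (Real.exp (C * (lam * α ^ 2))) := by
  classical
  set T' : ℝ := |T| + 1 with hT'
  have hT0 : 0 < T' := by positivity
  set β : ℝ := 16 * bes R κ + 1 with hβ
  have hbes : 0 ≤ bes R κ := by unfold bes; positivity
  have hβ0 : 0 < β := by linarith
  obtain ⟨C, hC⟩ := large_genU hX s_con s_two (1 / 8) (2 * β * T' * (κ ^ 2) ^ 2) (by norm_num)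
  set M : ℝ := max C 1 with hM
  have hM1 : 1 ≤ M := le_max_right _ _
  have hlogM : 0 ≤ Real.log M := Real.log_nonneg hM1
  refine ⟨Real.log M / T', by positivity, fun ρ hρ x A hA U N hU hN φ α hα0 hφ lam hlam0 hlam => ?_⟩
  have hNp : IsProbabilityMeasure N := hN.prob
  have hρ0 : 0 < ρ := by linarith
  obtain ⟨W, hW⟩ := grid_superB hR hκ hρ x A hA
  set Ig : ℕ → Finset (ℤ × ℤ) := fun j => (W j).biUnion (sS j) with hIgd
  have hIg := Ig_specB (κ := κ) (ρ := ρ) (A := A) (R := R) fun j hj => ⟨(hW j hj).1, (hW j hj).2.1⟩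
  obtain ⟨J, hJ, hJ'⟩ := exists_J hκ hρ
  set u : ℝ := lam * α ^ 2 with hu
  have hu0 : 0 ≤ u := by positivity
  have huT : u ≤ T' := by rw [hT']; linarith [le_abs_self T]
  -- bound of the square
  have hGb : ∀ j : ℕ, ∀ ω ℓ, IsLoop ω ℓ → Small (κ * ρ / 2 ^ j) ℓ →
      |(φ ℓ) ^ 2| ≤ (α * κ ^ 2 * (1 / 4) ^ j) ^ 2 := by
    intro j ω ℓ h1 h2
    rw [abs_of_nonneg (sq_nonneg _), ← sq_abs (φ ℓ)]
    exact pow_le_pow_left₀ (abs_nonneg _) (hφ.at hκ hρ j h1 h2) 2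
  rcases hu0.eq_or_lt with hu1 | hu1
  · -- everything vanishes
    have h0 : ∀ ω, lam * ∑ ℓ ∈ smf A (κ * ρ) ω, (φ ℓ) ^ 2 ≤ 0 := by
      intro ω
      rw [Finset.mul_sum]
      refine Finset.sum_nonpos fun ℓ hℓ => ?_
      rw [mem_smf] at hℓ
      have h1 := hGb 0 ω ℓ hℓ.1 (by simpa using hℓ.2.2)
      rw [abs_of_nonneg (sq_nonneg _)] at h1
      calc lam * (φ ℓ) ^ 2 ≤ lam * (α * κ ^ 2 * (1 / 4) ^ 0) ^ 2 :=
            mul_le_mul_of_nonneg_left h1 hlam0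
        _ = u * (κ ^ 2) ^ 2 := by rw [hu]; ring
        _ = 0 := by rw [← hu1]; ring
    refine (Em_mono h0).trans ?_
    unfold Em
    rw [← hu1]
    simp
  let K : ℕ → ℤ × ℤ → Cfg → ℝ := fun j z ω => ((BL (gp ⌈κ * ρ / 2 ^ j⌉ z)
    (2 * (⌈κ * ρ / 2 ^ j⌉ : ℝ)) (1 / 8 * (2 * (⌈κ * ρ / 2 ^ j⌉ : ℝ))) ω).ncard : ℝ)
  have hKm : ∀ j z, Measurable (K j z) := fun j z => BL_measR _ _ _
  let I : Finset (Σ _ : ℕ, ℤ × ℤ) := (Finset.range J).sigma Ig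
  let θ : (Σ _ : ℕ, ℤ × ℤ) → ℝ := fun p => (1 / 2) ^ (p.1 + 1) * (1 / 4) ^ p.1 / β * (u / T')
  have hθ : ∀ p, 0 < θ p := fun p => by positivity
  have hsum : ∑ p ∈ I, θ p ≤ u / T' := by
    rw [Finset.sum_sigma]
    calc ∑ j ∈ Finset.range J, ∑ z ∈ Ig j, θ ⟨j, z⟩
        ≤ ∑ j ∈ Finset.range J, ((1 : ℝ) / 2) ^ (j + 1) * (u / T') := by
          refine Finset.sum_le_sum fun j hj => ?_
          simp only [θ, Finset.sum_const, nsmul_eq_mul]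
          have h1 := (hIg j (hJ' j (Finset.mem_range.1 hj))).1
          have h2 : ((Ig j).card : ℝ) ≤ β * 4 ^ j := h1.trans
            (mul_le_mul_of_nonneg_right (by linarith) (by positivity))
          calc ((Ig j).card : ℝ) * ((1 / 2) ^ (j + 1) * (1 / 4) ^ j / β * (u / T'))
              ≤ (β * 4 ^ j) * ((1 / 2) ^ (j + 1) * (1 / 4) ^ j / β * (u / T')) :=
                mul_le_mul_of_nonneg_right h2 (by positivity)
            _ = (1 / 2) ^ (j + 1) * ((4 : ℝ) ^ j * (1 / 4) ^ j) * (u / T') := by field_simp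
            _ = (1 / 2) ^ (j + 1) * (u / T') := by rw [← mul_pow]; norm_num
      _ ≤ 1 * (u / T') := by
          rw [← Finset.sum_mul]
          exact mul_le_mul_of_nonneg_right (geom_half J) (by positivity)
      _ = u / T' := one_mul _
  have hsum1 : ∑ p ∈ I, θ p ≤ 1 := hsum.trans ((div_le_one hT0).2 huT)
  have hB : ∀ p ∈ I, Em N (fun ω => (θ p)⁻¹ *
      (lam * ((α * κ ^ 2 * (1 / 4) ^ p.1) ^ 2 * K p.1 p.2 ω))) ≤
      ENNReal.ofReal (Real.exp (Real.log M)) := by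
    rintro ⟨j, z⟩ hp
    have hj : j < J := Finset.mem_range.1 (Finset.mem_sigma.1 hp).1
    have h1 : (1 : ℝ) ≤ ⌈κ * ρ / 2 ^ j⌉ := (hJ' j hj).trans (Int.le_ceil _)
    obtain ⟨w, hw, hz⟩ := mem_biUnion.1 (Finset.mem_sigma.1 hp).2
    have hL1 : (1 : ℤ) ≤ ⌈κ * ρ / 2 ^ j⌉ := by exact_mod_cast h1
    have h2 := hC N U hN (gp ⌈κ * ρ / 2 ^ j⌉ z) (2 * (⌈κ * ρ / 2 ^ j⌉ : ℝ)) (by linarith)
      (fun v hv => by
        obtain ⟨u, hu, h⟩ := (hW j (hJ' j hj)).2.2 w hw v (near_sub_sU hL1 hz hv)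
        exact hU u hu v h)
    rw [Real.exp_log (by linarith)]
    refine le_trans (Em_mono fun ω => ?_) (h2.trans (ENNReal.ofReal_le_ofReal (le_max_left _ _)))
    have hK0 : 0 ≤ K j z ω := by simp only [K]; positivity
    have e1 : (θ ⟨j, z⟩)⁻¹ * (lam * ((α * κ ^ 2 * (1 / 4) ^ j) ^ 2 * K j z ω)) =
        (2 * β * T' * (κ ^ 2) ^ 2) * ((1 / 2) ^ j * K j z ω) := by
      simp only [θ]
      have e2 : ((1 : ℝ) / 4) ^ j = (1 / 2) ^ j * (1 / 2) ^ j := by rw [← mul_pow]; norm_num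
      have e3 : ((1 : ℝ) / 2) ^ j ≠ 0 := by positivity
      have e4 : lam * ((α * κ ^ 2 * (1 / 4) ^ j) ^ 2 * K j z ω) =
          u * ((κ ^ 2 * (1 / 4) ^ j) ^ 2 * K j z ω) := by rw [hu]; ring
      rw [e4, e2, pow_succ]
      field_simp
    show (θ ⟨j, z⟩)⁻¹ * (lam * ((α * κ ^ 2 * (1 / 4) ^ j) ^ 2 * K j z ω)) ≤ _
    rw [e1]
    have h3 : ((1 : ℝ) / 2) ^ j * K j z ω ≤ 1 * K j z ω :=
      mul_le_mul_of_nonneg_right (pow_le_one₀ (by norm_num) (by norm_num)) hK0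
    rw [one_mul] at h3
    exact mul_le_mul_of_nonneg_left h3 (by positivity)
  have hfin := Em_holder (μ := N) I
    (Y := fun p ω => lam * ((α * κ ^ 2 * (1 / 4) ^ p.1) ^ 2 * K p.1 p.2 ω))
    (fun p _ => ((hKm p.1 p.2).const_mul _).const_mul _) (fun p _ => hθ p) hsum1 hB
  have hle : ∀ ω, lam * ∑ ℓ ∈ smf A (κ * ρ) ω, (φ ℓ) ^ 2 ≤
      ∑ p ∈ I, lam * ((α * κ ^ 2 * (1 / 4) ^ p.1) ^ 2 * K p.1 p.2 ω) := by
    intro ω
    rw [SML.decomp hJ hJ' (fun j hj => (hIg j hj).2) (fun ℓ => (φ ℓ) ^ 2) ω, ← Finset.mul_sum,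
      Finset.sum_sigma]
    refine mul_le_mul_of_nonneg_left (Finset.sum_le_sum fun j hj => Finset.sum_le_sum fun z _ => ?_)
      hlam0
    exact (le_abs_self _).trans (YY_le hJ (hJ' j (Finset.mem_range.1 hj)) z ω (by positivity)
      (fun ℓ h1 h2 => hGb j ω ℓ h1 h2))
  refine (Em_mono hle).trans (hfin.trans (ENNReal.ofReal_le_ofReal (Real.exp_le_exp.2 ?_)))
  rw [← Finset.sum_mul]
  calc (∑ p ∈ I, θ p) * Real.log M ≤ u / T' * Real.log M :=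
        mul_le_mul_of_nonneg_right hsum hlogM
    _ = Real.log M / T' * u := by ring



/-! ### Segments -/

/-- `N` bounds every finite family of pairwise disjoint segments of diameter at least `d` which
visit the set `A`. -/
def MajA (A : Finset (ℤ × ℤ)) (d : ℝ) (ω : Cfg) (N : ℕ) : Prop :=
  ∀ 𝓕 : Finset (Finset Ed), (∀ γ ∈ 𝓕, IsSeg ω γ) →
    (∀ γ ∈ 𝓕, ∀ γ' ∈ 𝓕, γ ≠ γ' → Disjoint γ γ') → (∀ γ ∈ 𝓕, (∃ e ∈ γ, hdv e ∈ A) ∧
      ∃ e1 ∈ γ, ∃ e2 ∈ γ, d ≤ (nm (hdv e1 - hdv e2) : ℝ)) → 𝓕.card ≤ N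

/-- Deterministic part of the bound of the number of the macroscopic segments near a set `A`. -/
theorem macro_detA {k : ℤ} (hk : 2 ≤ k) {Z : ℤ × ℤ → ℤ → Cfg → ℕ}
    (hZ1 : ∀ x r, 1 ≤ r → ∀ ω ω' : Cfg, (∀ v, nm (v - x) ≤ k * r → ω v = ω' v) →
      Z x r ω = Z x r ω')
    (hZ2 : ∀ x r, 1 ≤ r → ∀ (ω : Cfg) (𝓕 : Finset (Finset Ed)), (∀ γ ∈ 𝓕, IsSeg ω γ) →
      (∀ γ ∈ 𝓕, ∀ γ' ∈ 𝓕, γ ≠ γ' → Disjoint γ γ') → (∀ γ ∈ 𝓕, Crs k r x γ) → 𝓕.card ≤ Z x r ω)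
    (κ R : ℝ) (m N : ℕ) (hN0 : 0 < N) (hκ : 0 < κ) (hR : 0 ≤ R) : ∃ ε D ρ0 : ℝ, 0 < ε ∧ 0 < ρ0 ∧
    ∀ ρ : ℝ, ρ0 ≤ ρ → ∀ (c : ℤ × ℤ) (A : Finset (ℤ × ℤ)), (∀ v ∈ A, (nm (v - c) : ℝ) ≤ R * ρ) →
    ∀ (x : Fin m → ℤ × ℤ), ∃ (r : ℤ) (I : Finset (ℕ × (ℤ × ℤ))),
      1 ≤ r ∧ (I.card : ℝ) ≤ D ∧ (∀ i ∈ I, i.1 = 0) ∧
      (∀ i ∈ I, ∀ v, nm (v - gp r i.2) ≤ k * r → ∃ u ∈ A, (nm (v - u) : ℝ) ≤ κ * ρ) ∧
      (∀ ω ω' : Cfg, (∀ v, (∃ u ∈ A, (nm (v - u) : ℝ) ≤ κ * ρ) →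
        (∀ i, ε * ρ < (nm (v - x i) : ℝ)) → ω v = ω' v) →
        (∑ i ∈ I, Z (gp r i.2) r ω) / N = (∑ i ∈ I, Z (gp r i.2) r ω') / N) ∧
      ∀ ω, MajA A (κ * ρ) ω ((∑ i ∈ I, Z (gp r i.2) r ω) / N) := by
  classical
  have hkR : (2 : ℝ) ≤ k := by exact_mod_cast hk
  have hNm : (1 : ℝ) ≤ ((N + 2 * m : ℕ) : ℝ) := by
    have : 1 ≤ N + 2 * m := by omega
    exact_mod_cast this
  set a : ℝ := 4 * (k + 4) * ((N + 2 * m : ℕ) : ℝ) with ha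
  have ha0 : 0 < a := by positivity
  set D : ℝ := (4 * (R + κ) * (a / κ) + 2) ^ 2 with hD
  refine ⟨κ / (2 * a), D, a / κ, by positivity, by positivity,
    fun ρ hρ c A hA x => ?_⟩
  have hρ0 : 0 < ρ := lt_of_lt_of_le (by positivity) hρ
  have hxa : 1 ≤ κ * ρ / a := by
    rw [div_le_iff₀ hκ] at hρ
    rw [one_le_div ha0]; linarith
  set r : ℤ := ⌊κ * ρ / a⌋ with hr
  have hr1 : 1 ≤ r := by rw [hr, Int.le_floor]; exact_mod_cast hxa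
  have hrle : (r : ℝ) ≤ κ * ρ / a := Int.floor_le _
  have hrge : κ * ρ / a ≤ 2 * r := by
    have := Int.lt_floor_add_one (κ * ρ / a)
    have h1 : (1 : ℝ) ≤ r := by exact_mod_cast hr1
    rw [← hr] at this
    linarith
  have hrle' : a * r ≤ κ * ρ := by
    rw [le_div_iff₀ ha0] at hrle; linarith
  have hr1' : (1 : ℝ) ≤ r := by exact_mod_cast hr1
  have hεr : κ / (2 * a) * ρ ≤ r := by
    have : κ / (2 * a) * ρ = κ * ρ / a / 2 := by field_simp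
    rw [this]; linarith
  set P1 : ℤ := ⌊(R + κ) * ρ⌋ with hP
  have hP0 : 0 ≤ P1 := by
    rw [hP]; exact Int.floor_nonneg.2 (by positivity)
  obtain ⟨J, hJ1, hJ2⟩ := grid_fin c hr1 hP0
  have hJcard : (J.card : ℝ) ≤ D := by
    have h1 : ((J.card : ℤ) : ℝ) ≤ ((2 * P1 / r + 2 : ℤ) : ℝ) ^ 2 := by exact_mod_cast hJ2
    have h3 : ((2 * P1 / r : ℤ) : ℝ) ≤ 4 * (R + κ) * (a / κ) := by
      have h4 : ((2 * P1 / r : ℤ) : ℝ) * r ≤ 2 * P1 := by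
        exact_mod_cast Int.ediv_mul_le (2 * P1) (by omega : r ≠ 0)
      have h5 : (P1 : ℝ) ≤ (R + κ) * ρ := Int.floor_le _
      have h6 : (2 * P1 : ℝ) ≤ 4 * (R + κ) * (a / κ) * r := by
        have h7 : κ * ρ ≤ 2 * r * a := by rw [div_le_iff₀ ha0] at hrge; linarith
        have h8 : ρ ≤ 2 * r * (a / κ) := by
          rw [mul_div_assoc', le_div_iff₀ hκ]; linarith
        nlinarith
      have h9 : ((2 * P1 / r : ℤ) : ℝ) * r ≤ 4 * (R + κ) * (a / κ) * r := by linarith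
      exact le_of_mul_le_mul_right h9 (by linarith)
    have h4 : (0 : ℝ) ≤ ((2 * P1 / r : ℤ) : ℝ) := by
      exact_mod_cast Int.ediv_nonneg (by omega : (0 : ℤ) ≤ 2 * P1) (by omega)
    have h5 : ((2 * P1 / r + 2 : ℤ) : ℝ) = ((2 * P1 / r : ℤ) : ℝ) + 2 := by push_cast; rfl
    rw [h5] at h1
    rw [hD]
    have h6 : ((J.card : ℤ) : ℝ) = (J.card : ℝ) := by norm_cast
    rw [h6] at h1
    refine h1.trans ?_
    exact pow_le_pow_left₀ (by linarith) (by linarith) 2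
  set J' : Finset (ℤ × ℤ) := J.filter (fun z => (∀ i, (k + 1) * r < nm (x i - gp r z)) ∧
    ∃ u ∈ A, (nm (gp r z - u) : ℝ) ≤ κ * ρ / 2) with hJ'
  set I : Finset (ℕ × (ℤ × ℤ)) := {0} ×ˢ J' with hI
  have hIcard : (I.card : ℝ) ≤ J.card := by
    rw [hI, Finset.card_product]
    simp only [Finset.card_singleton, one_mul, Nat.cast_le]
    exact Finset.card_le_card (Finset.filter_subset _ _)
  have hball : ∀ i ∈ I, ∀ v, nm (v - gp r i.2) ≤ k * r → ∃ u ∈ A, (nm (v - u) : ℝ) ≤ κ * ρ := by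
    intro i hi v hv'
    rw [hI, Finset.mem_product, hJ', Finset.mem_filter] at hi
    obtain ⟨u, hu, h3⟩ := hi.2.2.2
    refine ⟨u, hu, ?_⟩
    have h1 : nm (v - u) ≤ nm (v - gp r i.2) + nm (gp r i.2 - u) := nm_sub_le _ _ _
    have h2 : (nm (v - u) : ℝ) ≤ k * r + nm (gp r i.2 - u) := by
      have : nm (v - u) ≤ k * r + nm (gp r i.2 - u) := by linarith
      exact_mod_cast this
    have h4 : (k : ℝ) * r ≤ κ * ρ / 4 := by
      have : 4 * ((k : ℝ) * r) ≤ a * r := by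
        rw [ha]
        calc 4 * ((k : ℝ) * r) = 4 * k * 1 * r := by ring
          _ ≤ 4 * (k + 4) * ((N + 2 * m : ℕ) : ℝ) * r := by gcongr; linarith
      linarith
    have h5 : 0 < κ * ρ := by positivity
    linarith
  refine ⟨r, I, hr1, hIcard.trans hJcard, fun i hi => ?_, hball, ?_, ?_⟩
  · rw [hI, Finset.mem_product, Finset.mem_singleton] at hi
    exact hi.1
  · intro ω ω' hω
    show (∑ i ∈ I, Z (gp r i.2) r ω) / N = (∑ i ∈ I, Z (gp r i.2) r ω') / N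
    congr 1
    refine Finset.sum_congr rfl fun i hi => ?_
    refine hZ1 _ _ hr1 ω ω' fun v hv => hω v (hball i hi v hv) fun j => ?_
    rw [hI, Finset.mem_product, hJ', Finset.mem_filter] at hi
    have h1 := hi.2.2.1 j
    have h2 : nm (x j - gp r i.2) ≤ nm (x j - v) + nm (v - gp r i.2) := nm_sub_le _ _ _
    rw [nm_sub_comm (x j) v] at h2
    have h3 : r < nm (v - x j) := by linarith
    have h4 : (r : ℝ) < nm (v - x j) := by exact_mod_cast h3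
    linarith
  · intro ω 𝓕 hs hd hbig
    rw [Nat.le_div_iff_mul_le hN0, mul_comm]
    refine seg_count (k := k) I (fun i => gp r i.2) (fun _ => r) (fun i => Z (gp r i.2) r ω) hs hd
      (fun i _ 𝓖 h1 h2 h3 => hZ2 (gp r i.2) r hr1 ω 𝓖 h1 h2 h3) fun γ hγ => ?_
    obtain ⟨⟨e, he, hec⟩, e1, he1, e2, he2, h12⟩ := hbig γ hγ
    obtain ⟨q, hq, hqd⟩ : ∃ q ∈ γ, κ * ρ / 2 ≤ (nm (hdv q - hdv e) : ℝ) := by
      have h5 : (nm (hdv e1 - hdv e2) : ℝ) ≤ nm (hdv e1 - hdv e) + nm (hdv e - hdv e2) := by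
        exact_mod_cast nm_sub_le _ _ _
      rw [nm_sub_comm (hdv e) (hdv e2)] at h5
      by_cases h6 : κ * ρ / 2 ≤ (nm (hdv e1 - hdv e) : ℝ)
      · exact ⟨e1, he1, h6⟩
      · exact ⟨e2, he2, by linarith⟩
    have h11 : ((k : ℝ) + 4) * r * ((N + 2 * m : ℕ) : ℝ) ≤ κ * ρ / 4 := by
      have : a * r = 4 * (((k : ℝ) + 4) * r * ((N + 2 * m : ℕ) : ℝ)) := by rw [ha]; ring
      linarith
    have hκρ : 0 < κ * ρ := by positivity
    have h7 : (k + 4) * r * (N + 2 * m : ℕ) ≤ nm (hdv q - hdv e) := by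
      have h8 : ((k : ℝ) + 4) * r * ((N + 2 * m : ℕ) : ℝ) ≤ nm (hdv q - hdv e) := by linarith
      exact_mod_cast h8
    obtain ⟨T, hT1, hT2⟩ := seg_many (hs γ hγ) he hq (by omega) hr1 x h7
    refine ⟨T.map ⟨fun z => ((0 : ℕ), z), fun z z' hz => (Prod.ext_iff.1 hz).2⟩, ?_, ?_, ?_⟩
    · intro i hi
      rw [Finset.mem_map] at hi
      obtain ⟨z, hz, rfl⟩ := hi
      obtain ⟨-, h8, h9⟩ := hT2 z hz
      have h12 : (nm (gp r z - hdv e) : ℝ) ≤ ((k + 4) * r * ((N + 2 * m : ℕ) : ℝ) + r) := by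
        exact_mod_cast h8
      have h13 : (r : ℝ) ≤ ((k : ℝ) + 4) * r * ((N + 2 * m : ℕ) : ℝ) := by
        calc (r : ℝ) = 1 * r * 1 := by ring
          _ ≤ ((k : ℝ) + 4) * r * ((N + 2 * m : ℕ) : ℝ) := by gcongr; linarith
      have h14 : (nm (gp r z - hdv e) : ℝ) ≤ κ * ρ / 2 := by linarith
      have h15 : (nm (gp r z - c) : ℝ) ≤ nm (gp r z - hdv e) + nm (hdv e - c) := by
        exact_mod_cast nm_sub_le _ _ _
      have h16 := hA _ hec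
      rw [hI, Finset.mem_product, hJ', Finset.mem_filter]
      refine ⟨Finset.mem_singleton.2 rfl, hJ1 z ?_, h9, hdv e, hec, h14⟩
      rw [hP, Int.le_floor]
      nlinarith
    · rw [Finset.card_map]; exact hT1
    · intro i hi
      rw [Finset.mem_map] at hi
      obtain ⟨z, hz, rfl⟩ := hi
      exact (hT2 z hz).1

/-- **Macroscopic segments near a set, conditioned measures.** The number of pairwise disjoint segments
of diameter at least `κ * ρ` which visit the set `A` is bounded by a variable which does not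
depend on the squares of `m` given balls of radius `ε * ρ` and all whose exponential moments are
bounded uniformly in `ρ` and in the conditioning outside of the `κ * ρ`-neighbourhood of `A`. -/
theorem macro_UA {P : Measure Cfg} (hX : CrossSP P) (κ R s : ℝ) (m : ℕ) (hκ : 0 < κ) (hR : 0 ≤ R) :
    ∃ ε C ρ0 : ℝ, 0 < ε ∧ 0 < C ∧
    0 < ρ0 ∧ ∀ ρ : ℝ, ρ0 ≤ ρ → ∀ (c : ℤ × ℤ) (A : Finset (ℤ × ℤ)),
      (∀ v ∈ A, (nm (v - c) : ℝ) ≤ R * ρ) → ∀ (x : Fin m → ℤ × ℤ), ∃ N : Cfg → ℕ,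
      (∀ ω ω' : Cfg, (∀ v, (∃ u ∈ A, (nm (v - u) : ℝ) ≤ κ * ρ) →
        (∀ i, ε * ρ < (nm (v - x i) : ℝ)) → ω v = ω' v) → N ω = N ω') ∧
      (∀ ω, MajA A (κ * ρ) ω (N ω)) ∧
      ∀ (U : Finset (ℤ × ℤ)) (ν : Measure Cfg),
        (∀ u ∈ A, ∀ v, (nm (v - u) : ℝ) ≤ κ * ρ → v ∈ U) →
        Nu P ν U → Em ν (fun ω => s * (N ω : ℝ)) ≤ ENNReal.ofReal C := by
  classical
  obtain ⟨k, l, C0, hk, hl, hC0, h⟩ := hX
  choose! Z hZ1 hZ2 hZ3 using h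
  obtain ⟨θ, b, hθ, hb, hEm⟩ := Em_crossU hk hl hC0 hZ1
  obtain ⟨n, hn⟩ := exists_nat_ge (|s| / θ)
  have hsn : |s| ≤ θ * (n + 1 : ℕ) := by
    rw [div_le_iff₀ hθ] at hn
    push_cast
    nlinarith
  set N : ℕ := n + 1 with hN
  have hN0 : 0 < N := by omega
  obtain ⟨ε, D, ρ0, hε, hρ0, hdet⟩ := macro_detA hk hZ1 hZ2 κ R m N hN0 hκ hR
  refine ⟨ε, Real.exp (D * b), ρ0, hε, Real.exp_pos _, hρ0, fun ρ hρ c A hA x => ?_⟩
  obtain ⟨r, I, hr1, hI, hI0, hIU, h1, h2⟩ := hdet ρ hρ c A hA x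
  refine ⟨fun ω => (∑ i ∈ I, Z (gp r i.2) r ω) / N, h1, h2, fun U ν hU hν => ?_⟩
  have hνp := hν.prob
  have hEmI := hEm ν U hνp (crossU_of hZ1 hZ3 hν) (fun _ => r) (fun _ => hr1) I
    (fun i hi v hv => by
      obtain ⟨u, hu, h⟩ := hIU i hi v (mem_bxx.1 hv)
      exact hU u hu v h)
    (fun i hi i' hi' hne => absurd ((hI0 i hi).trans (hI0 i' hi').symm) hne)
  refine le_trans ?_ (hEmI.trans (ENNReal.ofReal_le_ofReal (Real.exp_le_exp.2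
    (mul_le_mul_of_nonneg_right hI hb))))
  refine Em_mono (μ := ν) (f := fun ω => s * (((∑ i ∈ I, Z (gp r i.2) r ω) / N : ℕ) : ℝ))
    fun ω => ?_
  show s * (((∑ i ∈ I, Z (gp r i.2) r ω) / N : ℕ) : ℝ) ≤ _
  have hN1 : (0 : ℝ) < N := by exact_mod_cast hN0
  have h5 : (((∑ i ∈ I, Z (gp r i.2) r ω) / N : ℕ) : ℝ) ≤
      (∑ i ∈ I, (Z (gp r i.2) r ω : ℝ)) / N := by
    refine Nat.cast_div_le.trans ?_
    rw [Nat.cast_sum]
  have h6 : (0 : ℝ) ≤ (((∑ i ∈ I, Z (gp r i.2) r ω) / N : ℕ) : ℝ) := by positivity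
  calc s * (((∑ i ∈ I, Z (gp r i.2) r ω) / N : ℕ) : ℝ)
      ≤ |s| * (((∑ i ∈ I, Z (gp r i.2) r ω) / N : ℕ) : ℝ) :=
        mul_le_mul_of_nonneg_right (le_abs_self s) h6
    _ ≤ (θ * N) * ((∑ i ∈ I, (Z (gp r i.2) r ω : ℝ)) / N) :=
        mul_le_mul hsn h5 h6 (by positivity)
    _ = _ := by field_simp

end Vale.Agent.P167.H562.QM
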